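import Crest.Agent.X262.FG.Up0
import Crest.Agent.X262.Geo.Val

/-!
# X262/FG/Prm0 (helper5): the prime divisors of a smooth model

* `prm_of_isPD`, `isPD_of_prm` : the dictionary `Link.IsPD` versus `Pst.Prm`;
* `gam P e`   : the prime divisor `e` as a Cartier divisor of `P`;
* `bnum_eq_zero_of_pd` : a b-divisor without trace on `P` has degree zero;
* `eq_zero_of_bnum`    : an effective divisor of degree zero vanishes.
-/

set_option autoImplicit false
set_option linter.unusedSectionVars false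

open WithZero
open scoped KaehlerDifferential

noncomputable section

namespace Crest.Agent.X262.FG.Prm5

open Crest.Agent.X277 Crest.Agent.X277.Lef Crest.Agent.X277.AN.G1 Crest.Agent.X277.BD
open Crest.Agent.X277.BD.Br (At oP kP)
open Crest.Agent.X277.Link (IsPD pdiv)
open Crest.Agent.X277.Pst (Prm loc Dvs)
open Crest.Agent.X277.Neg (nv isNv_nv)

variable {F : Type} [Field F] [Algebra ℂ F] {P : PModel ℂ F} {a : BD ℂ F}
  {v : Valuation F ℤᵐ⁰} {V : RZ ℂ F}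

theorem isMod_oP (P : PModel ℂ F) : Mod.IsMod (oP P) := ⟨Br.free_oP, Mod.bir_of_big (big_oP P)⟩

theorem car_of_on (ha : a ∈ Br.On P) : Mod.Car (oP P) a := by
  obtain ⟨m, hm⟩ := Br.serre ha
  obtain ⟨l, hl⟩ := Br.serre (neg_mem ha)
  exact Mod.car_of Br.free_oP (add_comm a _ ▸ hm m le_rfl)
    (by rw [sub_eq_neg_add]; exact hl l le_rfl)

theorem chart_le {i : Fin (P.N + 1)} (h : V.v (P.y i) = (oP P).val V) : ∀ y ∈ P.A i, y ∈ V.1 := by
  refine V.2.adjoin_le ?_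
  rintro _ ⟨j, rfl⟩
  exact (RZ.le_iff (P.y_ne i)).1 (h ▸ Br.y_mem_Sec j V)

theorem v_y {i : Fin (P.N + 1)} (h : ∀ y ∈ P.A i, y ∈ V.1) : V.v (P.y i) = (oP P).val V :=
  (val_mxf (P.y_ne i) fun j => (RZ.le_iff (P.y_ne i)).2 (h _ (div_mem_chart P.y i j))).symm

theorem div_mem_A {i : Fin (P.N + 1)} {m : ℕ} {g : F} (hg : g ∈ (m • oP P).Sec) :
    g / P.y i ^ m ∈ P.A i := mem_A_iff.2 fun _ hx => ((Br.at_y hx).nsmul m).div_mem hg

variable [Algebra.EssFiniteType ℂ F]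

theorem prm_of_isPD (hv : IsPD P v) : Prm (oP P) (rz v hv.triv) := by
  obtain ⟨i, hi⟩ := hv.loc
  have h1 : ∀ y ∈ P.A i, y ∈ loc (oP P) (rz v hv.triv) := fun y hy =>
    Geo.mem_loc_of_chart Br.free_oP (Br.y_mem_Sec i) (v_y hi.le) fun W hW => chart_le hW y hy
  refine Geo.prm_of_loc (isMod_oP P) (Geo.isNv_rz _ hv.nrm) fun x hx => ?_
  obtain ⟨c, hc, h2, h3⟩ := hi.den x hx
  have h4 := mul_mem (Neg.inv_mem_loc (h1 c hc) ((Geo.isNv_rz _ hv.nrm).eq_one.1 h2)) (h1 _ h3)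
  rwa [inv_mul_cancel_left₀ (Link.ne_of_v_one h2)] at h4

theorem isPD_of_prm (hV : Prm (oP P) V) : IsPD P (nv V) := by
  obtain ⟨i, h1, h2⟩ := Br.exists_chart (P := P) V
  refine ⟨Geo.nv_unif hV.dvs, i, fun y hy => (Geo.nv_le_one hV.dvs).2 (h2 y hy), fun f hf => ?_⟩
  obtain ⟨m, g, h3, h4, h5⟩ := Neg.le_loc Br.free_oP (isMod_oP P).bir hV
    ((Geo.nv_le_one hV.dvs).1 hf)
  refine ⟨_, div_mem_A h3, (Geo.nv_eq_one hV.dvs).2 ?_, ?_⟩
  · rw [map_div₀, map_pow, h4, h1, val_nsmul, div_self (pow_ne_zero _ ((oP P).val_ne V))]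
  · rw [div_mul_eq_mul_div, mul_comm]
    exact div_mem_A h5

theorem od_eq (hv : IsPD P v) : Geo.od (rz v hv.triv) = ord v hv.triv := Geo.od_rz _ hv.nrm

theorem dg_pos {d : ℕ} (hd : dim ℂ F = d + 1) (hv : IsPD P v) :
    0 < Geo.dg (rz v hv.triv) (List.replicate d (oP P)) :=
  Geo.dg_pos (isMod_oP P) (prm_of_isPD hv) hd

/-- a b-divisor without trace on `P` has degree zero -/
theorem bnum_eq_zero_of_pd {d : ℕ} (hd : dim ℂ F = d + 1)
    (h : ∀ v (hv : IsPD P v), ord v hv.triv a = 0) :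
    bnum (a :: List.replicate d (oP P)) = 0 :=
  Geo.bnum_eq_zero fun _ hV h0 => Geo.dg_eq_zero Br.free_oP hV
    (fun h1 => h0 (h _ (isPD_of_prm h1))) hd

theorem ord_eq_zero_of_bnum {d : ℕ} (hd : dim ℂ F = d + 1) (h0 : 0 ≤ a)
    (h : bnum (a :: List.replicate d (oP P)) = 0) (hv : IsPD P v) : ord v hv.triv a = 0 := by
  have h1 := Geo.od_mul_le h0 (l := List.replicate d (oP P))
    (fun b hb => List.eq_of_mem_replicate hb ▸ Br.free_oP.nef) (prm_of_isPD hv).dvs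
  rw [h, od_eq hv] at h1
  have h2 := dg_pos hd hv
  have h3 := ord_nonneg (v := v) (hv := hv.triv) h0
  nlinarith

/-- an effective divisor of degree zero vanishes -/
theorem eq_zero_of_bnum {d : ℕ} (hd : dim ℂ F = d + 1) (ha : a ∈ Br.On P) (h0 : 0 ≤ a)
    (h : bnum (a :: List.replicate d (oP P)) = 0) : a = 0 :=
  eq_of_pd ha (zero_mem _) fun _ hv => (ord_eq_zero_of_bnum hd h0 h hv).trans (map_zero _).symm

omit [Algebra.EssFiniteType ℂ F]

variable (P) in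
/-- the prime divisor `e` as a Cartier divisor -/
def gam (e : (pdiv P).ι) : BD ℂ F := (exists_wd (Finsupp.single e 1)).choose

theorem gam_mem (e : (pdiv P).ι) : gam P e ∈ Br.On P := (exists_wd (Finsupp.single e 1)).choose_spec.1

theorem ord_gam (e e' : (pdiv P).ι) : ord e'.1 e'.2.triv (gam P e) = Finsupp.single e 1 e' :=
  (exists_wd (Finsupp.single e 1)).choose_spec.2 e'.1 e'.2

theorem ord_gam_self (e : (pdiv P).ι) : ord e.1 e.2.triv (gam P e) = 1 := by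
  rw [ord_gam, Finsupp.single_eq_same]

theorem ord_gam_ne {e e' : (pdiv P).ι} (h : e' ≠ e) : ord e'.1 e'.2.triv (gam P e) = 0 := by
  rw [ord_gam, Finsupp.single_eq_of_ne h]

theorem gam_nonneg (e : (pdiv P).ι) : 0 ≤ gam P e :=
  le_of_pd (zero_mem _) (gam_mem e) fun v hv => by
    rw [map_zero]
    rcases eq_or_ne ⟨v, hv⟩ e with rfl | h
    · exact (ord_gam_self ⟨v, hv⟩).ge.trans' zero_le_one
    · exact (ord_gam_ne h).ge

theorem zsmul_gam_le (ha : a ∈ Br.On P) (h0 : 0 ≤ a) (e : (pdiv P).ι) :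
    ord e.1 e.2.triv a • gam P e ≤ a :=
  le_of_pd (zsmul_mem (gam_mem e) _) ha fun v hv => by
    rw [map_zsmul]
    rcases eq_or_ne ⟨v, hv⟩ e with rfl | h
    · rw [ord_gam_self ⟨v, hv⟩, smul_eq_mul, mul_one]
    · rw [ord_gam_ne h, smul_zero]
      exact ord_nonneg h0

end Crest.Agent.X262.FG.Prm5
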