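import Crest.Agent.X262.FG.Defs
import Crest.Agent.X277.UP.Bert0
import Crest.Agent.X277.AN.G1TayC

/-!
# Row 262, FG (helper83): Bertini's theorem

* `bert_str`   : the local analytic form along a coordinate subspace;
* `Tr B x f`   : `f` is a unit at `x` or a coordinate which is transversal to the boundary;
* `sth_bad`    : the coefficients of the members which are not transversal form a thin set;
* `ext B h`    : the boundary enlarged by the components of a transversal divisor;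
* `exists_bd`, `bertStmt : BertStmt`.
-/

set_option autoImplicit false

open WithZero Set Filter Topology
open scoped ContDiff

noncomputable section

namespace Crest.Agent.X262.FG.Bert

open Crest.Agent.X277 Crest.Agent.X277.Lef Crest.Agent.X277.AN.G1 Crest.Agent.X277.BD
open Crest.Agent.X277.BD.Br (At oP kP)
open Crest.Agent.X277.Res.Out (Un Coords AtElt un_one)
open Crest.Agent.X277.Res.Log (Bd On un_iff)
open Crest.Agent.X277.Link (IsPD Eqn)
open Crest.Agent.R281.Thn_280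

theorem hco {E G H : Type} [NormedAddCommGroup E] [NormedSpace ℂ E] [NormedAddCommGroup G]
    [NormedSpace ℂ G] [NormedAddCommGroup H] [NormedSpace ℂ H] {g : G → H} {f : E → G}
    {g' : G →L[ℂ] H} {f' : E →L[ℂ] G} {x : E} {y : G} (hg : HasFDerivAt g g' y)
    (hf : HasFDerivAt f f' x) (h : f x = y) : HasFDerivAt (fun w => g (f w)) (g'.comp f') x :=
  HasFDerivAt.comp x (h ▸ hg) hf

/-- Bertini's theorem along the subspace `z l = 0`, `l ∈ S`, of a local coordinate system -/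
theorem bert_str {E : Type} [NormedAddCommGroup E] [NormedSpace ℂ E] [FiniteDimensional ℂ E]
    {J : Type} [Fintype J] {n : ℕ} {z : Fin n → E → ℂ} {u0 : E} (hz : ∀ l, AnalyticAt ℂ (z l) u0)
    (hn : Module.finrank ℂ E = n) (hs : ∀ a : Fin n → ℂ, ∃ v, ∀ l, fderiv ℂ (z l) u0 v = a l)
    {f : J → E → ℂ} (hf : ∀ j, AnalyticAt ℂ (f j) u0) {j0 : J} (h0 : f j0 u0 ≠ 0)
    (S : Set (Fin n)) (hS : ∀ l ∈ S, z l u0 = 0) :
    ∃ N ∈ 𝓝 u0, STh {a : J → ℂ | ∃ u ∈ N, (∀ l ∈ S, z l u = 0) ∧ ∑ j, a j * f j u = 0 ∧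
      ∀ v, (∀ l ∈ S, fderiv ℂ (z l) u v = 0) → fderiv ℂ (fun w => ∑ j, a j * f j w) u v = 0} := by
  classical
  have : CompleteSpace E := FiniteDimensional.complete ℂ E
  let Z : E → Fin n → ℂ := fun u l => z l u
  have hZ : AnalyticAt ℂ Z u0 := analyticAt_pi_iff.2 hz
  have hD : ∀ u, (∀ l, DifferentiableAt ℂ (z l) u) → ∀ v l,
      fderiv ℂ Z u v l = fderiv ℂ (z l) u v := fun u hu v l => by
    rw [fderiv_pi hu]
    rfl
  have h1 : Function.Surjective (fderiv ℂ Z u0 : E →ₗ[ℂ] Fin n → ℂ) := fun a =>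
    (hs a).imp fun v hv => funext fun l => (hD u0 (fun l => (hz l).differentiableAt) v l).trans (hv l)
  have h2 := (LinearMap.injective_iff_surjective_of_finrank_eq_finrank (by simp [hn])).2 h1
  let L := (LinearEquiv.ofBijective _ ⟨h2, h1⟩).toContinuousLinearEquiv
  have hL : HasFDerivAt Z (L : E →L[ℂ] Fin n → ℂ) u0 := hZ.differentiableAt.hasFDerivAt
  have hc : ContDiffAt ℂ ω Z u0 := hZ.contDiffAt
  have hω : (ω : WithTop ℕ∞) ≠ 0 := by simp
  let ρ := hc.localInverse hL hω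
  have hρ : AnalyticAt ℂ ρ (Z u0) := (hc.to_localInverse hL hω).analyticAt
  have hl : ∀ᶠ u in 𝓝 u0, ρ (Z u) = u := (hc.hasStrictFDerivAt' hL hω).eventually_left_inverse
  have hr : ∀ᶠ w in 𝓝 (Z u0), Z (ρ w) = w := (hc.hasStrictFDerivAt' hL hω).eventually_right_inverse
  let π : (Fin n → ℂ) →L[ℂ] Fin n → ℂ :=
    ContinuousLinearMap.pi fun l => if l ∈ S then 0 else ContinuousLinearMap.proj l
  have hπ : ∀ w l, π w l = if l ∈ S then 0 else w l := fun w l => by
    simp only [π, ContinuousLinearMap.pi_apply]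
    split_ifs <;> rfl
  have hπ' : ∀ u, (∀ l ∈ S, z l u = 0) → π (Z u) = Z u := fun u hu => funext fun l => by
    rw [hπ]
    split_ifs with h
    exacts [(hu l h).symm, rfl]
  have h3 : ρ (π (Z u0)) = u0 := by rw [hπ' u0 hS, hl.self_of_nhds]
  have hg : ∀ j, AnalyticAt ℂ (fun w => f j (ρ (π w))) (Z u0) := fun j =>
    (hf j).comp_of_eq (f := fun w => ρ (π w))
      (hρ.comp_of_eq (π.analyticAt _) (hπ' u0 hS)) h3
  have h4 : ∀ᶠ w in 𝓝 (Z u0), (∀ j, AnalyticAt ℂ (fun w => f j (ρ (π w))) w) ∧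
      f j0 (ρ (π w)) ≠ 0 :=
    (eventually_all.2 fun j => (hg j).eventually_analyticAt).and
      ((hg j0).continuousAt.eventually_ne (by simpa only [h3] using h0))
  obtain ⟨W, hW, hWo, hW0⟩ := eventually_nhds_iff.1 h4
  have h5 : ∀ᶠ w in 𝓝 (Z u0), w ∈ W ∧ AnalyticAt ℂ ρ w ∧ ∀ᶠ w' in 𝓝 w, Z (ρ w') = w' :=
    (hWo.eventually_mem hW0).and (hρ.eventually_analyticAt.and hr.eventually_nhds)
  refine ⟨_, (hZ.continuousAt.eventually h5).and (hl.and
    ((eventually_all.2 fun j => (hf j).eventually_analyticAt).and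
      (eventually_all.2 fun l => (hz l).eventually_analyticAt))), ?_⟩
  refine (UP.bert_loc hWo (f := fun j w => f j (ρ (π w))) (fun j w hw => (hW w hw).1 j) j0
    fun w hw => (hW w hw).2).mono ?_
  rintro a ⟨u, ⟨⟨h6, h7, h8⟩, h9, h10, h11⟩, h12, h13, h14⟩
  have h15 : ρ (π (Z u)) = u := by rw [hπ' u h12, h9]
  refine ⟨Z u, h6, by simpa only [h15] using h13, ?_⟩
  have h16 : DifferentiableAt ℂ (fun w => ∑ j, a j * f j w) u :=
    DifferentiableAt.fun_sum fun j _ => (h10 j).differentiableAt.const_mul _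
  have h17 : HasFDerivAt (fun w => ρ (π w)) ((fderiv ℂ ρ (Z u)).comp π) (Z u) :=
    hco h7.differentiableAt.hasFDerivAt π.hasFDerivAt (hπ' u h12)
  have h18 := (hco h16.hasFDerivAt h17 h15).fderiv
  refine h18.trans (ContinuousLinearMap.ext fun v => h14 _ fun l hl => ?_)
  have h19 : DifferentiableAt ℂ Z u := (analyticAt_pi_iff.2 h11).differentiableAt
  have h20 := (hco h19.hasFDerivAt h7.differentiableAt.hasFDerivAt h9).unique
    ((hasFDerivAt_id (Z u)).congr_of_eventuallyEq h8)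
  have h21 := congrArg (fun T : (Fin n → ℂ) →L[ℂ] Fin n → ℂ => T (π v) l) h20
  rw [← hD u fun l => (h11 l).differentiableAt]
  exact h21.trans ((hπ v l).trans (if_pos hl))

variable {F : Type} [Field F] [Algebra ℂ F] {P : PModel ℂ F} {n : ℕ}

/-- `f` is a unit at `x` or a coordinate which is transversal to the boundary -/
def Tr (B : Bd P n) (x : Pts P) (f : F) : Prop :=
  Un (lp x).O f ∨ ∃ (t : Fin n → F) (σ : {e // On (B.v e) x} → Fin n) (l : Fin n),
    Coords (lp x).O t ∧ Function.Injective σ ∧ (∀ e, B.τ e.1 x = t (σ e)) ∧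
      (∀ e, σ e ≠ l) ∧ t l = f

theorem crd_update {L : LP F} {t c : Fin n → F} (ht : Coords L.O t) (hc : ∀ l, c l ∈ L.O)
    {l : Fin n} (hl : L.v (c l) ≠ 0) : L.Crd (Function.update t l (∑ m, c m * t m)) ∧
      ∀ m, L.v (Function.update t l (∑ m, c m * t m) m) = 0 := by
  classical
  have h1 : ∑ m, c m * t m ∈ L.O := sum_mem fun m _ => mul_mem (hc m) (ht.mem m)
  have h2 : ∀ m, L.v (Function.update t l (∑ m, c m * t m) m) = 0 := fun m => by
    by_cases h : m = l
    · rw [h, Function.update_self, L.v_sum _ fun m _ => mul_mem (hc m) (ht.mem m)]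
      exact Finset.sum_eq_zero fun m _ => by
        rw [L.v_mul (hc m) (ht.mem m), Res.Log.v_coord ht, mul_zero]
    · rw [Function.update_of_ne h, Res.Log.v_coord ht]
  refine ⟨⟨fun m => ?_, fun f hf => ?_⟩, h2⟩
  · by_cases h : m = l
    · rwa [h, Function.update_self]
    · rw [Function.update_of_ne h]
      exact ht.mem m
  · obtain ⟨d, hd, h3⟩ := (Res.Log.crd_of_coords ht).gen f hf
    have h4 : d l / c l ∈ L.O := L.div_mem (hd l) hl
    refine ⟨Function.update (fun m => d m - d l / c l * c m) l (d l / c l), fun m => ?_, ?_⟩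
    · by_cases h : m = l
      · rwa [h, Function.update_self]
      · rw [Function.update_of_ne h]
        exact sub_mem (hd m) (mul_mem h4 (hc m))
    · refine h3.trans ?_
      simp only [h2, Res.Log.v_coord ht, map_zero, sub_zero, add_right_inj]
      have h5 : ∀ m, Function.update (fun m => d m - d l / c l * c m) l (d l / c l) m *
          Function.update t l (∑ m, c m * t m) m = d m * t m - d l / c l * (c m * t m) +
            if m = l then d l / c l * ∑ m, c m * t m else 0 := fun m => by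
        by_cases h : m = l
        · rw [h, Function.update_self, Function.update_self, if_pos rfl, ← mul_assoc,
            div_mul_cancel₀ _ (LP.ne_zero_of_ne hl), sub_self, zero_add]
        · rw [Function.update_of_ne h, Function.update_of_ne h, if_neg h]
          ring
      simp only [h5, Finset.sum_add_distrib, Finset.sum_sub_distrib, ← Finset.mul_sum,
        Finset.sum_ite_eq', Finset.mem_univ, if_true, sub_add_cancel]

variable {X : AnP P n} {α : X.A.ι} {x : Pts P}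

theorem dv_unit (hx : x ∈ (X.A.e α).source) (w : R275.Geo.Cn n) {u f : F} (hu : u ∈ (lp x).O)
    (hf : f ∈ (lp x).O) (h0 : ev f x = 0) : X.dv α x w (u * f) = ev u x * X.dv α x w f := by
  rw [AnP.dv_mul hx w hu hf, h0, zero_mul, add_zero]

theorem tr_of_dv (B : Bd P n) (hx : x ∈ (X.A.e α).source) {f : F} (hf : f ∈ (lp x).O)
    {w : R275.Geo.Cn n} (h1 : ∀ e, On (B.v e) x → X.dv α x w (B.τ e x) = 0)
    (h2 : X.dv α x w f ≠ 0) : Tr B x f := by
  classical
  by_cases h0 : Un (lp x).O f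
  · exact Or.inl h0
  obtain ⟨t, σ, ht, hσ, h3⟩ := B.snc x
  obtain ⟨c, hc, rfl⟩ := ht.gen f ⟨hf, h0⟩
  have h4 : ∀ l, ev (t l) x = 0 := Res.Log.v_coord ht
  rw [AnP.dv_sum hx w _ fun l _ => mul_mem (hc l) (ht.mem l)] at h2
  obtain ⟨l, -, hl⟩ := Finset.exists_ne_zero_of_sum_ne_zero h2
  rw [dv_unit hx w (hc l) (ht.mem l) (h4 l), mul_ne_zero_iff] at hl
  have h5 : ∀ e, σ e ≠ l := fun e he => hl.2 (by rw [← he, ← h3, h1 _ e.2])
  obtain ⟨b⟩ := B.exists_basis
  obtain ⟨h6, h7⟩ := crd_update ht hc hl.1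
  exact Or.inr ⟨_, σ, l, Res.Log.coords_of_crd b h6 h7, hσ,
    fun e => by rw [Function.update_of_ne (h5 e), h3], h5, Function.update_self ..⟩

theorem ev_sum_smul {J : Type} [Fintype J] {f : J → F} (hf : ∀ j, f j ∈ (lp x).O) (u : J → ℂ) :
    ev (∑ j, u j • f j) x = ∑ j, u j * ev (f j) x := by
  unfold ev
  rw [LP.v_sum _ fun j _ => Subalgebra.smul_mem _ (hf j) _]
  exact Finset.sum_congr rfl fun j _ => LP.v_smul _ (hf j)

/-- local form on the model -/
theorem sth_loc (B : Bd P n) {J : Type} [Fintype J] {f : J → F} (x0 : Pts P)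
    (hf : ∀ j, f j ∈ (lp x0).O) {j0 : J} (h0 : ev (f j0) x0 ≠ 0) :
    ∃ N ∈ 𝓝 x0, STh {u : J → ℂ | ∃ x ∈ N, ∃ g, Un (lp x).O g ∧
      ¬ Tr B x (g * ∑ j, u j • f j)} := by
  classical
  obtain ⟨b⟩ := B.exists_basis
  obtain ⟨X⟩ := nonempty_AnP P b
  obtain ⟨α, hα⟩ := X.A.cover x0
  obtain ⟨t, σ, ht, hσ, h3⟩ := B.snc x0
  have h4 := fun S : Set (Fin n) => bert_str (z := fun l => X.rd α (ev (t l)))
    (fun l => AnP.analyticAt_ev hα (ht.mem l)) (by simp)
    (AnP.dv_surjT hα (Res.Log.crd_of_coords ht)) (f := fun j => X.rd α (ev (f j)))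
    (fun j => AnP.analyticAt_ev hα (hf j)) (j0 := j0) (by rwa [AnP.rd_self hα]) S
    fun l _ => (AnP.rd_self hα _).trans (Res.Log.v_coord ht l)
  choose N hN hS using h4
  have h5 : ∀ᶠ x in 𝓝 x0, x ∈ (X.A.e α).source ∧ (∀ S, X.A.e α x ∈ N S) ∧
      (∀ j, f j ∈ (lp x).O) ∧ (∀ l, t l ∈ (lp x).O) ∧
      (∀ e, Un (lp x).O (B.τ e x / B.τ e x0)) ∧ ∀ e, On (B.v e) x → On (B.v e) x0 := by
    refine ((X.A.e α).open_source.eventually_mem hα).and (Eventually.and
      (eventually_all.2 fun S => ((X.A.e α).continuousAt hα).eventually (hN S))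
      ((eventually_all.2 fun j => (isOpen_reg _).eventually_mem (hf j)).and
      ((eventually_all.2 fun l => (isOpen_reg _).eventually_mem (ht.mem l)).and
      ((eventually_all.2 fun e => B.coh e x0).and (eventually_all.2 fun e => ?_)))))
    by_cases h : On (B.v e) x0
    · exact Eventually.of_forall fun _ _ => h
    · exact (Link.eventually_not_on h).mono fun x h1 h2 => absurd h2 h1
  refine ⟨_, h5, (sth_iUnion hS).mono ?_⟩
  rintro u ⟨x, ⟨hx, h6, h7, h8, h9, h10⟩, g, hg, h11⟩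
  have h12 : ∑ j, u j • f j ∈ (lp x).O := sum_mem fun j _ => Subalgebra.smul_mem _ (h7 j) _
  have h13 : ev (∑ j, u j • f j) x = 0 := by
    by_contra h
    exact h11 (Or.inl (hg.mul (un_iff.2 h)))
  have h14 : ∀ e (he : On (B.v e) x), B.τ e x = B.τ e x / B.τ e x0 * t (σ ⟨e, h10 e he⟩) :=
    fun e he => by rw [← h3, div_mul_cancel₀ _ (B.τ_ne e x0)]
  have h15 : ∀ e (he : On (B.v e) x), ev (t (σ ⟨e, h10 e he⟩)) x = 0 := fun e he => by
    have h := Bd.on_iff.1 he
    rw [h14 e he, ev, (lp x).v_mul (h9 e).2.1 (h8 _)] at h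
    exact (mul_eq_zero.1 h).resolve_left (un_iff.1 (h9 e))
  refine mem_iUnion.2 ⟨{l | ∃ (e : B.ι) (he : On (B.v e) x), σ ⟨e, h10 e he⟩ = l}, _, h6 _,
    ?_, ?_, fun w hw => ?_⟩
  · rintro _ ⟨e, he, rfl⟩
    exact (AnP.rd_self hx _).trans (h15 e he)
  · rw [← h13, ev_sum_smul h7]
    exact Finset.sum_congr rfl fun j _ => by rw [AnP.rd_self hx]
  · by_contra h16
    refine h11 (tr_of_dv B hx (mul_mem hg.2.1 h12) (w := w) (fun e he => ?_) ?_)
    · rw [h14 e he, dv_unit hx w (h9 e).2.1 (h8 _) (h15 e he)]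
      exact mul_eq_zero_of_right _ (hw _ ⟨e, he, rfl⟩)
    · rw [dv_unit hx w hg.2.1 h12 h13]
      refine mul_ne_zero (un_iff.1 hg) fun h => h16 (Eq.trans ?_ h)
      have h17 : (fun w => ∑ j, u j * X.rd α (ev (f j)) w) =ᶠ[𝓝 (X.A.e α x)]
          X.rd α (ev (∑ j, u j • f j)) :=
        (AnP.eventually_rd hx (eventually_all.2 fun j =>
          (isOpen_reg _).eventually_mem (h7 j))).mono fun w hw => (ev_sum_smul hw.2.2 u).symm
      rw [h17.fderiv_eq]
      rfl

/-- **Bertini**: the members which are not transversal to the boundary form a thin set -/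
theorem sth_bad (B : Bd P n) {a : BD ℂ F} {J : Type} [Fintype J] {t : J → F}
    (ht : ∀ j, t j ∈ a.Sec) (hg : ∀ x : Pts P, ∃ j, At a x (t j)) :
    STh {u : J → ℂ | ∃ x g, At a x g ∧ ¬ Tr B x ((∑ j, u j • t j) / g)} := by
  choose i hi using hg
  choose N hN hS using fun x => sth_loc B (f := fun j => t j / t (i x)) x
    (fun j => (hi x).div_mem (ht j)) (j0 := i x) ((hi x).ev_div_ne (hi x))
  obtain ⟨T, -, hT⟩ := isCompact_univ.elim_nhds_subcover _
    fun x _ => inter_mem (hN x) (hi x).eventually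
  refine (sth_iUnion fun x : T => hS x).mono ?_
  rintro u ⟨x, g, h1, h2⟩
  obtain ⟨x0, h3, h4, h5⟩ := mem_iUnion₂.1 (hT (mem_univ x))
  refine mem_iUnion.2 ⟨⟨x0, h3⟩, x, h4, t (i x0) / g, un_iff.2 (At.ev_div_ne h5 h1), ?_⟩
  convert h2 using 2
  simp only [← smul_div_assoc, ← Finset.sum_div]
  rw [mul_comm, div_mul_div_cancel₀ (hi x0).ne]

section Ext

variable (B : Bd P n) {f : Pts P → F} (h : ∀ x, Tr B x (f x))
  (hc : ∀ x, ∀ᶠ x' in 𝓝 x, Un (lp x').O (f x' / f x))
  (hv : ∀ (v : Valuation F ℤᵐ⁰) (x x' : Pts P), On v x → On v x' → v (f x) = v (f x'))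

/-- the components of the divisor with the local equations `f` -/
def Cp (f : Pts P → F) : Type :=
  {v : Valuation F ℤᵐ⁰ // IsPD P v ∧ ∃ x : Pts P, On v x ∧ v (f x) < 1}

variable {B}

theorem Tr.ne {g : F} (h : Tr B x g) : g ≠ 0 := by
  rcases h with h | ⟨t, -, l, ht, -, -, -, rfl⟩
  exacts [h.1, ht.ne_zero l]

theorem Tr.mem {g : F} (h : Tr B x g) : g ∈ (lp x).O := by
  rcases h with h | ⟨t, -, l, ht, -, -, -, rfl⟩
  exacts [h.2.1, ht.mem l]

theorem Tr.exists_eqn {g : F} (h : Tr B x g) (h0 : ¬ Un (lp x).O g) :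
    ∃ v, Eqn (lp x).O v g ∧ ∀ y, v y ≤ 1 ↔ AtElt (lp x).O g y := by
  rcases h with h | ⟨t, -, l, ht, -, -, -, rfl⟩
  exacts [absurd h h0, Link.exists_eqn_of_primeElt (Res.Log.primeElt_coord ht l)]

theorem Tr.eqn {g : F} (h : Tr B x g) {v : Valuation F ℤᵐ⁰} (h1 : IsPD P v) (h2 : On v x)
    (h3 : v g < 1) : Eqn (lp x).O v g ∧ ∀ y, v y ≤ 1 ↔ AtElt (lp x).O g y := by
  obtain ⟨w, h4, h5⟩ := h.exists_eqn fun h6 => h3.ne (h2.v_un h6)
  obtain rfl := h4.eq_of_lt h1.nrm (h1.loc_lp h2) h3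
  exact ⟨h4, h5⟩

include h hc in
theorem finite_cp : Finite (Cp f) := by
  obtain ⟨T, -, hT⟩ := isCompact_univ.elim_nhds_subcover _ fun x _ => hc x
  refine Set.Finite.to_subtype ((T.finite_toSet.biUnion fun x _ =>
    Link.finite_isPD P (h x).ne).subset ?_)
  rintro v ⟨h1, x, h2, h3⟩
  obtain ⟨x0, h4, h5⟩ := mem_iUnion₂.1 (hT (mem_univ x))
  refine mem_biUnion h4 ⟨h1, fun h6 => h3.ne ?_⟩
  have h7 := h2.v_un h5
  rwa [map_div₀, h6, div_one] at h7

include hv in
theorem Cp.lt (w : Cp f) (hx : On w.1 x) : w.1 (f x) < 1 := by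
  obtain ⟨y, h1, h2⟩ := w.2.2
  rwa [hv w.1 x y hx h1]

open Classical in
/-- the boundary enlarged by the components of the divisor with the local equations `f` -/
def ext : Bd P n where
  ι := B.ι ⊕ Cp f
  fin := haveI := finite_cp h hc; Fintype.ofFinite _
  v := Sum.elim B.v Subtype.val
  τ := Sum.elim B.τ fun w x => if On w.1 x then f x else 1
  ne := Sum.rec B.ne fun w => w.2.2.imp fun _ h => h.1
  off := Sum.rec B.off fun _ _ h => if_neg h
  unif := Sum.rec B.unif fun w x hx =>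
    (congrArg w.1 (if_pos hx)).trans ((h x).eqn w.2.1 hx (w.lt hv hx)).1.val
  val := Sum.rec B.val fun w x hx y => by
    change w.1 y ≤ 1 ↔ AtElt _ (if On w.1 x then f x else 1) y
    rw [if_pos (show On w.1 x from hx)]
    exact ((h x).eqn w.2.1 hx (w.lt hv hx)).2 y
  snc x := by
    rcases h x with h1 | ⟨t, σ, l, ht, h1, h2, h3, h4⟩
    · obtain ⟨t, σ, ht, h2, h3⟩ := B.snc x
      have h4 : ∀ w : Cp f, ¬ On w.1 x := fun w hw => (w.lt hv hw).ne (hw.v_un h1)
      refine ⟨t, fun e => match e with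
        | ⟨.inl e, he⟩ => σ ⟨e, he⟩
        | ⟨.inr w, hw⟩ => absurd hw (h4 w), ht, ?_, ?_⟩
      · rintro ⟨e | w, he⟩ ⟨e' | w', he'⟩ h5
        · exact Subtype.ext (congrArg (fun y => Sum.inl y.1) (h2 h5))
        · exact absurd he' (h4 w')
        · exact absurd he (h4 w)
        · exact absurd he (h4 w)
      · rintro ⟨e | w, he⟩
        exacts [h3 ⟨e, he⟩, absurd he (h4 w)]
    · refine ⟨t, fun e => match e with
        | ⟨.inl e, he⟩ => σ ⟨e, he⟩
        | ⟨.inr _, _⟩ => l, ht, ?_, ?_⟩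
      · rintro ⟨e | w, he⟩ ⟨e' | w', he'⟩ h5
        · exact Subtype.ext (congrArg (fun y => Sum.inl y.1) (h1 h5))
        · exact absurd h5 (h3 _)
        · exact absurd h5.symm (h3 _)
        · exact Subtype.ext (congrArg Sum.inr (Subtype.ext
            (((h x).eqn w'.2.1 he' (w'.lt hv he')).1.eq_of_lt w.2.1.nrm (w.2.1.loc_lp he)
              (w.lt hv he))))
      · rintro ⟨e | w, he⟩
        exacts [h2 ⟨e, he⟩, (if_pos he).trans h4.symm]
  coh := Sum.rec B.coh fun w x => by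
    change ∀ᶠ x' in 𝓝 x, Un _ ((if On w.1 x' then f x' else 1) / if On w.1 x then f x else 1)
    by_cases h1 : On w.1 x
    · filter_upwards [hc x, ((h x).eqn w.2.1 h1 (w.lt hv h1)).1.eventually] with y h2 h3
      rw [if_pos h1]
      by_cases h4 : On w.1 y
      · rwa [if_pos h4]
      · rw [if_neg h4, one_div]
        exact (un_iff.2 (h3.2 h4)).inv
    · filter_upwards [Link.eventually_not_on h1] with y h2
      rw [if_neg h1, if_neg h2, div_one]
      exact un_one

theorem un_ext (x : Pts P) {m : (ext h hc hv).ι → ℤ} (h0 : ∀ e, m (.inl e) = 0)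
    (h1 : ∀ w, m (.inr w) = 1) : Un (lp x).O (f x / (ext h hc hv).mon x m) := by
  unfold Bd.mon
  by_cases h2 : Un (lp x).O (f x)
  · rwa [Finset.prod_eq_one, div_one]
    rintro (e | w) -
    · rw [h0, zpow_zero]
    · rw [h1, zpow_one]
      exact if_neg fun hw => (Cp.lt hv w hw).ne (hw.v_un h2)
  · obtain ⟨v, h3, -⟩ := (h x).exists_eqn h2
    let w0 : Cp f := ⟨v, h3.isPD, x, h3.on, h3.lt⟩
    have h5 : ∏ e, (ext h hc hv).τ e x ^ m e = (ext h hc hv).τ (.inr w0) x ^ m (.inr w0) := by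
      refine Finset.prod_eq_single _ ?_ fun h4 => absurd (Finset.mem_univ _) h4
      rintro (e | w) - hw
      · rw [h0, zpow_zero]
      · rw [h1, zpow_one]
        exact if_neg fun h4 => hw (congrArg Sum.inr (Subtype.ext
          (h3.eq_of_lt w.2.1.nrm (w.2.1.loc_lp h4) (Cp.lt hv w h4))))
    rw [h5, h1, zpow_one, show (ext h hc hv).τ (.inr w0) x = f x from if_pos h3.on, div_self h3.ne]
    exact un_one

end Ext

/-- a transversal member is a reduced divisor which has normal crossings with the boundary -/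
theorem exists_bd (B : Bd P n) {a : BD ℂ F} (ha : a ∈ Br.On P) {s : F}
    (h : ∀ x g, At a x g → Tr B x (s / g)) :
    s ≠ 0 ∧ ∃ (C : Bd P n) (j : B.ι → C.ι) (c : C.ι → ℤ), (∀ e, C.v (j e) = B.v e ∧ c (j e) = 0) ∧
      (∀ e', e' ∉ Set.range j → c e' = 1) ∧ a - pr ℂ s = dvs C c := by
  choose g hg using ha
  have h1 := fun x => h x _ (hg x)
  have h0 : s ≠ 0 := fun h0 => (h1 (Classical.arbitrary _)).ne (by rw [h0, zero_div])
  have h2 : ∀ x, ∀ᶠ x' in 𝓝 x, Un (lp x').O (s / g x' / (s / g x)) := fun x =>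
    (hg x).eventually.mono fun x' h3 => by
      rw [div_div_div_comm, div_self h0, one_div_div]
      exact un_iff.2 (h3.ev_div_ne (hg x'))
  have h3 : ∀ (v : Valuation F ℤᵐ⁰) (x x' : Pts P), On v x → On v x' →
      v (s / g x) = v (s / g x') := fun v x x' hx hx' => by
    have h4 : ∀ c : ℂ, v (algebraMap ℂ F c) ≤ 1 := fun c => hx _ (algebraMap_mem _ c)
    have h6 := (hg x (rz v h4) fun f hf => hx f hf).trans
      (hg x' (rz v h4) fun f hf => hx' f hf).symm
    rw [map_div₀, map_div₀, (v_rz_eq_iff v h4).1 h6]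
  refine ⟨h0, ext h1 h2 h3, Sum.inl, Sum.elim (fun _ => 0) fun _ => 1, fun e => ⟨rfl, rfl⟩, ?_,
    Br.ext_at (P := P) fun x => ⟨_, (hg x).sub (Br.at_pr x h0), (at_dvs _ _ x).of_ev' ?_⟩⟩
  · rintro (e | w) he
    exacts [absurd ⟨e, rfl⟩ he, rfl]
  · have h4 := (un_ext h1 h2 h3 x (m := Sum.elim (fun _ => 0) fun _ => 1) (fun _ => rfl)
      fun _ => rfl).inv
    rw [inv_div, div_eq_mul_inv, inv_div, mul_comm, ← div_inv_eq_mul] at h4
    exact un_iff.1 h4

/-- a thin set does not contain the complement of a hypersurface -/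
theorem exists_not_mem {J : Type} [Fintype J] {S : Set (J → ℂ)} (hS : STh S)
    {U : MvPolynomial J ℂ} (hU : U ≠ 0) : ∃ u, MvPolynomial.eval u U ≠ 0 ∧ u ∉ S := by
  refine (UP.sth_dense hS).inter_open_nonempty {u | MvPolynomial.eval u U ≠ 0}
    (isOpen_ne_fun (MvPolynomial.continuous_eval U) continuous_const) ?_
  by_contra h
  exact hU (MvPolynomial.funext fun u => by
    by_contra h1
    exact h ⟨u, by simpa using h1⟩)

/-- **Bertini's theorem** -/
theorem bertStmt : BertStmt := by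
  intro F _ _ n P B a ha N t h1 h2 U hU
  obtain ⟨u, h3, h4⟩ := exists_not_mem (sth_bad B h1 h2) hU
  obtain ⟨h5, C, j, c, h6⟩ := exists_bd B ha (s := ∑ i, u i • t i) fun x g hg => by
    by_contra h
    exact h4 ⟨x, g, hg, h⟩
  exact ⟨u, C, j, c, h3, h5, h6⟩

end Crest.Agent.X262.FG.Bert
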