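import Crest.Agent.X262.FG.Defs
import Crest.Agent.X277.BD.Num

/-!
# Row 262, FG, section 5 (helper29): the geometric inputs of non-vanishing

* `Pf P ι`   : a family of prime divisors of the model `P`, as valuations and as Cartier divisors;
* `L51Stmt`  : an adjoint divisor which is numerically effective is `ℚ`-effective;
* `NZStmt`   : numerically trivial on the model implies nef;
* `NSStmt`   : the numerical classes of a model have finite rank;
* `VGStmt`   : very general points;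
* `PtStmt`   : the order of vanishing at a point: jets and log discrepancy;
* `PrmStmt`, `PosStmt` : all primes of a model, degrees;
* `UpNStmt`  : the log resolution which is used.
-/

set_option autoImplicit false

open WithZero
open scoped KaehlerDifferential

noncomputable section

namespace Crest.Agent.X262.FG

open Crest.Agent.X277 Crest.Agent.X277.Lef Crest.Agent.X277.AN.G1 Crest.Agent.X277.BD
open Crest.Agent.X277.BD.Br (At oP kP)
open Crest.Agent.X277.Res.Log (Bd)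

/-- a family of distinct prime divisors of `P` -/
structure Pf {F : Type} [Field F] [Algebra ℂ F] (P : PModel ℂ F) (ι : Type) where
  /-- the valuations -/
  v : ι → Valuation F ℤᵐ⁰
  hv : ∀ (i : ι) (c : ℂ), v i (algebraMap ℂ F c) ≤ 1
  /-- the divisors -/
  Γ : ι → BD ℂ F
  mem : ∀ i, Γ i ∈ Br.On P
  nonneg : ∀ i, 0 ≤ Γ i
  self : ∀ i, ord (v i) (hv i) (Γ i) = 1
  ne : ∀ i j, i ≠ j → ord (v i) (hv i) (Γ j) = 0
  le : ∀ i, ∀ a ∈ Br.On P, 0 ≤ a → ord (v i) (hv i) a • Γ i ≤ a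

/-- Lemma 5.1: `r K + a + ∑ c e • D e ≡ y ≥ 0` implies `ℚ`-effective -/
def L51Stmt (n : ℕ) : Prop := ∀ (F : Type) [Field F] [Algebra ℂ F] [Algebra.EssFiniteType ℂ F]
  (P : PModel ℂ F) (B : Bd P n) (b : Module.Basis (Fin n) F Ω[F⁄ℂ]) (r : ℕ) (a : BD ℂ F)
  (c : B.ι → ℤ) (y : BD ℂ F), 0 < r → Amp P a → (∀ e, 0 ≤ c e ∧ c e ≤ r) → y ∈ Br.On P → 0 ≤ y →
  Nef (r • kP P b + a + dvs B c - y) → Nef (-(r • kP P b + a + dvs B c - y)) →
  ∃ q : ℕ, 0 < q ∧ Eff (q • (r • kP P b + a + dvs B c))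

/-- numerically trivial on the model implies nef -/
def NZStmt : Prop := ∀ (F : Type) [Field F] [Algebra ℂ F] [Algebra.EssFiniteType ℂ F]
  (P : PModel ℂ F), ∀ z ∈ Br.On P,
  (∀ l : List (BD ℂ F), (∀ x ∈ l, x ∈ Br.On P) → bnum (z :: l) = 0) → Nef z

/-- finite rank of the numerical classes of a model -/
def NSStmt : Prop := ∀ (F : Type) [Field F] [Algebra ℂ F] [Algebra.EssFiniteType ℂ F]
  (P : PModel ℂ F), ∃ ρ : ℕ, ∀ a : Fin (ρ + 1) → BD ℂ F, (∀ i, a i ∈ Br.On P) →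
  ∃ m : Fin (ρ + 1) → ℝ, m ≠ 0 ∧ ∀ l : List (BD ℂ F), (∀ x ∈ l, x ∈ Br.On P) →
    ∑ i, m i * (bnum (a i :: l) : ℝ) = 0

/-- countably many nonzero functions are units at some point -/
def VGStmt : Prop := ∀ (F : Type) [Field F] [Algebra ℂ F] (P : PModel ℂ F) (f : ℕ → F),
  (∀ i, f i ≠ 0) → ∃ x : Pts P, ∀ i, ev (f i) x ≠ 0

/-- the order `v` of vanishing at the point `x`: it imposes at most `d ^ n` conditions to vanish
to order `d`, the log discrepancy of `v` is `n`, the centre of `v` is `x` -/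
def PtStmt (n : ℕ) : Prop := ∀ (F : Type) [Field F] [Algebra ℂ F] [Algebra.EssFiniteType ℂ F]
  (P : PModel ℂ F) (b : Module.Basis (Fin n) F Ω[F⁄ℂ]) (x : Pts P),
  ∃ (v : Valuation F ℤᵐ⁰) (hv : ∀ c : ℂ, v (algebraMap ℂ F c) ≤ 1),
    (∀ (a : BD ℂ F) (g : F) (d : ℕ), At a x g → d ^ n < Module.finrank ℂ a.Sec →
      ∃ s ∈ a.Sec, s ≠ 0 ∧ (d : ℤ) ≤ ord v hv (a - pr ℂ s)) ∧
    ∀ (Q : PModel ℂ F) (C : Bd Q n), oP P ∈ Br.On Q →
      ord v hv (kP Q b + dvs C 1) ≤ ord v hv (kP P b) + n ∧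
      ∀ (e : C.ι) (c : C.ι → ℤ), (∀ e', e' ≠ e → c e' = 0) → ord v hv (dvs C c) ≠ 0 →
        ∀ f : F, ev f x ≠ 0 → C.v e f = 1

/-- all primes of a model; a b-divisor without components on the model has degree zero -/
def PrmStmt (n : ℕ) : Prop := ∀ (F : Type) [Field F] [Algebra ℂ F] [Algebra.EssFiniteType ℂ F]
  (P : PModel ℂ F) (_ : Module.Basis (Fin (n + 1)) F Ω[F⁄ℂ]), ∃ (ι : Type) (X : Pf P ι),
    (∀ a ∈ Br.On P, {i | ord (X.v i) (X.hv i) a ≠ 0}.Finite) ∧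
    ∀ a : BD ℂ F, 0 ≤ a → (∀ i, ord (X.v i) (X.hv i) a = 0) →
      bnum (a :: List.replicate n (oP P)) = 0

/-- an effective divisor of degree zero vanishes -/
def PosStmt (n : ℕ) : Prop := ∀ (F : Type) [Field F] [Algebra ℂ F] [Algebra.EssFiniteType ℂ F]
  (P : PModel ℂ F) (_ : Module.Basis (Fin (n + 1)) F Ω[F⁄ℂ]), ∀ a ∈ Br.On P, 0 ≤ a →
    bnum (a :: List.replicate n (oP P)) = 0 → a = 0

open Classical in
/-- a log resolution on which finitely many given b-divisors are boundary divisors: `κ` is the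
relative canonical divisor, `μ e` the pull-back of the component `e`, `N O(1) - g` is ample -/
def UpNStmt (n : ℕ) : Prop := ∀ (F : Type) [Field F] [Algebra ℂ F] [Algebra.EssFiniteType ℂ F]
  (P : PModel ℂ F) (B : Bd P n) (b : Module.Basis (Fin n) F Ω[F⁄ℂ]) (T : Finset (BD ℂ F)),
  ∃ (Q : PModel ℂ F) (C : Bd Q n) (κ g : C.ι → ℤ) (μ : B.ι → C.ι → ℤ) (N : ℕ),
    oP P ∈ Br.On Q ∧ (∀ a ∈ T, ∃ m, a = dvs C m) ∧ kP Q b = kP P b + dvs C κ ∧
    (∀ e, dvs B (Pi.single e 1) = dvs C (μ e)) ∧ (∀ e', ∑ e, μ e e' ≤ κ e' + 1) ∧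
    (∀ e', 0 ≤ g e') ∧ Amp Q (N • oP P - dvs C g) ∧
    ∀ a ∈ Br.On P, ∀ m : ℕ, (a + m • dvs C κ).Sec = a.Sec

end Crest.Agent.X262.FG
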