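import Crest.Agent.X262.FG.Prm0
import Crest.Agent.X262.FG.NvDefs

/-!
# X262/FG/Prm1 (helper5): `PrmStmt` and `PosStmt`
-/

set_option autoImplicit false

open WithZero
open scoped KaehlerDifferential

noncomputable section

namespace Crest.Agent.X262.FG.Prm5

open Crest.Agent.X277 Crest.Agent.X277.Lef Crest.Agent.X277.AN.G1 Crest.Agent.X277.BD
open Crest.Agent.X277.Link (IsPD pdiv)

variable {F : Type} [Field F] [Algebra ℂ F]

/-- all primes of a model -/
def pf (P : PModel ℂ F) : Pf P (pdiv P).ι where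
  v e := e.1
  hv e := e.2.triv
  Γ := gam P
  mem := gam_mem
  nonneg := gam_nonneg
  self := ord_gam_self
  ne _ _ h := ord_gam_ne h
  le e _ ha h0 := zsmul_gam_le ha h0 e

theorem dim_of_basis {n : ℕ} (b : Module.Basis (Fin n) F Ω[F⁄ℂ]) : dim ℂ F = n :=
  (Module.finrank_eq_card_basis b).trans (Fintype.card_fin n)

theorem prmStmt (n : ℕ) : PrmStmt n := fun _ _ _ _ P b =>
  ⟨_, pf P, fun a _ => finite_ord P a, fun _ _ h =>
    bnum_eq_zero_of_pd (dim_of_basis b) fun v hv => h ⟨v, hv⟩⟩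

theorem posStmt (n : ℕ) : PosStmt n := fun _ _ _ _ _ b _ ha h0 h =>
  eq_zero_of_bnum (dim_of_basis b) ha h0 h

end Crest.Agent.X262.FG.Prm5
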