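import Crest.Agent.X262.FG.Basic
import Crest.Agent.X277.Up.B

/-!
# Row 262, FG-UP (helper14), part 0: passing to a higher model

* `mem_Sec_of_pd`, `sec_le_of_pd`, `le_of_pd`, `eq_of_pd`, `at_of_pd` : tests along prime divisors;
* `bd0`, `exists_wd`, `exists_psh` : Weil divisors are Cartier, the trace of a b-divisor on `P`;
* `Exc P C g` : effective exceptional divisors; `sec_exc`, `exists_psh_dvs`, `exists_amp`;
* `kP_up`, `exc_kap`, `od_kP`;
* `Hi B C` : log resolutions; `exists_hi`, `Hi.dvs_eq`, `pbc`, `mu`, `sum_mu_le`.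
-/

set_option autoImplicit false
set_option linter.unusedSectionVars false

open WithZero
open scoped KaehlerDifferential

noncomputable section

namespace Crest.Agent.X262.FG

open Crest.Agent.X277 Crest.Agent.X277.Lef Crest.Agent.X277.AN.G1 Crest.Agent.X277.BD
open Crest.Agent.X277.BD.Br (At oP kP)
open Crest.Agent.X277.Res.Out (Un)
open Crest.Agent.X277.Res.Log (Bd IsoOff LogRes un_iff)
open Crest.Agent.X277.Link (IsPD FrAt pdiv)

variable {F : Type} [Field F] [Algebra ℂ F] {P Q R : PModel ℂ F} {n : ℕ} {a a' : BD ℂ F}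
  {v : Valuation F ℤᵐ⁰} {f g : F}

/-! ### tests along the prime divisors -/

section Pd

variable {x : Pts P}

theorem vl_at (h : At a x g) (hx : Res.Log.On v x) : vl v hx.triv a = v g :=
  vl_eq (h (rz v hx.triv) fun f hf => hx f hf)

theorem exp_ord_at (h : At a x g) (hx : Res.Log.On v x) : exp (ord v hx.triv a) = v g :=
  (exp_ord a).trans (vl_at h hx)

theorem ord_at (h : At a x g) (hx : Res.Log.On v x) : ord v hx.triv a = -Res.Out.ord v g := by
  rw [Res.Out.ord, neg_neg, ← exp_ord_at h hx, log_exp]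

theorem mem_Sec_of_pd (ha : a ∈ Br.On P)
    (h : ∀ v (hv : IsPD P v), v f ≤ exp (ord v hv.triv a)) : f ∈ a.Sec :=
  Br.mem_Sec_of (P := P) fun x => (ha x).imp fun _ hg => ⟨hg, Link.mem_lp_of_v fun v hv hx =>
    (Link.v_div_le hg.ne).2 ((h v hv).trans_eq (exp_ord_at hg hx))⟩

theorem sec_le_of_pd (ha' : a' ∈ Br.On P)
    (h : ∀ v (hv : IsPD P v), ord v hv.triv a ≤ ord v hv.triv a') : a.Sec ≤ a'.Sec :=
  fun _ hf => mem_Sec_of_pd ha' fun v hv => (le_exp_ord hf).trans (exp_le_exp.2 (h v hv))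

theorem le_of_pd_free (ha : Free a) (ha' : a' ∈ Br.On P)
    (h : ∀ v (hv : IsPD P v), ord v hv.triv a ≤ ord v hv.triv a') : a ≤ a' :=
  ha.le_iff.2 (sec_le_of_pd ha' h)

theorem le_of_pd (ha : a ∈ Br.On P) (ha' : a' ∈ Br.On P)
    (h : ∀ v (hv : IsPD P v), ord v hv.triv a ≤ ord v hv.triv a') : a ≤ a' :=
  sub_nonneg.1 (le_of_pd_free Free.zero (sub_mem ha' ha) fun v hv => by
    rw [map_zero, map_sub]
    exact sub_nonneg.2 (h v hv))

theorem eq_of_pd (ha : a ∈ Br.On P) (ha' : a' ∈ Br.On P)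
    (h : ∀ v (hv : IsPD P v), ord v hv.triv a = ord v hv.triv a') : a = a' :=
  le_antisymm (le_of_pd ha ha' fun v hv => (h v hv).le) (le_of_pd ha' ha fun v hv => (h v hv).ge)

theorem at_of_pd (ha : a ∈ Br.On P) (hg : g ≠ 0)
    (h : ∀ v (hv : IsPD P v), Res.Log.On v x → v g = exp (ord v hv.triv a)) : At a x g := by
  obtain ⟨g', hg'⟩ := ha x
  exact hg'.of_ev' ((Link.ev_ne_iff (div_ne_zero hg hg'.ne)).2 fun e he =>
    (Link.v_div_eq hg'.ne).2 ((h e.1 e.2 he).trans (exp_ord_at hg' he)))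

theorem exists_coords (b : Module.Basis (Fin n) F Ω[F⁄ℂ]) (x : Pts P) :
    ∃ t : Fin n → F, Res.Out.Coords (lp x).O t := by
  obtain ⟨z, hz⟩ := exists_crd b x
  have h1 : ∀ l, z l - algebraMap ℂ F (ev (z l) x) ∈ (lp x).O := fun l =>
    sub_mem (hz.mem l) (algebraMap_mem _ _)
  have h2 : ∀ l, ev (z l - algebraMap ℂ F (ev (z l) x)) x = 0 := fun l => by
    rw [ev, LP.v_sub (hz.mem l) (algebraMap_mem _ _), LP.v_alg, ← ev, sub_self]
  refine ⟨_, Res.Log.coords_of_crd b ⟨h1, fun f hf => ?_⟩ h2⟩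
  obtain ⟨c, hc, h3⟩ := hz.gen f hf
  refine ⟨c, hc, h3.trans ?_⟩
  simp only [show ∀ l, (lp x).v (z l - algebraMap ℂ F (ev (z l) x)) = 0 from h2, map_zero, sub_zero]

/-- the empty boundary -/
def bd0 (P : PModel ℂ F) (b : Module.Basis (Fin n) F Ω[F⁄ℂ]) : Bd P n where
  ι := Empty
  v e := e.elim
  τ e := e.elim
  ne e := e.elim
  off e := e.elim
  unif e := e.elim
  val e := e.elim
  snc x := (exists_coords b x).imp fun _ h => ⟨fun e => e.1.elim, h, fun e => e.1.elim,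
    fun e => e.1.elim⟩
  coh e := e.elim

/-- Weil divisors are Cartier divisors -/
theorem exists_wd (Θ : (pdiv P).ι →₀ ℤ) :
    ∃ a ∈ Br.On P, ∀ v (hv : IsPD P v), ord v hv.triv a = Θ ⟨v, hv⟩ := by
  obtain ⟨b⟩ := exists_basis P
  choose G hG using Link.exists_frAt Θ
  obtain ⟨a, ha⟩ := Glue.Coh.exists_bd (bd0 P b) b (g := G) fun x =>
    (hG x).eventually.mono fun y hy => un_iff.2 (hy.iff_ev.1 (hG y))
  have h1 : ∀ x, At a x (G x) := fun x V hV => ha x V hV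
  refine ⟨a, fun x => ⟨_, h1 x⟩, fun v hv => ?_⟩
  obtain ⟨x, hx⟩ := hv.exists_on
  exact exp_inj.1 ((exp_ord_at (h1 x) hx).trans ((hG x).eq ⟨v, hv⟩ hx))

theorem finite_ord (P : PModel ℂ F) (a : BD ℂ F) :
    {e : (pdiv P).ι | ord e.1 e.2.triv a ≠ 0}.Finite := by
  have key : ∀ c : BD ℂ F, Free c → {e : (pdiv P).ι | ord e.1 e.2.triv c ≠ 0}.Finite := by
    intro c hc
    obtain ⟨r, s, h0, -, h2⟩ := hc.exists_fam
    refine (Set.finite_iUnion fun i => (pdiv P).fin (s i) (h0 i)).subset fun e he => ?_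
    obtain ⟨i, hi⟩ := h2 (rz e.1 e.2.triv)
    refine Set.mem_iUnion.2 ⟨i, fun h => he ?_⟩
    rw [← exp_inj, exp_ord, vl_eq hi]
    exact h
  obtain ⟨b, c, hb, hc, rfl⟩ := exists_sub a
  refine ((key b hb).union (key c hc)).subset fun e he => ?_
  by_contra h
  simp only [Set.mem_union, Set.mem_ofPred_eq, not_or, not_not] at h
  exact he (by rw [map_sub, h.1, h.2, sub_zero])

/-- the trace of a b-divisor on `P` -/
theorem exists_psh (P : PModel ℂ F) (a : BD ℂ F) :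
    ∃ a' ∈ Br.On P, ∀ v (hv : IsPD P v), ord v hv.triv a' = ord v hv.triv a :=
  exists_wd (Finsupp.ofSupportFinite (fun e => ord e.1 e.2.triv a) (finite_ord P a))

end Pd

/-! ### exceptional divisors -/

section Exc

variable {C : Bd Q n} {c c' : C.ι → ℤ}

theorem ord_dvs_of_ne (hv : IsPD Q v) (h : ∀ e, C.v e ≠ v) (c : C.ι → ℤ) :
    ord v hv.triv (dvs C c) = 0 := by
  obtain ⟨y, h1, h2⟩ := Up.exists_off hv h
  rw [ord_at (at_dvs C c y) h1, h2.mon_eq, inv_one, Res.Out.ord_one, neg_zero]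

theorem ord_eq_od {e : C.ι} (he : C.v e = v) (hv : ∀ c : ℂ, v (algebraMap ℂ F c) ≤ 1)
    (a : BD ℂ F) : ord v hv a = od C e a := by
  subst he
  rfl

theorem od_congr {B : Bd P n} {e : B.ι} {e' : C.ι} (h : C.v e' = B.v e) (a : BD ℂ F) :
    od C e' a = od B e a := (ord_eq_od h (triv B e) a).symm

theorem oP_up (h : IsoOff P C) : oP P ∈ Br.On Q := fun x =>
  (h.dom x).elim fun i hi => ⟨_, Br.at_mxf (P.y_ne i) hi⟩

theorem on_up (h : IsoOff P C) (ha : a ∈ Br.On P) : a ∈ Br.On Q := Br.On_le_iff.2 (oP_up h) ha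

theorem at_map (h : IsoOff P C) {x : Pts Q} (hg : At a (h.mor.map x) g) : At a x g :=
  fun V hV => hg V fun f hf => hV f (h.le x hf)

/-- a divisor without components which are prime divisors of `P` has no trace on `P` -/
theorem ord_dvs_pd (h : IsoOff P C) (hc : ∀ e, IsPD P (C.v e) → c e = 0) (hv : IsPD P v) :
    ord v hv.triv (dvs C c) = 0 := by
  by_cases h1 : ∃ e, C.v e = v
  · obtain ⟨e, he⟩ := h1
    rw [ord_eq_od he, od_dvs, hc e (he ▸ hv)]
  · exact ord_dvs_of_ne (Up.isPD_up h hv) (not_exists.1 h1) c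

variable (P C) in
/-- `∑ g e • D e` is effective and exceptional over `P` -/
def Exc (g : C.ι → ℤ) : Prop := (∀ e, 0 ≤ g e) ∧ ∀ e, IsPD P (C.v e) → g e = 0

theorem Exc.zero : Exc P C 0 := ⟨fun _ => le_rfl, fun _ _ => rfl⟩

theorem Exc.add (h : Exc P C c) (h' : Exc P C c') : Exc P C (c + c') :=
  ⟨fun e => add_nonneg (h.1 e) (h'.1 e), fun e he => by
    rw [Pi.add_apply, h.2 e he, h'.2 e he, add_zero]⟩

theorem Exc.nsmul (h : Exc P C c) (m : ℕ) : Exc P C (m • c) :=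
  ⟨fun e => nsmul_nonneg (h.1 e) m, fun e he => by rw [Pi.smul_apply, h.2 e he, smul_zero]⟩

theorem Exc.sum {α : Type*} (t : Finset α) {c : α → C.ι → ℤ} (h : ∀ i ∈ t, Exc P C (c i)) :
    Exc P C (∑ i ∈ t, c i) := Finset.sum_induction _ _ (fun _ _ => Exc.add) Exc.zero h

theorem Exc.of_le (h : Exc P C c') (h0 : ∀ e, 0 ≤ c e) (h1 : ∀ e, c e ≤ c' e) : Exc P C c :=
  ⟨h0, fun e he => le_antisymm (h.2 e he ▸ h1 e) (h0 e)⟩

theorem Exc.nonneg (h : Exc P C c) : 0 ≤ dvs C c := dvs_nonneg h.1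

theorem sec_add_le (h : IsoOff P C) (ha : a ∈ Br.On P) (hc : ∀ e, IsPD P (C.v e) → c e = 0) :
    (a + dvs C c).Sec ≤ a.Sec :=
  sec_le_of_pd ha fun v hv => by rw [map_add, ord_dvs_pd h hc hv, add_zero]

/-- **sections do not see exceptional divisors** -/
theorem sec_exc (h : IsoOff P C) (ha : a ∈ Br.On P) (hc : Exc P C c) :
    (a + dvs C c).Sec = a.Sec :=
  le_antisymm (sec_add_le h ha hc.2) (Sec_mono (le_add_of_nonneg_right hc.nonneg))

theorem sec_lc_exc {κ : Type} [Fintype κ] (h : IsoOff P C) {D D' : κ → BD ℂ F}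
    {g : κ → C.ι → ℤ} (hD : ∀ k, D k ∈ Br.On P) (hg : ∀ k, Exc P C (g k))
    (he : ∀ k, D' k = D k + dvs C (g k)) (x : κ → ℕ) : (lc D' x).Sec = (lc D x).Sec := by
  rw [funext he, lc_add_fam, lc_dvs]
  exact sec_exc h (lc_mem hD x) (Exc.sum _ fun k _ => (hg k).nsmul _)

/-- two divisors with the same trace differ by an exceptional divisor -/
theorem eq_add_dvs (h : IsoOff P C) (ha : a ∈ Br.On Q) (ha' : a' ∈ Br.On P)
    (he : ∀ v (hv : IsPD P v), ord v hv.triv a' = ord v hv.triv a) :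
    a' = a + dvs C fun e => od C e (a' - a) := by
  rw [← sub_eq_iff_eq_add']
  refine eq_dvs (sub_mem (on_up h ha') ha) fun y hy => ?_
  obtain ⟨g, hg⟩ := ha y
  have h1 : At a' (h.mor.map y) g := at_of_pd ha' hg.ne fun v hv hx => by
    rw [he v hv]
    exact (exp_ord_at hg fun f hf => hx f (h.lp_map hy ▸ hf)).symm
  simpa only [div_self hg.ne] using (at_map h h1).sub hg

/-- the push-forward of a Cartier divisor -/
theorem exists_psh_dvs (h : IsoOff P C) (ha : a ∈ Br.On Q) : ∃ g : C.ι → ℤ,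
    (∀ e, IsPD P (C.v e) → g e = 0) ∧ a + dvs C g ∈ Br.On P := by
  obtain ⟨a', h1, h2⟩ := exists_psh P a
  refine ⟨fun e => od C e (a' - a), fun e he => ?_, eq_add_dvs h ha h1 h2 ▸ h1⟩
  exact (map_sub _ _ _).trans (sub_eq_zero.2 (h2 _ he))

/-- negativity for free divisors -/
theorem exc_of_free (h : IsoOff P C) (hf : Free a) (hc : ∀ e, IsPD P (C.v e) → c e = 0)
    (ha : a + dvs C c ∈ Br.On P) : Exc P C c := by
  have h1 := le_of_pd_free hf ha fun v hv => by rw [map_add, ord_dvs_pd h hc hv, add_zero]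
  exact ⟨fun e => by simpa using od_nonneg (B := C) (e := e) ((le_add_iff_nonneg_right a).1 h1), hc⟩

theorem exists_exc_oP (h : IsoOff P C) : ∃ g, Exc P C g ∧ oP Q + dvs C g ∈ Br.On P := by
  obtain ⟨g, h1, h2⟩ := exists_psh_dvs h Br.oP_mem
  exact ⟨g, exc_of_free h Br.free_oP h1 h2, h2⟩

/-- **an ample class upstairs** -/
theorem exists_amp' (h : IsoOff P C) : ∃ g, Exc P C g ∧ ∀ a, Amp P a →
    ∃ M₀ : ℕ, ∀ M, M₀ ≤ M → Amp Q (M • a - dvs C g) := by
  obtain ⟨g, h1, h2⟩ := exists_exc_oP h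
  refine ⟨g, h1, fun a ha => ?_⟩
  obtain ⟨M₀, hM⟩ := ha.exists_free (neg_mem h2)
  refine ⟨M₀, fun M h3 => amp_of_free
    (sub_mem (nsmul_mem (on_up h ha.1) M) (dvs_mem C g)) ?_⟩
  convert hM M h3 using 1
  abel

theorem exists_amp (h : IsoOff P C) : ∃ (N : ℕ) (g : C.ι → ℤ), 0 < N ∧ Exc P C g ∧
    Amp Q (N • oP P - dvs C g) := by
  obtain ⟨g, h1, h2⟩ := exists_amp' h
  obtain ⟨M, hM⟩ := h2 _ (amp_oP P)
  exact ⟨M + 1, g, M.succ_pos, h1, hM _ M.le_succ⟩

theorem exists_amp_fam {κ : Type*} [Finite κ] (h : IsoOff P C) {A : κ → BD ℂ F}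
    (hA : ∀ k, Amp P (A k)) : ∃ (M₀ : ℕ) (g : C.ι → ℤ), Exc P C g ∧
      ∀ M, M₀ ≤ M → ∀ k, Amp Q (M • A k - dvs C g) := by
  obtain ⟨g, h1, h2⟩ := exists_amp' h
  choose N hN using fun k => h2 _ (hA k)
  obtain ⟨M₀, hM⟩ := (Set.finite_range N).bddAbove
  exact ⟨M₀, g, h1, fun M h3 k => hN k M ((hM ⟨k, rfl⟩).trans h3)⟩

variable (b : Module.Basis (Fin n) F Ω[F⁄ℂ])

/-- the discrepancies -/
def kap (h : IsoOff P C) : C.ι → ℤ := fun e => h.kap b e

/-- `K_Q = K_P + ∑ κ e • D e` -/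
theorem kP_up (h : IsoOff P C) : kP Q b = kP P b + dvs C (kap b h) := by
  refine Br.ext_at (P := Q) fun x => ?_
  obtain ⟨t, ht⟩ := exists_crd b x
  obtain ⟨z, hz⟩ := exists_crd b (h.mor.map x)
  refine ⟨_, Br.at_kP b ht, ((at_map h (Br.at_kP b hz)).add (at_dvs C _ x)).of_ev ?_⟩
  rw [← div_eq_mul_inv, div_right_comm]
  exact un_iff.1 (h.un_kap b (h.le x) hz ht)

theorem exc_kap (h : IsoOff P C) : Exc P C (kap b h) :=
  ⟨fun _ => Int.natCast_nonneg _, fun e he => by rw [kap, h.kap_eq_zero b he, Nat.cast_zero]⟩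

theorem od_kP (h : IsoOff P C) (e : C.ι) : od C e (kP Q b) = od C e (kP P b) + kap b h e := by
  rw [kP_up b h, map_add, od_dvs]

end Exc

/-! ### log resolutions -/

section Hi

variable {B : Bd P n} {C : Bd Q n} {c c' : B.ι → ℤ} {e : B.ι} {e' : C.ι}

/-- `(Q, C)` is a log resolution of `(P, B)` -/
structure Hi (B : Bd P n) (C : Bd Q n) : Prop where
  iso : IsoOff P C
  lab : ∀ e, ∃ e', C.v e' = B.v e

variable (B C) in
/-- the coefficients of the pull-back -/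
def pbc : (B.ι → ℤ) →+ C.ι → ℤ where
  toFun c e' := od C e' (dvs B c)
  map_zero' := funext fun _ => by rw [dvs_zero, map_zero, Pi.zero_apply]
  map_add' c c' := funext fun _ => by rw [dvs_add, map_add, Pi.add_apply]

theorem pbc_apply (c : B.ι → ℤ) (e' : C.ι) : pbc B C c e' = od C e' (dvs B c) := rfl

theorem pbc_lab (h : C.v e' = B.v e) (c : B.ι → ℤ) : pbc B C c e' = c e := by
  rw [pbc_apply, od_congr h, od_dvs]

theorem pbc_of_ne (hv : IsPD P (C.v e')) (h : ∀ e, B.v e ≠ C.v e') (c : B.ι → ℤ) :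
    pbc B C c e' = 0 := ord_dvs_of_ne hv h c

theorem pbc_nonneg (h : ∀ e, 0 ≤ c e) (e' : C.ι) : 0 ≤ pbc B C c e' := od_nonneg (dvs_nonneg h)

theorem pbc_mono (h : ∀ e, c e ≤ c' e) (e' : C.ι) : pbc B C c e' ≤ pbc B C c' e' :=
  od_mono (dvs_mono h)

open Classical in
variable (B C) in
/-- the multiplicity of the component `e` along `e'` -/
def mu (e : B.ι) : C.ι → ℤ := pbc B C (Pi.single e 1)

theorem mu_nonneg (e : B.ι) (e' : C.ι) : 0 ≤ mu B C e e' := by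
  classical
  exact pbc_nonneg (fun e₁ => by by_cases h : e₁ = e <;> simp [h]) e'

theorem pbc_eq_sum (c : B.ι → ℤ) (e' : C.ι) : pbc B C c e' = ∑ e, c e * mu B C e e' := by
  rw [pbc_apply, dvs_eq_sum, map_sum]
  exact Finset.sum_congr rfl fun e _ => by rw [map_zsmul, smul_eq_mul]; rfl

theorem pbc_eq_ord {x : Pts P} (hx : Res.Log.On (C.v e') x) (c : B.ι → ℤ) :
    pbc B C c e' = Res.Out.ord (C.v e') (B.mon x c) := by
  rw [← neg_neg (Res.Out.ord _ _), ← Res.Out.ord_inv]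
  exact ord_at (at_dvs B c x) hx

theorem mu_eq_ord {x : Pts P} (hx : Res.Log.On (C.v e') x) (e : B.ι) :
    mu B C e e' = Res.Out.ord (C.v e') (B.τ e x) := by
  classical
  rw [mu, pbc_eq_ord hx, Bd.ord_mon', Finset.sum_eq_single e]
  · simp
  · intro e₁ _ h
    simp [h]
  · simp

theorem kap_eq_ord (b : Module.Basis (Fin n) F Ω[F⁄ℂ]) (h : IsoOff P C) {x : Pts Q}
    (hx : Res.Log.On (C.v e') x) {t z : Fin n → F} (ht : (lp x).Crd t)
    (hz : (lp (h.mor.map x)).Crd z) : kap b h e' = Res.Out.ord (C.v e') (jac b z / jac b t) :=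
  (Bd.ord_eq_of_un (h.un_kap b (h.le x) hz ht) hx).symm

/-- **normal crossings are log canonical** -/
theorem sum_mu_le (b : Module.Basis (Fin n) F Ω[F⁄ℂ]) (h : IsoOff P C) (B : Bd P n) (e' : C.ι) :
    ∑ e, mu B C e e' ≤ kap b h e' + 1 := by
  obtain ⟨x, hx⟩ := C.ne e'
  obtain ⟨t, ht⟩ := exists_crd b x
  obtain ⟨z, hz⟩ := exists_crd b (h.mor.map x)
  rw [kap_eq_ord b h hx ht hz, Finset.sum_congr rfl fun e _ => mu_eq_ord (h.on_map hx) e]
  exact Bd.ord_jac_ge b hx (h.on_map hx) ht hz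

namespace Hi

theorem off (h : Hi B C) {y : Pts Q} (hy : C.Off y) : B.Off (h.iso.mor.map y) := fun e he => by
  obtain ⟨e', h1⟩ := h.lab e
  refine hy e' fun f hf => ?_
  rw [h1]
  exact he f (h.iso.lp_map hy ▸ hf)

/-- the pull-back of a boundary divisor -/
theorem dvs_eq (h : Hi B C) (c : B.ι → ℤ) : dvs B c = dvs C (pbc B C c) :=
  eq_dvs (on_up h.iso (dvs_mem B c)) fun y hy => by
    simpa only [(h.off hy).mon_eq, inv_one] using at_map h.iso (x := y) (at_dvs B c _)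

theorem refl (B : Bd P n) : Hi B B :=
  ⟨⟨fun x => (exists_pat x).imp fun _ hi j => y_mem hi j, fun x _ => ⟨x, rfl⟩⟩, fun e => ⟨e, rfl⟩⟩

theorem isoOff {D : Bd R n} (h : IsoOff P C) (h' : Hi C D) : IsoOff P D :=
  ⟨fun x => (h.dom (h'.iso.mor.map x)).imp fun _ hi j => h'.iso.le x (hi j), fun _ hx =>
    ⟨_, (h.lp_map (h'.off hx)).trans (h'.iso.lp_map hx)⟩⟩

theorem trans {D : Bd R n} (h : Hi B C) (h' : Hi C D) : Hi B D :=
  ⟨h'.isoOff h.iso, fun e => (h.lab e).elim fun e' h1 => (h'.lab e').imp fun _ h2 => h2.trans h1⟩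

open Classical in
theorem of_dvs (h : IsoOff P C) (h1 : ∀ e, ∃ m, dvs B (Pi.single e 1) = dvs C m) : Hi B C := by
  refine ⟨h, fun e => by_contra fun h2 => ?_⟩
  obtain ⟨m, hm⟩ := h1 e
  have h3 := ord_dvs_of_ne (Up.isPD_up h (B.isPD e)) (not_exists.1 h2) m
  rw [← hm, ord_eq_od rfl, od_dvs, Pi.single_eq_same] at h3
  exact one_ne_zero h3

end Hi

/-- **log resolutions** adapted to finitely many families of functions and classes -/
theorem exists_hi (B : Bd P n) (𝒢 : Finset (Finset F)) {ι : Type*} [Finite ι] (a : ι → BD ℂ F) :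
    ∃ (Q : PModel ℂ F) (C : Bd Q n), Hi B C ∧ LogRes P.y 𝒢 C ∧
      ∀ i, a i = dvs C fun e' => od C e' (a i) := by
  obtain ⟨b⟩ := B.exists_basis
  obtain ⟨Q, C, h1, h2, h3⟩ := Up.exists_res b B 𝒢 a
  exact ⟨Q, C, ⟨h1.isoOff, h2⟩, h1, fun i => eq_dvs
    (fun x => ((h3 i).1 x).imp fun _ hg V hV => hg V hV) fun x hx V hV => (h3 i).2 x hx V hV⟩

end Hi

end Crest.Agent.X262.FG
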