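import Crest.Agent.X262.FG.Arr76
import Crest.Agent.X262.Sark.Game

/-!
# X262/FG/ArrOut76 (helper76): finite generation gives `Sark.ArrOut`
-/

set_option autoImplicit false

noncomputable section

open Finset

namespace Crest.Agent.X262.FG.Fan

open Crest.Agent.X277 Crest.Agent.X277.BD Crest.Agent.X262.Cvx Crest.Agent.X262.Sark

variable {K : Type} [Field K] [Algebra ℂ K] {κ : Type} [Fintype κ]

/-- **the arrangement of a finitely generated family** -/
theorem arrOut_of_fg (D₀ : κ → BD ℂ K) (D : (κ → ℤ) →+ BD ℂ K) (hD : ∀ x, D x = ∑ i, x i • D₀ i)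
    (h : Gr.FG (fun n : κ → ℕ => (∑ i, n i • D₀ i).Sec) ⊤) : ArrOut D := by
  classical
  obtain ⟨R⟩ := nonempty_arr h
  let e := R.L.equivFin
  let lin : (κ → ℤ) → (κ → ℤ) →+ ℤ := fun a =>
    AddMonoidHom.mk' (fun x => ∑ i, a i * x i) fun x y => by simp [mul_add, sum_add_distrib]
  let tn : (κ → ℤ) → κ → ℕ := fun x i => (x i).toNat
  have e1 : ∀ x, Ps x → ∀ i, (tn x i : ℤ) = x i := fun x hx i => Int.toNat_of_nonneg (hx i).le
  have e2 : ∀ x, Ps x → D x = ∑ i, tn x i • D₀ i := fun x hx => by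
    rw [hD]
    exact sum_congr rfl fun i _ => by rw [← e1 x hx i, natCast_zsmul]
  have e3 : ∀ x, Ps x → ∀ a, dot a (nq (tn x)) = (lin a x : ℤ) := fun x hx a => by
    change _ = ((∑ i, a i * x i : ℤ) : ℚ)
    push_cast
    refine sum_congr rfl fun i _ => ?_
    rw [← e1 x hx i, Int.cast_natCast]
    rfl
  have e4 : ∀ x, Ps x → ((∃ m : ℕ, 0 < m ∧ Eff (m • D x)) ↔ nq (tn x) ∈ ConeH ℚ R.I0) :=
    fun x hx => by
      rw [R.eff, e2 x hx]
      rfl
  have e5 : ∀ a ∈ R.L, ∃ i, (e.symm i : κ → ℤ) = a := fun a ha => ⟨e ⟨a, ha⟩, by simp⟩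
  refine ⟨_, fun i => lin (e.symm i), R.q, fun x => R.M (tn x), R.q_pos, fun x hx h1 => ?_,
    fun x y hx hy h1 h2 => ?_, fun x y hx hy h1 h2 h3 => ?_⟩
  · rw [e4 x hx] at h1
    rw [e2 x hx]
    exact ⟨R.free _ h1, R.le _ h1, R.Sec_le _ h1⟩
  · rw [e4 _ hy] at h1
    rw [e4 _ hx]
    intro a ha
    obtain ⟨i, rfl⟩ := e5 a (R.sub ha)
    have h3 := h1 _ ha
    rw [e3 _ hy] at h3
    rw [e3 _ hx]
    have h4 : 0 ≤ lin (e.symm i) y := by exact_mod_cast h3
    have h5 : 0 ≤ lin (e.symm i) x := by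
      rcases h2 i with h6 | h6
      · exact h6.ge
      · exact (pos_of_mul_pos_left h6 h4).le
    exact_mod_cast h5
  · have h4 : tn (x + y) = tn x + tn y :=
      funext fun i => Int.toNat_add (hx i).le (hy i).le
    change R.M (tn (x + y)) = _
    rw [h4]
    refine R.add _ _ ((e4 x hx).1 h1) ((e4 y hy).1 h2) fun a ha => ?_
    obtain ⟨i, rfl⟩ := e5 a ha
    rw [e3 _ hx, e3 _ hy]
    exact_mod_cast h3 i

end Crest.Agent.X262.FG.Fan
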