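import Crest.Agent.X262.FG.NvDefs
import Crest.Agent.X262.Coh.Defs

/-!
# Row 262, FG (helper81): finite rank of the numerical classes from a cohomology theory

* `ns_of : C.MAN → C.PD → NSStmt`.
-/

set_option autoImplicit false
set_option linter.style.haveILetI false

noncomputable section

namespace Crest.Agent.X262.FG

open Crest.Agent.X277 Crest.Agent.X277.Lef Crest.Agent.X277.BD Crest.Agent.X262.Coh

/-- the numerical classes of a smooth projective model have finite rank -/
theorem ns_of (C : Th) (hM : C.MAN) (hP : C.PD) : NSStmt := by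
  intro F _ _ _ P
  haveI := (hP (sv P)).1
  letI : Module ℝ (C.H (sv P)) := Module.compHom _ (algebraMap ℝ ℂ)
  haveI : IsScalarTower ℝ ℂ (C.H (sv P)) :=
    ⟨fun r c x => by
      change (r • c) • x = (algebraMap ℝ ℂ r) • c • x
      rw [← mul_smul, ← Algebra.smul_def]⟩
  haveI : Module.Finite ℝ (C.H (sv P)) := Module.Finite.trans ℂ _
  refine ⟨Module.finrank ℝ (C.H (sv P)), fun a ha => ?_⟩
  have hdep : ¬ LinearIndependent ℝ fun i => C.c1 (sv P) (a i) := fun h => by
    simpa using h.fintype_card_le_finrank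
  obtain ⟨m, hm, i₀, hi₀⟩ := Fintype.not_linearIndependent_iff.1 hdep
  refine ⟨m, fun h => hi₀ (congrFun h i₀), fun l hl => ?_⟩
  have h1 : C.itg (sv P) ((∑ i, m i • C.c1 (sv P) (a i)) * (l.map (C.c1 (sv P))).prod) = 0 := by
    rw [hm, zero_mul, map_zero]
  rw [Finset.sum_mul, map_sum] at h1
  have h2 : ∀ i, C.itg (sv P) (m i • C.c1 (sv P) (a i) * (l.map (C.c1 (sv P))).prod) =
      ((m i * (bnum (a i :: l) : ℝ) : ℝ) : ℂ) := fun i => by
    have h3 := hM.c1_num (sv P) (a i :: l) (by
      intro x hx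
      rcases List.mem_cons.1 hx with rfl | hx
      · exact ha i
      · exact hl x hx)
    rw [List.map_cons, List.prod_cons] at h3
    change C.itg (sv P) ((algebraMap ℝ ℂ (m i)) • C.c1 (sv P) (a i) * _) = _
    rw [smul_mul_assoc, map_smul, h3]
    simp
  simp_rw [h2] at h1
  exact_mod_cast h1

end Crest.Agent.X262.FG
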