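import Crest.Agent.X262.FG.FanB76
import Crest.Agent.X262.Cvx.Cone0

/-!
# X262/FG/Arr76 (helper76): the fan lemma as an arrangement of hyperplanes

`ARR D`: finitely many non-zero integral forms `L`, among them those (`I0`) which cut out the
effective cone; the mobile part `M x` of `q • ∑ x i • D i` is additive on conformal points, and linear
on the points conformal to a generic point.
-/

set_option autoImplicit false
set_option linter.unusedSectionVars false

noncomputable section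

open Finset

namespace Crest.Agent.X262.FG.Fan

open Crest.Agent.X277 Crest.Agent.X277.BD Crest.Agent.X262.Cvx

variable {k F : Type*} [Field k] [Field F] [Algebra k F] {κ : Type} [Fintype κ] [DecidableEq κ]

/-- a degree as a rational point -/
def nq (n : κ → ℕ) : κ → ℚ := fun i => n i

/-- conformal points -/
def Conf (L : Finset (κ → ℤ)) (x y : κ → ℚ) : Prop := ∀ l ∈ L, 0 ≤ dot l x * dot l y

theorem Conf.symm {L : Finset (κ → ℤ)} {x y : κ → ℚ} (h : Conf L x y) : Conf L y x :=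
  fun l hl => mul_comm (dot l x) _ ▸ h l hl

theorem Conf.refl (L : Finset (κ → ℤ)) (x : κ → ℚ) : Conf L x x := fun _ _ => mul_self_nonneg _

theorem nq_add (n m : κ → ℕ) : nq (n + m) = nq n + nq m := by ext; simp [nq]

theorem nq_smul (m : ℕ) (n : κ → ℕ) : nq (m • n) = (m : ℚ) • nq n := by ext; simp [nq]

/-- a non-negative rational point has a multiple which is a degree -/
theorem exists_nq {x : κ → ℚ} (hx : 0 ≤ x) : ∃ m : ℕ, 0 < m ∧ ∃ n : κ → ℕ, nq n = (m : ℚ) • x := by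
  obtain ⟨m, hm, h⟩ := exists_den x
  choose z hz using h
  refine ⟨m, hm, fun i => (z i).toNat, funext fun i => ?_⟩
  have h0 : 0 ≤ z i := by
    have : (0 : ℚ) ≤ z i := hz i ▸ mul_nonneg (Nat.cast_nonneg _) (hx i)
    exact_mod_cast this
  rw [nq, ← Int.cast_natCast, Int.toNat_of_nonneg h0, hz]
  rfl

/-- the output of finite generation -/
structure ARR (D : κ → BD k F) where
  /-- the arrangement -/
  L : Finset (κ → ℤ)
  /-- the inequalities of the effective cone -/
  I0 : Finset (κ → ℤ)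
  sub : I0 ⊆ L
  ne : ∀ l ∈ L, l ≠ 0
  coord : ∀ i, Pi.single i 1 ∈ I0
  q : ℕ
  q_pos : 0 < q
  /-- the mobile part of `q • ∑ x i • D i` -/
  M : (κ → ℕ) → BD k F
  eff : ∀ x : κ → ℕ, nq x ∈ ConeH ℚ I0 ↔ ∃ m : ℕ, 0 < m ∧ ∃ f ∈ (m • ∑ i, x i • D i).Sec, f ≠ 0
  free : ∀ x, nq x ∈ ConeH ℚ I0 → Free (M x)
  le : ∀ x, nq x ∈ ConeH ℚ I0 → M x ≤ q • ∑ i, x i • D i
  Sec_le : ∀ x, nq x ∈ ConeH ℚ I0 → ∀ m : ℕ, (m • q • ∑ i, x i • D i).Sec ≤ (m • M x).Sec
  smul : ∀ x, nq x ∈ ConeH ℚ I0 → ∀ m : ℕ, M (m • x) = m • M x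
  add : ∀ x y, nq x ∈ ConeH ℚ I0 → nq y ∈ ConeH ℚ I0 → Conf L (nq x) (nq y) →
    M (x + y) = M x + M y
  lin : ∀ y ∈ ConeH ℚ I0, (∀ l ∈ L, dot l y ≠ 0) → ∃ P : κ → BD k F,
    (∀ x, Conf L (nq x) y → M x = ∑ i, x i • P i) ∧
    ∀ x, nq x ∈ ConeH ℚ I0 → M x ≤ ∑ i, x i • P i

theorem cast_dot (l : κ → ℤ) (x : κ → ℚ) : ((dot l x : ℚ) : ℝ) = ev l fun i => x i := by
  simp [dot, ev]

theorem cast_nq (n : κ → ℕ) : (fun i => ((nq n i : ℚ) : ℝ)) = rl n := by
  ext i
  simp [nq, rl]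

theorem mem_of_conf {L I0 : Finset (κ → ℤ)} (h : I0 ⊆ L) {x y : κ → ℚ} (hy : y ∈ ConeH ℚ I0)
    (hg : ∀ l ∈ L, dot l y ≠ 0) (hc : Conf L x y) : x ∈ ConeH ℚ I0 := fun l hl =>
  nonneg_of_mul_nonneg_left (hc l (h hl)) (lt_of_le_of_ne (hy l hl) (hg l (h hl)).symm)

theorem Geo.nonempty_arr {D : κ → BD k F} (G : Geo D) : Nonempty (ARR D) := by
  classical
  let z : G.J → κ → ℤ := fun j i => G.d j i
  obtain ⟨A, hA⟩ := exists_H (univ.image z)
  have e0 : ∀ j, zc ℝ (z j) = rl (G.d j) := fun j => by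
    ext i
    simp [zc, z, rl]
  have e1 : G.Supp = ConeH ℝ A := by
    rw [← hA ℝ]
    refine Set.Subset.antisymm ?_ (ConeV_subset ⟨0, le_rfl, by simp⟩
      (fun _ hx _ hy => Arr.supp_add hx hy) (fun _ hx _ hc => Arr.supp_smul hx hc) fun g hg => ?_)
    · rintro _ ⟨t, ht, rfl⟩
      exact sum_mem_ConeV _ fun j _ => smul_mem_ConeV
        (e0 j ▸ gen_mem_ConeV (mem_image_of_mem z (mem_univ j))) (ht j)
    · obtain ⟨j, -, rfl⟩ := mem_image.1 hg
      refine ⟨Pi.single j 1, fun j' => by rw [Pi.single_apply]; split_ifs <;> simp, ?_⟩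
      rw [e0, sum_eq_single j] <;> simp +contextual
  let I0 : Finset (κ → ℤ) := A.erase 0 ∪ univ.image fun i => Pi.single i 1
  let L : Finset (κ → ℤ) := I0 ∪ univ.image G.h
  have e2 : ∀ x : κ → ℚ, x ∈ ConeH ℚ I0 ↔ (fun i => (x i : ℝ)) ∈ G.Supp := fun x => by
    constructor
    · intro h
      rw [e1]
      intro a ha
      by_cases h0 : a = 0
      · simp [h0, dot]
      · have := h a (mem_union_left _ (mem_erase.2 ⟨h0, ha⟩))
        change 0 ≤ ev a _
        rw [← cast_dot]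
        exact_mod_cast this
    · intro h a ha
      rcases mem_union.1 ha with ha | ha
      · have : 0 ≤ ev a _ := (e1 ▸ h) a (mem_erase.1 ha).2
        rw [← cast_dot] at this
        exact_mod_cast this
      · obtain ⟨i, -, rfl⟩ := mem_image.1 ha
        have : (0 : ℝ) ≤ x i := Arr.supp_nonneg h i
        rw [dot_single]
        simpa using this
  have e3 : ∀ x : κ → ℕ, nq x ∈ ConeH ℚ I0 ↔ rl x ∈ G.Supp := fun x => by rw [e2, cast_nq]
  have e4 : ∀ {x y : κ → ℚ}, Conf L x y → ∀ l,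
      0 ≤ ev (G.h l) (fun i => x i) * ev (G.h l) fun i => y i := fun h l => by
    have := h _ (mem_union_right _ (mem_image_of_mem G.h (mem_univ l)))
    rw [← cast_dot, ← cast_dot]
    exact_mod_cast this
  have := G.nonempty_C
  let ch : (κ → ℕ) → G.C := fun x => Classical.epsilon fun c => rl x ∈ G.Ch c
  have hch : ∀ x, nq x ∈ ConeH ℚ I0 → rl x ∈ G.Ch (ch x) := fun x hx =>
    Classical.epsilon_spec (G.cover _ ((e3 x).1 hx))
  have hM : ∀ x c, rl x ∈ G.Ch c → ∑ i, x i • G.P (ch x) i = ∑ i, x i • G.P c i := fun x c hx =>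
    G.P_eq (hch x ((e3 x).2 (G.sub c hx))) hx
  refine ⟨{
    L := L
    I0 := I0
    sub := subset_union_left
    ne := fun l hl => ?_
    coord := fun i => mem_union_right _ (mem_image_of_mem _ (mem_univ i))
    q := G.N
    q_pos := G.N_pos
    M := fun x => ∑ i, x i • G.P (ch x) i
    eff := fun x => (e3 x).trans G.mem_supp_iff
    free := fun x hx => G.free _ x (hch x hx)
    le := fun x hx => G.le _ x (hch x hx)
    Sec_le := fun x hx m => (G.Sec_nsmul (hch x hx) m).ge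
    smul := fun x hx m => ?_
    add := fun x y hx hy h => ?_
    lin := fun y hy hg => ?_ }⟩
  · rcases mem_union.1 hl with hl | hl
    · rcases mem_union.1 hl with hl | hl
      · exact (mem_erase.1 hl).1
      · obtain ⟨i, -, rfl⟩ := mem_image.1 hl
        exact fun h => by simpa using congrFun h i
    · obtain ⟨l, -, rfl⟩ := mem_image.1 hl
      obtain ⟨c⟩ := this
      exact fun h => G.gen c l (by simp [h, ev])
  · rw [hM _ (ch x) (rl_smul m x ▸ Arr.ch_smul (hch x hx) (Nat.cast_nonneg m)), sum_nsmul_smul]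
  · have hxy : nq (x + y) ∈ ConeH ℚ I0 := nq_add x y ▸ add_mem_ConeH hx hy
    have h1 := hch _ hxy
    have key : ∀ {u v : κ → ℕ}, nq u ∈ ConeH ℚ I0 → Conf L (nq u) (nq v) → ∀ c,
        rl (u + v) ∈ G.Ch c → rl u ∈ G.Ch c := fun {u v} hu h c hc => by
      refine ⟨Arr.supp_sp ((e3 u).1 hu), fun l => ?_⟩
      have h2 := hc.2 l
      have h3 := e4 h l
      rw [cast_nq, cast_nq] at h3
      rw [rl_add, ev_add] at h2
      by_contra h4
      have h5 : ev (G.h l) (rl u) ≠ 0 := fun e => h4 (by simp [e])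
      nlinarith [mul_self_pos.2 h5, mul_self_pos.2 (G.gen c l), mul_nonneg h3
        (mul_self_nonneg (ev (G.h l) (rl (G.pt c))))]
    rw [hM x _ (key hx h _ h1), hM y _ (key hy h.symm (ch (x + y)) (by rwa [add_comm y x])),
      ← sum_add_distrib]
    exact sum_congr rfl fun i _ => add_smul _ _ _
  · obtain ⟨c, hc⟩ := G.cover _ ((e2 y).1 hy)
    refine ⟨G.P c, fun x hx => hM x c ⟨Arr.supp_sp ((e3 x).1
      (mem_of_conf subset_union_left hy hg hx)), fun l => ?_⟩, fun x hx => G.P_le (hch x hx) c⟩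
    have h2 := hc.2 l
    have h3 := e4 hx l
    rw [cast_nq] at h3
    have h5 : ev (G.h l) (fun i => y i) ≠ 0 := by
      rw [← cast_dot]
      exact_mod_cast hg _ (mem_union_right _ (mem_image_of_mem G.h (mem_univ l)))
    by_contra h4
    nlinarith [mul_self_pos.2 h5, mul_nonneg h2 h3]

/-- **finite generation gives the arrangement** -/
theorem nonempty_arr {D : κ → BD k F} (hD : Gr.FG (fun n : κ → ℕ => (∑ i, n i • D i).Sec) ⊤) :
    Nonempty (ARR D) :=
  (nonempty_geo hD).elim fun G => G.nonempty_arr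

namespace ARR

variable {D : κ → BD k F} (R : ARR D) {x y : κ → ℕ}

theorem Sec_eq (hx : nq x ∈ ConeH ℚ R.I0) (m : ℕ) :
    (m • R.M x).Sec = (m • R.q • ∑ i, x i • D i).Sec :=
  le_antisymm (Sec_mono (nsmul_le_nsmul_right (R.le x hx) m)) (R.Sec_le x hx m)

theorem nonneg {y : κ → ℚ} (hy : y ∈ ConeH ℚ R.I0) : 0 ≤ y := fun i => by
  have := hy _ (R.coord i)
  rw [dot_single] at this
  simpa using this

theorem M_zero : R.M 0 = 0 := by
  have := R.smul 0 (by
    have : nq (0 : κ → ℕ) = 0 := by ext; simp [nq]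
    rw [this]
    exact zero_mem_ConeH _) 0
  simpa using this

/-- superadditivity -/
theorem add_le (hx : nq x ∈ ConeH ℚ R.I0) (hy : nq y ∈ ConeH ℚ R.I0) :
    R.M x + R.M y ≤ R.M (x + y) := by
  have hxy : nq (x + y) ∈ ConeH ℚ R.I0 := nq_add x y ▸ add_mem_ConeH hx hy
  rw [((R.free x hx).add (R.free y hy)).le_iff]
  refine le_trans (Sec_mono ?_) (by simpa using R.Sec_le _ hxy 1)
  simp only [Pi.add_apply, add_smul, sum_add_distrib, smul_add]
  exact add_le_add (R.le x hx) (R.le y hy)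

end ARR

end Crest.Agent.X262.FG.Fan
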