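import Crest.Agent.X262.FG.Sig2
import Crest.Agent.X262.FG.Prm1

/-!
# X262/FG/C1a5 (helper5): small volume implies `x ≡ N_σ (x)`

* `null_all`   : a pseudo-effective class of degree zero is numerically trivial;
* `finite_sig` : the negative part has finitely many components;
* `exists_fx`  : one fixed part without components on the model;
* `deg_le`     : the estimate of the degree;  `c1aStmt`.
-/

set_option autoImplicit false

open Finset
open List (replicate)
open scoped KaehlerDifferential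

noncomputable section

namespace Crest.Agent.X262.FG.C1a5

open Crest.Agent.X277 Crest.Agent.X277.Lef Crest.Agent.X277.AN.G1 Crest.Agent.X277.BD
open Crest.Agent.X277.BD.Br (oP kP)
open Crest.Agent.X277.Link (pdiv)
open Crest.Agent.X262.FG.Sg Crest.Agent.X262.FG.Prm5

variable {F : Type} [Field F] [Algebra ℂ F] {P : PModel ℂ F} {x y : RD F} {n : ℕ}

theorem xt_add (φ ψ : BD ℂ F →+ ℤ) (x : RD F) : xt (φ + ψ) x = xt φ x + xt ψ x := by
  induction x using TensorProduct.induction_on with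
  | zero => simp
  | tmul r a => simp [← smul_em, mul_add]
  | add x y hx hy => simp only [map_add, hx, hy]; ring

theorem xt_nsmul (m : ℕ) (φ : BD ℂ F →+ ℤ) (x : RD F) : xt (m • φ) x = m * xt φ x := by
  induction m with
  | zero => simp [xt_zero]
  | succ m ih => rw [succ_nsmul, xt_add, ih]; push_cast; ring

variable [Algebra.EssFiniteType ℂ F]

theorem bnumL_perm {l l' : List (BD ℂ F)} (h : l.Perm l') : bnumL l = bnumL l' :=
  AddMonoidHom.ext fun a => bnum_perm (h.cons a)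

theorem bnumL_add (a b : BD ℂ F) (l : List (BD ℂ F)) :
    bnumL ((a + b) :: l) = bnumL (a :: l) + bnumL (b :: l) :=
  AddMonoidHom.ext fun c => bnum_add2 c a b l

theorem bnumL_nsmul (m : ℕ) (a : BD ℂ F) (l : List (BD ℂ F)) :
    bnumL ((m • a) :: l) = m • bnumL (a :: l) :=
  AddMonoidHom.ext fun c => (bnum_nsmul2 c m a l).trans (nsmul_eq_mul _ _).symm

theorem null_nef (hx : Ps x) (h0 : xt (bnumL (replicate n (oP P))) x = 0) :
    ∀ (l : List (BD ℂ F)) (k : ℕ), (∀ a ∈ l, a ∈ Br.On P ∧ Nef a) → l.length + k = n →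
      xt (bnumL (l ++ replicate k (oP P))) x = 0
  | [], k, _, h => by
    rw [List.length_nil, zero_add] at h
    rwa [h]
  | a :: l, k, hl, h => by
    obtain ⟨⟨ha, ha'⟩, hl⟩ := List.forall_mem_cons.1 hl
    obtain ⟨m, hm⟩ := Br.serre (neg_mem ha)
    have h1 := null_nef hx h0 l (k + 1) hl (by rw [← h, List.length_cons]; ring)
    have h2 : ∀ b ∈ l ++ replicate k (oP P), Nef b :=
      all_app (fun b hb => (hl b hb).2) (all_rp Br.free_oP.nef k)
    have h3 := hx.xt_nonneg (all_con ha' h2)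
    have h4 := hx.xt_nonneg (all_con (hm m le_rfl).nef h2)
    have h5 := congrArg (xt · x) (bnumL_add a (-a + m • oP P) (l ++ replicate k (oP P)))
    rw [List.replicate_succ, bnumL_perm List.perm_middle] at h1
    simp only [add_neg_cancel_left, bnumL_nsmul, xt_nsmul, xt_add, h1, mul_zero] at h5
    rw [List.cons_append]
    linarith

/-- a pseudo-effective class of degree zero is numerically trivial -/
theorem null_all (hd : dim ℂ F = n + 1) (hx : Ps x) (h0 : xt (bnumL (replicate n (oP P))) x = 0)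
    {l : List (BD ℂ F)} (hl : ∀ a ∈ l, a ∈ Br.On P) : xt (bnumL l) x = 0 := by
  by_cases h : l.length = n
  · have key : ∀ l Λ : List (BD ℂ F), (∀ a ∈ l, a ∈ Br.On P) → (∀ a ∈ Λ, a ∈ Br.On P ∧ Nef a) →
        l.length + Λ.length = n → xt (bnumL (l ++ Λ)) x = 0 := fun l => by
      induction l with
      | nil => exact fun Λ _ h1 h2 => by simpa using null_nef hx h0 Λ 0 h1 (by simpa using h2)
      | cons a l ih =>
        intro Λ h1 h2 h3
        obtain ⟨ha, h1⟩ := List.forall_mem_cons.1 h1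
        obtain ⟨m, hm⟩ := Br.serre ha
        have h4 : ∀ b, b ∈ Br.On P → Nef b → xt (bnumL (b :: (l ++ Λ))) x = 0 := fun b hb hb' => by
          rw [← bnumL_perm List.perm_middle]
          exact ih _ h1 (List.forall_mem_cons.2 ⟨⟨hb, hb'⟩, h2⟩) (by rw [← h3]; simp; ring)
        have h5 := h4 _ (add_mem ha (nsmul_mem Br.oP_mem m)) (hm m le_rfl).nef
        rwa [bnumL_add, xt_add, h4 _ (nsmul_mem Br.oP_mem m) (Br.free_oP.nsmul m).nef,
          add_zero] at h5
    simpa using key l [] hl (by simp) (by simpa using h)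
  · have h1 : bnumL l = 0 := AddMonoidHom.ext fun a => bnum_of_ne (by simpa [hd] using h)
    rw [h1, xt_zero]

section Fin

variable {ι : Type} (X : Pf P ι)

omit [Algebra.EssFiniteType ℂ F] in
/-- the components of the negative part satisfy no numerical relation -/
theorem no_rel [Fintype ι] (hx : OnR P x) {ν : ι → ℝ} (hν : ∀ i, 0 < ν i ∧ IsSig (X.o i) x (ν i))
    {q : ι → ℤ} (hq : Nef (∑ i, q i • X.Γ i)) (i : ι) : q i ≤ 0 := by
  by_contra h0
  have h0' : (0 : ℝ) < q i := by exact_mod_cast not_le.1 h0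
  obtain ⟨δ, hδ, h1⟩ : ∃ δ : ℝ, 0 < δ ∧ ∀ j, δ * q j ≤ ν j := by
    have h2 : ∀ j, ∀ᶠ δ : ℝ in nhds 0, δ * q j < ν j := fun j =>
      (continuous_id.mul continuous_const).continuousAt.eventually_lt continuousAt_const
        (by simpa using (hν j).1)
    obtain ⟨δ, h3, h4⟩ := (((Filter.eventually_all.2 h2).filter_mono nhdsWithin_le_nhds).and
      (self_mem_nhdsWithin (a := (0 : ℝ)) (s := Set.Ioi 0))).exists
    exact ⟨δ, h4, fun j => (h3 j).le⟩
  have h2 := X.sub hx (fun j => (hν j).2.2) (hν i).2.1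
  have h3 := z_pos (o := X.o i) (Cn.lr (r := ν - δ • fun j => (q j : ℝ))
    (fun j => sub_nonneg.2 (h1 j)) X.nonneg)
  have h5 := (h2.add h3).add ((z_nef (o := X.o i) hq).smul hδ.le)
  rw [X.xt_lr_Γ, X.xt_lr_Γ, ← lr_zc, map_sub (lr X.Γ), map_smul, sub_add_sub_cancel,
    sub_add_cancel] at h5
  have h4 := (hν i).2.2 _ h5
  simp only [Pi.sub_apply, Pi.smul_apply, smul_eq_mul] at h4
  linarith [mul_pos hδ h0']

/-- the negative part has finitely many components -/
theorem finite_sig (hNS : NSStmt) (hNZ : NZStmt) (hx : OnR P x) {ν : ι → ℝ}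
    (hν : ∀ i, IsSig (X.o i) x (ν i)) : {i | 0 < ν i}.Finite := by
  by_contra h
  obtain ⟨ρ, hρ⟩ := hNS F P
  let f : Fin (ρ + 1) → ι := fun k => (Set.Infinite.natEmbedding _ h k).1
  have hf : Function.Injective f := fun k l hkl =>
    Fin.ext ((Set.Infinite.natEmbedding _ h).injective (Subtype.ext hkl))
  obtain ⟨m, hm, h1⟩ := hρ (fun k => X.Γ (f k)) fun k => X.mem _
  obtain ⟨J, _, t, q, -, -, h2, h3⟩ := exists_int m
  have h4 : ∀ j, ∀ l : List (BD ℂ F), (∀ a ∈ l, a ∈ Br.On P) →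
      bnum ((∑ k, q j k • X.Γ (f k)) :: l) = 0 := fun j l hl => by
    obtain ⟨r, hr⟩ := h3 j
    have h5 := congrArg r (h1 l hl)
    rw [map_zero, map_sum] at h5
    rw [bnum_sum, ← Int.cast_eq_zero (α := ℝ), ← h5, Int.cast_sum]
    refine sum_congr rfl fun k _ => ?_
    rw [bnum_zsmul, mul_comm (m k), ← zsmul_eq_mul, map_zsmul, hr, zsmul_eq_mul, Int.cast_mul,
      mul_comm]
  have h5 : ∀ j, (∑ k, q j k • X.Γ (f k)) ∈ Br.On P := fun j =>
    sum_mem fun k _ => zsmul_mem (X.mem _) _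
  have h6 : ∀ k, 0 < ν (f k) ∧ IsSig ((X.sub' f hf).o k) x (ν (f k)) := fun k =>
    ⟨(Set.Infinite.natEmbedding _ h k).2, hν _⟩
  refine hm (funext fun k => ?_)
  rw [← h2]
  refine sum_eq_zero fun j _ => ?_
  have h7 := no_rel (X.sub' f hf) hx h6 (hNZ F P _ (h5 j) (h4 j)) k
  have h8 := no_rel (X.sub' f hf) hx h6 (q := -q j) (by
    have h9 := hNZ F P _ (neg_mem (h5 j)) fun l hl => by rw [bnum_neg, h4 j l hl, neg_zero]
    simp only [Pi.neg_apply, neg_smul, sum_neg_distrib]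
    exact h9) k
  rw [le_antisymm h7 (neg_nonpos.1 h8), Int.cast_zero, mul_zero]

end Fin

omit [Algebra.EssFiniteType ℂ F] in
/-- one fixed part without components on the model -/
theorem exists_fx {y₀ : RD F} (h0 : Fx x y₀) (h : ∀ i, W ((pf P).o i) x 0) :
    ∃ y, Fx x y ∧ ∀ i, xt ((pf P).o i) y ≤ 0 := by
  classical
  have key : ∀ s : Finset (pdiv P).ι, ∃ y, Fx x y ∧ PosR (y₀ - y) ∧
      ∀ i ∈ s, xt ((pf P).o i) y ≤ 0 := fun s => by
    induction s using Finset.induction_on with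
    | empty => exact ⟨y₀, h0, by rw [sub_self]; exact Cn.zero, by simp⟩
    | insert i s _ ih =>
      obtain ⟨y, h1, h2, h3⟩ := ih
      obtain ⟨y', h4, h5⟩ := h i
      obtain ⟨z, h6, h7, h8⟩ := h1.inf h4
      refine ⟨z, h6, by simpa using h2.add h7, forall_mem_insert _ _ _ |>.2 ⟨?_, fun j hj => ?_⟩⟩
      · have h9 := h8.xt_nonneg ((pf P).mo i)
        rw [map_sub] at h9
        linarith
      · have h9 := h7.xt_nonneg ((pf P).mo j)
        rw [map_sub] at h9
        linarith [h3 j hj]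
  obtain ⟨I, _, p, r, -, rfl⟩ := h0.1
  have h1 := Set.finite_iUnion fun k => finite_ord P (p k)
  obtain ⟨y, h2, h3, h4⟩ := key h1.toFinset
  refine ⟨y, h2, fun i => ?_⟩
  by_cases h5 : i ∈ h1.toFinset
  · exact h4 i h5
  · have h6 := h3.xt_nonneg ((pf P).mo i)
    rw [map_sub, xt_lr, sum_eq_zero fun k _ => ?_] at h6
    · linarith
    · have h7 : (pf P).o i (p k) = 0 := by
        by_contra h7
        exact h5 (h1.mem_toFinset.2 (Set.mem_iUnion.2 ⟨k, h7⟩))
      rw [h7, Int.cast_zero, mul_zero]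

theorem deg_eq_zero (hd : dim ℂ F = n + 1) (hy : PosR y) (h : ∀ i, xt ((pf P).o i) y ≤ 0) :
    xt (bnumL (replicate n (oP P))) y = 0 := by
  obtain ⟨I, _, p, r, hp, rfl⟩ := hy
  rw [xt_lr]
  refine sum_eq_zero fun k _ => ?_
  rcases (hp k).1.eq_or_lt with h0 | h0
  · rw [← h0, zero_mul]
  · have h1 : bnumL (replicate n (oP P)) (p k) = 0 := bnum_eq_zero_of_pd hd fun v hv => by
      have h2 : ∀ j ∈ univ, 0 ≤ r j * ((pf P).o ⟨v, hv⟩ (p j) : ℝ) := fun j _ =>
        mul_nonneg (hp j).1 (Int.cast_nonneg ((pf P).mo _ _ (hp j).2))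
      have h3 := (single_le_sum h2 (mem_univ k)).trans ((xt_lr _ p r).ge.trans (h ⟨v, hv⟩))
      have h4 := (mul_eq_zero.1 (le_antisymm h3 (h2 k (mem_univ k)))).resolve_left h0.ne'
      exact_mod_cast h4
    rw [h1, Int.cast_zero, mul_zero]

/-- the estimate of the degree of a free part -/
theorem deg_le (hd : dim ℂ F = n + 1) (hs : Small P x (n + 1)) : ∃ C : ℝ, ∀ (ε : ℝ) (z : RD F),
    0 < ε → FreeR z → PosR (x + ε • em (oP P) - z) →
      xt (bnumL (replicate n (oP P))) z ≤ C * ε := by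
  obtain ⟨C, hC⟩ := hs
  refine ⟨|C| * 2 ^ (n + 1) * 2 ^ n, fun ε z hε ⟨I, _, f, r, hf, hz⟩ hp => ?_⟩
  subst hz
  obtain ⟨d, hd'⟩ : ∃ d : I → ℝ, d = fun k => (bnumL (replicate n (oP P)) (f k) : ℝ) := ⟨_, rfl⟩
  have hd0 : ∀ k, 0 ≤ d k := fun k => hd' ▸
    Int.cast_nonneg (bnum_nonneg (all_con (hf k).2.nef (all_rp Br.free_oP.nef n)))
  have key : ∀ m : ℝ, 2 / ε ≤ m →
      m * ∑ k, r k * d k - ∑ k, d k ≤ |C| * 2 ^ (n + 1) * 2 ^ n * ε * m := fun m hm => by
    have hm0 : 0 < m := (div_pos two_pos hε).trans_le hm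
    have hM : Free (∑ k, ⌊m * r k⌋₊ • f k) := Free.sum _ fun k _ => (hf k).2.nsmul _
    have h1 := hC (2 * ε) m _ (by positivity) hm0 (hM.add (Br.free_oP.nsmul ⌊m * ε⌋₊)) (by
      have h2 := (z_pos (o := 0) hp).add (z_free ((Cn.lr (a := f)
        (r := fun k => r k - m⁻¹ * ⌊m * r k⌋₊) (fun k => sub_nonneg.2 ?_) fun k => (hf k).2).add
        ((Cn.of (Br.free_oP (P := P))).smul (c := ε - m⁻¹ * ⌊m * ε⌋₊) (sub_nonneg.2 ?_))))
      · rw [xt_zero, add_zero] at h2
        refine Eq.mpr (congrArg (Z 0 · 0) ?_) h2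
        simp only [lr_apply, map_add, map_sum, em_nsmul, smul_add, smul_sum, smul_smul, sub_smul,
          sum_sub_distrib, two_mul, add_smul]
        abel
      · rw [inv_mul_le_iff₀ hm0]
        exact Nat.floor_le (mul_nonneg hm0.le (hf k).1)
      · rw [inv_mul_le_iff₀ hm0]
        exact Nat.floor_le (by positivity))
    have h2 := vol_lower hM.nef (Br.free_oP (P := P)).nef 1 ⌊m * ε⌋₊ 1 n (by rw [hd, add_comm])
    rw [one_smul, hd, Nat.choose_one_right, List.replicate_one, List.singleton_append] at h2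
    have h3 : m * ∑ k, r k * d k - ∑ k, d k ≤
        (bnum ((∑ k, ⌊m * r k⌋₊ • f k) :: replicate n (oP P)) : ℝ) := by
      rw [bnum_sum, Int.cast_sum, mul_sum, ← sum_sub_distrib]
      refine sum_le_sum fun k _ => ?_
      rw [bnum_nsmul, Int.cast_mul, Int.cast_natCast, ← mul_assoc, ← sub_one_mul]
      exact (mul_le_mul_of_nonneg_right (Nat.sub_one_lt_floor _).le (hd0 k)).trans_eq (by
        rw [hd']; rfl)
    have h4 : (0 : ℝ) ≤ bnum ((∑ k, ⌊m * r k⌋₊ • f k) :: replicate n (oP P)) :=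
      Int.cast_nonneg (bnum_nonneg (all_con hM.nef (all_rp Br.free_oP.nef n)))
    have h5 : m * ε / 2 ≤ ⌊m * ε⌋₊ := by
      rw [div_le_iff₀ hε] at hm
      linarith [Nat.sub_one_lt_floor (m * ε)]
    have h6 := (Int.cast_le (R := ℝ).2 h2).trans h1
    push_cast at h6
    generalize (bnum ((∑ k, ⌊m * r k⌋₊ • f k) :: replicate n (oP P)) : ℝ) = u at h3 h4 h6
    refine h3.trans (le_of_mul_le_mul_left ?_ (show 0 < (m * ε / 2) ^ n by positivity))
    calc (m * ε / 2) ^ n * u ≤ 1 * (⌊m * ε⌋₊ : ℝ) ^ n * ((n + 1) * u) := by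
          rw [one_mul]
          gcongr
          exact le_mul_of_one_le_left h4 (by simp)
      _ ≤ |C| * (2 * ε * m) ^ (n + 1) := h6.trans
          (mul_le_mul_of_nonneg_right (le_abs_self C) (by positivity))
      _ = _ := by rw [div_pow]; field_simp; ring
  rw [xt_lr, show ∑ k, r k * (bnumL (replicate n (oP P)) (f k) : ℝ) = ∑ k, r k * d k by rw [hd']]
  by_contra h
  have h1 := sub_pos.2 (not_le.1 h)
  have h3 := (div_le_iff₀ h1).1 (le_max_right (2 / ε) ((∑ k, d k + 1) / _))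
  linarith [key _ (le_max_left _ ((∑ k, d k + 1) /
    (∑ k, r k * d k - |C| * 2 ^ (n + 1) * 2 ^ n * ε)))]

/-- **the first case** -/
theorem c1aStmt (hNS : NSStmt) (hNZ : NZStmt) (n : ℕ) : C1aStmt n := by
  intro F _ _ _ P b x hx hp hs
  have hd := dim_of_basis b
  have h1 : ∀ i, 0 < bnum ((pf P).Γ i :: replicate n (oP P)) := fun i => by
    refine lt_of_le_of_ne ((eff_of_nonneg ((pf P).nonneg i)).bnum_nonneg
      (all_rp Br.free_oP.nef n)) fun h => ?_
    have h2 := (pf P).self i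
    rw [eq_zero_of_bnum hd ((pf P).mem i) ((pf P).nonneg i) h.symm, map_zero] at h2
    exact zero_ne_one h2
  choose ν hν using fun i => exists_sig ((pf P).mo i)
    ((pf P).bound (all_rp Br.free_oP.nef n) (h1 i) hx hp)
  have h2 := (finite_sig (pf P) hNS hNZ hx hν).fintype
  let X := (pf P).sub' (fun i : {i | 0 < ν i} => i.1) Subtype.val_injective
  have h4 : ∀ {o t}, Z o x t → Z o (x - lr X.Γ fun i => ν i) (t - xt o (lr X.Γ fun i => ν i)) :=
    X.sub hx fun i => (hν i).2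
  have h5 : Ps (x - lr X.Γ fun i => ν i) := (h4 hp).ps
  have h6 : ∀ i, Z ((pf P).o i) (x - lr X.Γ fun i => ν i) 0 := fun i => by
    convert h4 (hν i).1 using 1
    by_cases h7 : 0 < ν i
    · exact (sub_eq_zero.2 (X.xt_lr_Γ (fun i => ν i) ⟨i, h7⟩).symm).symm
    · rw [le_antisymm (not_lt.1 h7) ((hν i).1.nonneg ((pf P).mo i)), xt_lr, sum_eq_zero, sub_zero]
      intro j _
      have h8 : (pf P).o i (X.Γ j) = 0 := (pf P).ne i j fun h => h7 (h ▸ j.2)
      rw [h8, Int.cast_zero, mul_zero]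
  have h7 := onR_sub hx (onR_lr X.mem fun i => ν i)
  refine ⟨_, h2, X, fun i => ν i, fun i => ⟨i.2, hν i⟩, fun l hl => null_all hd h5 ?_ hl⟩
  obtain ⟨C, hC⟩ := deg_le hd hs
  refine le_antisymm (le_of_forall_pos_le_add fun η hη => ?_)
    (h5.xt_nonneg (all_rp Br.free_oP.nef n))
  have hε : 0 < η / (|C| + 1) := by positivity
  obtain ⟨y₀, h8⟩ := h5.fx (big_oP P) hε
  obtain ⟨y, h9, h10⟩ := exists_fx h8 fun i => (pf P).upg h7 (h6 i) hε
  have h11 := hC _ _ hε h9.2 (by
    convert h9.1.add (Cn.lr (a := X.Γ) (r := fun i => ν i) (fun i => i.2.le) X.nonneg) using 1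
    abel)
  have h12 : (0 : ℝ) ≤ bnumL (replicate n (oP P)) (oP P) :=
    Int.cast_nonneg (bnum_nonneg (all_con Br.free_oP.nef (all_rp Br.free_oP.nef n)))
  rw [map_sub, map_add, deg_eq_zero hd h9.1 h10, map_smul, xt_em, smul_eq_mul] at h11
  have h13 : C * (η / (|C| + 1)) ≤ η := by
    rw [← mul_div_assoc, div_le_iff₀ (by positivity)]
    nlinarith [le_abs_self C]
  linarith [mul_nonneg hε.le h12]

end Crest.Agent.X262.FG.C1a5
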