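import Crest.Agent.X262.FG.Up0

/-!
# Row 262, FG-UP (helper14), part 2: the form used by the non-vanishing theorem
-/

set_option autoImplicit false
open WithZero
open scoped KaehlerDifferential
noncomputable section
namespace Crest.Agent.X262.FG
open Crest.Agent.X277 Crest.Agent.X277.Lef Crest.Agent.X277.AN.G1 Crest.Agent.X277.BD
open Crest.Agent.X277.BD.Br (At oP kP)
open Crest.Agent.X277.Res.Log (Bd IsoOff LogRes un_iff)
variable {F : Type} [Field F] [Algebra ℂ F] {P Q : PModel ℂ F} {n : ℕ}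
open Classical in
theorem upN (B : Bd P n) (b : Module.Basis (Fin n) F Ω[F⁄ℂ]) (T : Finset (BD ℂ F)) :
    ∃ (Q : PModel ℂ F) (C : Bd Q n) (κ g : C.ι → ℤ) (μ : B.ι → C.ι → ℤ) (N : ℕ),
      oP P ∈ Br.On Q ∧ (∀ a ∈ T, ∃ m, a = dvs C m) ∧ kP Q b = kP P b + dvs C κ ∧
      (∀ e, dvs B (Pi.single e 1) = dvs C (μ e)) ∧ (∀ e', ∑ e, μ e e' ≤ κ e' + 1) ∧
      (∀ e', 0 ≤ g e') ∧ Amp Q (N • oP P - dvs C g) ∧
      ∀ a ∈ Br.On P, ∀ m : ℕ, (a + m • dvs C κ).Sec = a.Sec := by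
  obtain ⟨Q, C, h, -, h1⟩ := exists_hi B ∅ fun a : T => a.1
  obtain ⟨N, g, -, h2, h3⟩ := exists_amp h.iso
  refine ⟨Q, C, kap b h.iso, g, mu B C, N, oP_up h.iso, fun a ha => ⟨_, h1 ⟨a, ha⟩⟩, kP_up b h.iso,
    fun e => h.dvs_eq _, sum_mu_le b h.iso B, h2.1, h3, fun a ha m => ?_⟩
  rw [← dvs_nsmul]
  exact sec_exc h.iso ha ((exc_kap b h.iso).nsmul m)
end Crest.Agent.X262.FG
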