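import Crest.Agent.X262.FG.Sig2
import Crest.Agent.X262.FG.Up2

/-!
# Row 262, FG, section 5 (helper14): the first case of non-vanishing

If `x₀` is numerically equivalent to its negative part `∑ ν i • Γ i`, then
* `exists_num` : the equivalence is a positive combination of integral equivalences;
* `cone_of` : for pseudo-effective `x` near `x₀` the degree `x₀ + 2 (x - x₀)` is pseudo-effective;
* `c1bStmt_of : NZStmt → L51Stmt n → C1bStmt n`;  `upNStmt : UpNStmt n`.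
-/

set_option autoImplicit false

open Finset
open scoped KaehlerDifferential

noncomputable section

namespace Crest.Agent.X262.FG.Sg

open Crest.Agent.X277 Crest.Agent.X277.Lef Crest.Agent.X277.AN.G1 Crest.Agent.X277.BD
open Crest.Agent.X277.BD.Br (oP kP)
open Crest.Agent.X277.Res.Log (Bd)

variable {F : Type} [Field F] [Algebra ℂ F] {P : PModel ℂ F} {κ ι : Type} [Fintype κ] [Fintype ι]

theorem z_lr_nef {J : Type} [Fintype J] {z : J → BD ℂ F} {t : J → ℝ} {o : BD ℂ F →+ ℤ}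
    (ht : ∀ j, 0 ≤ t j) (hz : ∀ j, Nef (z j)) : Z o (lr z t) 0 := by
  simpa [lr_apply] using z_sum univ fun j _ => (z_nef (o := o) (hz j)).smul (ht j)

/-- removing a multiple of a numerically fixed class -/
theorem z_rem (X : Pf P ι) {x₀ x : RD F} {ν s : ι → ℝ} {m t : ℝ} {o : BD ℂ F →+ ℤ}
    (hP : Z o (lr X.Γ ν - x₀) 0) (hx : OnR P x) (hs : ∀ i, IsSig (X.o i) x (s i)) (hm : 0 ≤ m)
    (hν : ∀ i, m * ν i ≤ s i) (h : Z o x t) : Z o (x - m • x₀) (t - m * xt o (lr X.Γ ν)) := by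
  have h1 := X.sub hx (fun i => (hs i).2) h
  have h2 := z_pos (o := o) (X.posR_lr (ν := s - m • ν) fun i => sub_nonneg.2 (hν i))
  convert (h1.add h2).add (hP.smul hm) using 1
  · rw [map_sub, map_smul, smul_sub]
    abel
  · rw [map_sub, map_smul, map_sub, map_smul, smul_eq_mul]
    ring

/-- the cone condition -/
theorem cone_of {D : κ → BD ℂ F} (hD : ∀ k, D k ∈ Br.On P) (X : Pf P ι) {ν : ι → ℝ} {x₀ : κ → ℝ}
    (hν : ∀ i, 0 < ν i ∧ IsSig (X.o i) (lr D x₀) (ν i))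
    (hP : ∀ o, Z o (lr X.Γ ν - lr D x₀) 0) :
    ∃ δ : ℝ, 0 < δ ∧ ∀ x, Ps (lr D x) → ‖x - x₀‖ < δ → Ps (lr D (x₀ + (2 : ℝ) • (x - x₀))) := by
  have hb := big_oP P
  have h1 : ∀ i, ∃ ε : ℝ, 0 < ε ∧ ¬ Z (X.o i) (lr D x₀ + ε • em (oP P)) 0 := fun i => by
    by_contra hc
    push Not at hc
    exact absurd ((hν i).2.2 0 (z_of_add hb hc)) (hν i).1.not_ge
  choose e he he' using h1
  obtain ⟨ε₀, hε₀, h2⟩ : ∃ ε₀ : ℝ, 0 < ε₀ ∧ ∀ i, ε₀ ≤ e i := by
    rcases isEmpty_or_nonempty ι with h | h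
    · exact ⟨1, one_pos, fun i => h.elim i⟩
    · obtain ⟨i, hi⟩ := Finite.exists_min e
      exact ⟨e i, he i, hi⟩
  obtain ⟨N, hN, h3⟩ := exists_freeR hD
  refine ⟨ε₀ / 4 / N, by positivity, fun x hx hδ => ?_⟩
  have key : ∀ ε : ℝ, 0 < ε → ε ≤ ε₀ / 4 →
      Ps (lr D (x₀ + (2 : ℝ) • (x - x₀)) + (2 * ε) • em (oP P)) := fun ε hε hε' => by
    obtain ⟨y, hy⟩ := hx.fx hb hε
    choose s hs using fun i => exists_sig' hb (X.mo i) hy.w.z
    have hon : OnR P (lr D x + ε • em (oP P)) := (onR_lr hD x).add (onR_oP ε)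
    by_cases hc : ∀ i, 1 / 2 * ν i ≤ s i
    · convert (z_rem X (hP 0) hon hs (by norm_num) hc hy.w.z).ps.smul zero_le_two using 1
      rw [map_add, map_smul, map_sub]
      module
    · push Not at hc
      obtain ⟨i₁, hi₁⟩ := hc
      have : Nonempty ι := ⟨i₁⟩
      obtain ⟨i, hi⟩ := Finite.exists_min fun i => s i / ν i
      have hm : 0 ≤ s i / ν i := div_nonneg ((hs i).1.nonneg' (X.mo i) hb) (hν i).1.le
      have hm' : s i / ν i < 1 / 2 := (hi i₁).trans_lt ((div_lt_iff₀ (hν i₁).1).2 hi₁)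
      have h4 := z_rem X (hP _) hon hs hm
        (fun j => (le_div_iff₀ (hν j).1).1 (hi j)) (hs i).1
      rw [X.xt_lr_Γ, div_mul_cancel₀ _ (hν i).1.ne', sub_self] at h4
      generalize s i / ν i = m at hm hm' h4
      have h5 := h3 ((1 - m) * e i - ε) (x₀ - x) (by
        rw [norm_sub_rev, lt_div_iff₀' hN] at hδ
        nlinarith [h2 i, he i])
      have h6 := (h4.add_free h5).smul (inv_nonneg.2 (show 0 ≤ 1 - m by linarith))
      refine absurd ?_ (he' i)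
      convert h6 using 1
      · rw [eq_inv_smul_iff₀ (show 1 - m ≠ 0 by linarith), map_sub]
        module
      · simp
  exact z_of_add' hb fun ε hε => ⟨2 * min (ε / 2) (ε₀ / 4), by positivity,
    by linarith [min_le_left (ε / 2) (ε₀ / 4)], key _ (by positivity) (min_le_right _ _)⟩

/-- the integral decomposition of a numerical equivalence -/
theorem exists_num (D : κ → BD ℂ F) (Γ : ι → BD ℂ F) {x₀ : κ → ℝ}
    {ν : ι → ℝ} (h0 : ∀ k, 0 ≤ x₀ k) (h1 : ∀ i, 0 ≤ ν i) :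
    ∃ (J : Type) (_ : Fintype J) (t : J → ℝ) (d : J → κ → ℕ) (m : J → ι → ℕ), (∀ j, 0 < t j) ∧
      x₀ = ∑ j, t j • Cvx.nc (d j) ∧ ν = ∑ j, t j • Cvx.nc (m j) ∧
      ∀ φ : BD ℂ F →+ ℤ, xt φ (lr D x₀ - lr Γ ν) = 0 → ∀ j, φ (lc D (d j) - lc Γ (m j)) = 0 := by
  obtain ⟨J, _, t, q, ht, hq, hs, hρ⟩ := exists_int (Sum.elim x₀ ν)
  have hq' : ∀ j i, ∃ m : ℕ, q j i = m := fun j i =>
    Int.eq_ofNat_of_zero_le (hq j i (i.rec h0 h1))
  choose m hm using hq'
  refine ⟨J, inferInstance, t, fun j k => m j (.inl k), fun j i => m j (.inr i), ht, ?_, ?_,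
    fun φ hφ j => ?_⟩
  · ext k
    simpa [hm, Cvx.nc] using (hs (.inl k)).symm
  · ext i
    simpa [hm, Cvx.nc] using (hs (.inr i)).symm
  · obtain ⟨ρ, hρ⟩ := hρ j
    have h2 := congrArg ρ hφ
    have h3 : ∀ (r : ℝ) (c : ℤ), ρ (r * c) = ρ r * c := fun r c => by
      rw [mul_comm, ← zsmul_eq_mul, map_zsmul, zsmul_eq_mul, mul_comm]
    have h4 : ∀ k, ρ (x₀ k) = m j (.inl k) := fun k => by simpa [hm] using hρ (.inl k)
    have h5 : ∀ i, ρ (ν i) = m j (.inr i) := fun i => by simpa [hm] using hρ (.inr i)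
    simp only [map_sub, xt_lr, map_sum, map_zero, h3, h4, h5] at h2
    simp only [lc, map_sub, map_sum, map_nsmul, nsmul_eq_mul]
    exact_mod_cast h2

/-- **the first case** -/
theorem c1bStmt_of {n : ℕ} (hNZ : NZStmt) (hL : L51Stmt n) : C1bStmt n := by
  intro F _ _ _ P B b κ _ S x₀ hx₀ ⟨ι, _, X, ν, hν, hnum⟩
  obtain ⟨J, _, t, d, m, ht, hd, hm, hφ⟩ :=
    exists_num (S.D b) X.Γ hx₀.1 fun i => (hν i).1.le
  have hmem : ∀ j, lc (S.D b) (d j) - lc X.Γ (m j) ∈ Br.On P := fun j =>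
    sub_mem (lc_mem (S.D_mem b) _) (lc_mem X.mem _)
  have hz : ∀ j, Nef (lc (S.D b) (d j) - lc X.Γ (m j)) := fun j =>
    hNZ F P _ (hmem j) fun l hl => hφ _ (hnum l hl) j
  have hz' : ∀ j, Nef (-(lc (S.D b) (d j) - lc X.Γ (m j))) := fun j =>
    hNZ F P _ (neg_mem (hmem j)) fun l hl => by
      rw [bnum_neg, neg_eq_zero]
      exact hφ _ (hnum l hl) j
  constructor
  · obtain ⟨δ, hδ, h⟩ := cone_of (S.D_mem b) X hν fun o => by
      convert z_lr_nef (o := o) (fun j => (ht j).le) hz' using 1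
      rw [hd, hm, map_sum, map_sum, ← sum_sub_distrib, lr_apply]
      refine sum_congr rfl fun j _ => ?_
      rw [map_smul, map_smul, lr_nc, lr_nc, neg_sub, map_sub, smul_sub]
    exact ⟨δ, hδ, fun x _ hx hx' => ⟨2, one_lt_two, h x hx hx'⟩⟩
  · have h : ∀ j, ∃ q : ℕ, 0 < q ∧ Eff (q • lc (S.D b) (d j)) := fun j => by
      by_cases h0 : d j = 0
      · exact ⟨1, one_pos, by rw [h0, lc_zero, smul_zero]; exact Eff.zero⟩
      · obtain ⟨k, hk⟩ := Function.ne_iff.1 h0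
        have h1 : 0 < ∑ k, d j k :=
          (Nat.pos_of_ne_zero hk).trans_le (single_le_sum (fun _ _ => Nat.zero_le _) (mem_univ k))
        let S' := S.comap (fun _ : Unit => d j) h1 fun _ => rfl
        have h2 : lc (S.D b) (d j) = S'.D b () := (S.comap_D b _ h1 (fun _ => rfl) ()).symm
        have h3 := hz j
        have h4 := hz' j
        rw [h2] at h3 h4 ⊢
        exact hL F P B b S'.r (S'.A ()) (S'.c ()) _ S'.r_pos (S'.amp ())
          (fun e => ⟨S'.c_nonneg () e, S'.c_le () e⟩) (lc_mem X.mem _)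
          (sum_nonneg fun i _ => nsmul_nonneg (X.nonneg i) _) h3 h4
    choose q hq hq' using h
    refine ⟨J, inferInstance, fun j => t j / q j, fun j => q j • d j, fun j =>
      ⟨div_nonneg (ht j).le (Nat.cast_nonneg _), by rw [lc_nsmul]; exact hq' j⟩, ?_⟩
    rw [hd]
    refine sum_congr rfl fun j _ => funext fun k => ?_
    have : (q j : ℝ) ≠ 0 := Nat.cast_ne_zero.2 (hq j).ne'
    simp only [Pi.smul_apply, Cvx.nc, smul_eq_mul, Nat.cast_mul]
    field_simp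

theorem upNStmt (n : ℕ) : UpNStmt n := fun _ _ _ _ _ B b T => upN B b T

end Crest.Agent.X262.FG.Sg
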