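import Crest.Agent.X262.FG.Sig2

/-!
# Row 262, FG, section 5 (helper74): the conclusion in the second case

`c2b_of : QStmt (n + 1) → PosStmt n → C2bStmt n`.
-/

set_option autoImplicit false

open Finset
open scoped KaehlerDifferential

noncomputable section

namespace Crest.Agent.X262.FG.Sg

open Crest.Agent.X277 Crest.Agent.X277.Lef Crest.Agent.X277.AN.G1 Crest.Agent.X277.BD
open Crest.Agent.X277.BD.Br (oP kP)
open Crest.Agent.X277.Res.Log (Bd)

variable {F : Type} [Field F] [Algebra ℂ F]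

theorem ps_lr {J : Type} [Fintype J] {a : J → BD ℂ F} {t : J → ℝ} (ha : ∀ j, Eff (a j))
    (ht : ∀ j, 0 ≤ t j) : Ps (lr a t) := (fx_lr ha ht).elim fun _ h => h.ps

/-- removing the negative part along one component, with a linear bound -/
theorem sig_step [Algebra.EssFiniteType ℂ F] {n : ℕ} (hP : PosStmt n) {Q : PModel ℂ F}
    (b : Module.Basis (Fin (n + 1)) F Ω[F⁄ℂ]) (C : Bd Q (n + 1)) (e : C.ι) :
    ∃ φ : RD F →ₗ[ℝ] ℝ, ∀ M : RD F, OnR Q M → Ps M →
      ∃ ν : ℝ, 0 ≤ ν ∧ ν ≤ φ M ∧ Z (od C e) (M - ν • em (cp C e)) 0 := by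
  refine ⟨(bnum (cp C e :: List.replicate n (oP Q)) : ℝ)⁻¹ • xt (bnumL (List.replicate n (oP Q))),
    fun M hM H => ?_⟩
  have h1 := (pfB C).bound (all_rp Br.free_oP.nef n) ((pfB C).deg_pos hP b e) hM H
  obtain ⟨ν, hν⟩ := exists_sig ((pfB C).mo e) h1
  refine ⟨ν, hν.1.nonneg ((pfB C).mo e), (hν.2 _ h1).trans_eq (div_eq_inv_mul _ _), ?_⟩
  have h2 := ((pfB C).sub' (fun _ : Unit => e) fun _ _ _ => rfl).sub_sig (ν := fun _ => ν) hM
    (fun _ => hν) ()
  rwa [lr_apply, Fintype.sum_unique] at h2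

/-- non-vanishing descends along an exceptional divisor -/
theorem nv_of_fx {P : PModel ℂ F} {κ : Type} [Fintype κ] {D : κ → BD ℂ F} (hD : ∀ k, D k ∈ Br.On P)
    {x₀ : κ → ℝ} (hx : ∀ k, 0 ≤ x₀ k) {E : BD ℂ F}
    (exc : ∀ a ∈ Br.On P, ∀ m : ℕ, (a + m • E).Sec = a.Sec) {lam : ℝ} (hl : 0 < lam) {y : RD F}
    (h : Fx (lam • lr D x₀ + em E) y) :
    ∃ (J : Type) (_ : Fintype J) (t : J → ℝ) (d : J → κ → ℕ),
      (∀ j, 0 ≤ t j ∧ Eff (lc D (d j))) ∧ x₀ = ∑ j, t j • Cvx.nc (d j) := by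
  have e1 : lam • lr D x₀ + em E =
      lr (fun i : Option κ => i.elim E D) fun i => i.elim 1 (lam • x₀) := by
    rw [← map_smul]
    simp only [lr_apply, Fintype.sum_option, Option.elim, one_smul]
    exact add_comm _ _
  rw [e1] at h
  obtain ⟨J, _, t, q, M, ht, h1, h2, h3, -⟩ := h.exists_int
  have h4 : ∀ j k, 0 ≤ q j (some k) := fun j k => h1 j _ (mul_nonneg hl.le (hx k))
  refine ⟨J, inferInstance, fun j => t j / lam, fun j k => (q j (some k)).toNat,
    fun j => ⟨div_nonneg (ht j).le hl.le, ?_⟩, ?_⟩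
  · obtain ⟨s, hs, h0⟩ := (h3 j).1.eff.mono (h3 j).2
    refine ⟨s, ?_, h0⟩
    rw [← exc _ (lc_mem hD _) (q j none).toNat]
    convert hs using 2
    rw [Fintype.sum_option, add_comm, lc, ← natCast_zsmul,
      Int.toNat_of_nonneg (h1 j none zero_le_one)]
    congr 1
    exact sum_congr rfl fun k _ => by rw [← natCast_zsmul, Int.toNat_of_nonneg (h4 j k)]; rfl
  · ext k
    have h5 : ∑ j, t j * q j (some k) = lam * x₀ k := h2 (some k)
    have h6 : ∀ j, (((q j (some k)).toNat : ℕ) : ℝ) = q j (some k) := fun j => by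
      exact_mod_cast congrArg (Int.cast (R := ℝ)) (Int.toNat_of_nonneg (h4 j k))
    simp only [Finset.sum_apply, Pi.smul_apply, Cvx.nc_apply, smul_eq_mul, h6, div_mul_eq_mul_div,
      ← sum_div, h5]
    field_simp

/-- **the second case** -/
theorem c2b_of {n : ℕ} (hQ : QStmt (n + 1)) (hP : PosStmt n) : C2bStmt n := by
  classical
  intro F _ _ _ P b κ _ D hD x₀ hx₀ U
  obtain ⟨Q, C, le, e₀, β, hβ, hβ1, α, amp, sig, lam, hl, E, hE, hE0, exc, Φ, hΦ, eq⟩ := U
  have hD' : ∀ k, D k ∈ Br.On Q := fun k => Br.On_le_iff.2 le (hD k)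
  obtain ⟨J, _, a, δ, ha, hδ, H⟩ := hQ F Q C b e₀ β α (κ ⊕ C.ι) (Sum.elim D (cp C)) hβ hβ1 amp
    fun i => i.rec hD' (cp_mem C)
  set L := em (kP Q b) + α + lr (cp C) β with hL
  set S := em (cp C e₀) with hS
  set V := lr (cp C) Φ with hV
  have hcp : ∀ e, Eff (cp C e) := fun e => eff_of_nonneg (cp_nonneg C e)
  refine ⟨?_, ?_⟩
  swap
  · obtain ⟨t, ht, h⟩ := H 0 (by simpa using hδ.le) (by simpa using sig)
    rw [map_zero, add_zero] at h
    obtain ⟨y, hy⟩ := fx_lr ha ht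
    obtain ⟨y', hy'⟩ := fx_lr hcp hΦ
    have h1 := hy.add hy'
    rw [← h, ← eq] at h1
    exact nv_of_fx hD hx₀.1 exc hl h1
  obtain ⟨φ, hφ⟩ := sig_step hP b C e₀
  obtain ⟨K, hK0, hK⟩ : ∃ K : ℝ, 0 ≤ K ∧ ∀ x ∈ stdSimplex ℝ κ, φ (lam • lr D x + em E) ≤ K := by
    refine ⟨lam * ∑ k, |φ (em (D k))| + |φ (em E)|, by positivity, fun x hx => ?_⟩
    rw [map_add, map_smul, lr_apply, map_sum, smul_eq_mul]
    gcongr with k
    · rw [map_smul, smul_eq_mul]
      calc _ ≤ x k * |φ (em (D k))| := mul_le_mul_of_nonneg_left (le_abs_self _) (hx.1 k)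
        _ ≤ 1 * |φ (em (D k))| := by gcongr; exact (mem_Icc_of_mem_stdSimplex hx k).2
        _ = _ := one_mul _
    · exact le_abs_self _
  let v : J ⊕ Fin 3 → RD F := Sum.elim (fun j => em (a j)) ![S, -L, -V]
  obtain ⟨K', hK', hoff'⟩ := hoff v (lr D)
  let R : ℝ := lam + (‖Φ‖ + K) + δ
  have hR : 0 < R := by positivity
  have hτ : 0 < δ / R := div_pos hδ hR
  have hτ1 : δ / R ≤ 1 := (div_le_one hR).2 (le_add_of_nonneg_left (by positivity))
  refine ⟨min 1 (1 / (2 * lam * K')), lt_min one_pos (by positivity), fun x hx hps hn => ?_⟩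
  obtain ⟨ν, hν0, hν, hZ⟩ := hφ (lam • lr D x + em E)
    ((onR_smul (onR_lr hD' x) lam).add (Cn.of hE)) ((hps.smul hl.le).add (ps_eff (eff_of_nonneg hE0)))
  let w : κ ⊕ C.ι → ℝ := Sum.elim (lam • (x - x₀)) (Φ - Pi.single e₀ ν)
  have hw : lr (Sum.elim D (cp C)) w = lam • lr D (x - x₀) + (V - ν • S) := by
    rw [← map_smul, hV, hS, ← lr_single, ← map_sub]
    simp only [lr_apply, Fintype.sum_sum_type, Sum.elim_inl, Sum.elim_inr, w]
  have hM : lam • lr D x + em E - ν • S = L + lr (Sum.elim D (cp C)) w := by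
    rw [hw, map_sub, smul_sub, show em E = L + V - lam • lr D x₀ from eq_sub_of_add_eq' eq]
    abel
  have hwn : ‖w‖ ≤ R := by
    refine (pi_norm_le_iff_of_nonneg hR.le).2 fun i => ?_
    cases i with
    | inl k =>
      have h1 : ‖lam • (x - x₀)‖ ≤ lam := by
        rw [norm_smul, Real.norm_of_nonneg hl.le]
        exact mul_le_of_le_one_right hl.le (hn.le.trans (min_le_left _ _))
      exact (norm_le_pi_norm _ k).trans (h1.trans
        (le_add_of_le_of_nonneg (le_add_of_nonneg_right (by positivity)) hδ.le))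
    | inr e =>
      have h1 : ‖Φ - Pi.single e₀ ν‖ ≤ ‖Φ‖ + K := (norm_sub_le _ _).trans (by
        rw [Pi.norm_single, Real.norm_of_nonneg hν0]
        exact add_le_add_right (hν.trans (hK x hx)) _)
      exact (norm_le_pi_norm _ e).trans (h1.trans
        (le_add_of_le_of_nonneg (le_add_of_nonneg_left hl.le) hδ.le))
  obtain ⟨t, ht, h⟩ := H ((δ / R) • w) (by
      rw [norm_smul, Real.norm_of_nonneg hτ.le]
      exact (mul_le_mul_of_nonneg_left hwn hτ.le).trans_eq (div_mul_cancel₀ _ hR.ne')) (by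
      have h1 := (sig.smul (sub_nonneg.2 hτ1)).add ((hM ▸ hZ).smul hτ.le)
      rw [mul_zero, mul_zero, add_zero] at h1
      convert h1 using 1
      rw [map_smul]
      module)
  have hc : 0 < δ / R * lam := mul_pos hτ hl
  obtain ⟨t', ht', h'⟩ := hoff' (x - x₀) (Sum.elim (fun j => t j / (δ / R * lam))
    ![ν / lam, 1 / (δ / R * lam), 1 / lam]) (by
      rintro (j | i)
      · exact div_nonneg (ht j) hc.le
      · fin_cases i <;> simp <;> positivity) (by
      rw [map_smul, hw] at h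
      have h1 : ∑ j, (t j / (δ / R * lam)) • em (a j) = (1 / (δ / R * lam)) • lr a t := by
        rw [lr_apply, smul_sum]
        exact sum_congr rfl fun j _ => by rw [smul_smul, one_div, div_eq_inv_mul]
      simp only [Fintype.sum_sum_type, Sum.elim_inl, Sum.elim_inr, v, Fin.sum_univ_three, h1, ← h,
        Matrix.cons_val_zero, Matrix.cons_val_one, Matrix.cons_val]
      have h2 : lam ≠ 0 := hl.ne'
      have h3 : δ / R ≠ 0 := hτ.ne'
      generalize δ / R = τ at h3 ⊢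
      match_scalars <;> field_simp <;> ring)
  have hb : ∀ i, 0 ≤ 1 - 2 * lam * t' i := fun i => by
    have h1 : K' * ‖x - x₀‖ ≤ K' * (1 / (2 * lam * K')) :=
      mul_le_mul_of_nonneg_left (hn.le.trans (min_le_right _ _)) hK'.le
    have h2 : 2 * lam * t' i ≤ 2 * lam * (K' * (1 / (2 * lam * K'))) :=
      mul_le_mul_of_nonneg_left ((ht' i).2.trans h1) (by positivity)
    have h3 : 2 * lam * (K' * (1 / (2 * lam * K'))) = 1 := by field_simp
    linarith
  have h4 : Ps (lam • lr D (x₀ + (2 : ℝ) • (x - x₀)) + (1 : ℝ) • em E) := by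
    have h5 := (((sig.ps.smul (hb (.inr 1))).add ((ps_lr hcp hΦ).smul (hb (.inr 2)))).add
      ((ps_eff (hcp e₀)).smul (c := 2 * lam * t' (.inr 0)) (mul_nonneg (by positivity) (ht' _).1))).add
      ((ps_lr ha fun j => (ht' (.inl j)).1).smul (c := 2 * lam) (by positivity))
    convert h5 using 1
    rw [map_add, map_smul, h', show em E = L + V - lam • lr D x₀ from eq_sub_of_add_eq' eq]
    simp only [Fintype.sum_sum_type, Sum.elim_inl, Sum.elim_inr, v, Fin.sum_univ_three,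
      Matrix.cons_val_zero, Matrix.cons_val_one, Matrix.cons_val, lr_apply a]
    module
  have h6 := (hart (onR_smul (onR_lr hD _) lam) zero_le_one exc h4).smul (inv_nonneg.2 hl.le)
  rw [smul_smul, inv_mul_cancel₀ hl.ne', one_smul] at h6
  exact ⟨2, one_lt_two, h6⟩

end Crest.Agent.X262.FG.Sg
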