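import Crest.Agent.X277.Glue.HerTop
import Crest.Agent.X277.BD.Pos
import Crest.Agent.X262.Cvx.Gr0

/-!
# Row 262, FG (helper86): finite generation of adjoint rings, language and statements

* `dvs B c`  : the b-divisor `∑ c e • D e` of an snc boundary; `od B e` : the coefficient along `D e`;
* `Amp P a`  : ample on the model `P`;
* `lc D x = ∑ x k • D k`, `FGR D`, `RFG v hv D`, `EffFG D` : the ring of the family `D`, its
  restriction to the prime divisor `v`, its support are finitely generated;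
* `Sys B κ`  : adjoint systems `D k = r K + A k + ∑ c k e • D e`, `A k` ample, `0 ≤ c k e ≤ r`;
* `Fc B b e E` : the component `e` as a model with boundary; `Can` : canonical pairs;
* `AStmt`, `BStmt`, `RStmt`, `GoodStmt`, `LiftStmt`, `FacStmt`, `BertStmt` and the steps.
-/

set_option autoImplicit false

open WithZero
open scoped KaehlerDifferential

noncomputable section

namespace Crest.Agent.X262.FG

open Crest.Agent.X277 Crest.Agent.X277.Lef Crest.Agent.X277.AN.G1 Crest.Agent.X277.BD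
open Crest.Agent.X277.BD.Br (At oP kP)
open Crest.Agent.X277.Res.Out (Un)
open Crest.Agent.X277.Res.Log (Bd)
open Crest.Agent.X277.Link (Plc)
open Crest.Agent.X277.Glue (Ovr)
open Crest.Agent.X262.Cvx

section Lang

variable {F : Type} [Field F] [Algebra ℂ F] {P : PModel ℂ F} {n : ℕ}

theorem exists_dvs (B : Bd P n) (c : B.ι → ℤ) : ∃ a : BD ℂ F, ∀ x, At a x (B.mon x c)⁻¹ := by
  obtain ⟨b⟩ := B.exists_basis
  obtain ⟨a, ha⟩ := Glue.Coh.exists_bd B b (g := fun x => B.mon x (-c))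
    fun x => Bd.eventually_mon x (-c)
  exact ⟨a, fun x V hV => by simpa only [Bd.mon_neg] using ha x V hV⟩

/-- the divisor `∑ c e • D e` -/
def dvs (B : Bd P n) (c : B.ι → ℤ) : BD ℂ F := (exists_dvs B c).choose

theorem at_dvs (B : Bd P n) (c : B.ι → ℤ) (x : Pts P) : At (dvs B c) x (B.mon x c)⁻¹ :=
  (exists_dvs B c).choose_spec x

theorem triv (B : Bd P n) (e : B.ι) (c : ℂ) : B.v e (algebraMap ℂ F c) ≤ 1 :=
  (B.ne e).elim fun _ h => h.triv c

/-- the coefficient along the component `e`; the order of vanishing of a section `s` of `a` is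
`od B e (a - pr ℂ s)` -/
def od (B : Bd P n) (e : B.ι) : BD ℂ F →+ ℤ := ord (B.v e) (triv B e)

/-- ample on `P` -/
def Amp (P : PModel ℂ F) (a : BD ℂ F) : Prop :=
  a ∈ Br.On P ∧ ∃ q : ℕ, 0 < q ∧ Free (q • a - oP P)

variable {κ : Type} [Fintype κ]

/-- the member of degree `x` of a family -/
def lc (D : κ → BD ℂ F) (x : κ → ℕ) : BD ℂ F := ∑ k, x k • D k

/-- the ring `⊕ H⁰(∑ x k • D k)` is finitely generated -/
def FGR (D : κ → BD ℂ F) : Prop := Gr.FG (fun x => (lc D x).Sec) ⊤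

/-- the restriction of the ring to the prime divisor `v` is finitely generated -/
def RFG (v : Valuation F ℤᵐ⁰) (hv : ∀ c : ℂ, v (algebraMap ℂ F c) ≤ 1) (D : κ → BD ℂ F) : Prop :=
  ∃ (N : ℕ) (d : Fin N → κ → ℕ) (f : Fin N → F), (∀ j, f j ∈ (lc D (d j)).Sec) ∧
    ∀ x, ∀ s ∈ (lc D x).Sec, ∃ g ∈ Gr.Mon ℂ d f x, v (s - g) < vl v hv (lc D x)

/-- the cone of the effective degrees is finitely generated -/
def EffFG (D : κ → BD ℂ F) : Prop :=
  ∃ (N : ℕ) (d : Fin N → κ → ℕ), (∀ j, Eff (lc D (d j))) ∧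
    ∀ x, Eff (lc D x) → ∃ m : ℕ, 0 < m ∧ ∃ a : Fin N → ℕ, ∑ j, a j • d j = m • x

/-- an adjoint system -/
structure Sys (B : Bd P n) (κ : Type) where
  /-- the index -/
  r : ℕ
  r_pos : 0 < r
  /-- `r` times the ample parts -/
  A : κ → BD ℂ F
  amp : ∀ k, Amp P (A k)
  /-- `r` times the boundaries -/
  c : κ → B.ι → ℤ
  c_nonneg : ∀ k e, 0 ≤ c k e
  c_le : ∀ k e, c k e ≤ r

/-- the adjoint divisors of a system -/
def Sys.D {B : Bd P n} {κ : Type} (S : Sys B κ) (b : Module.Basis (Fin n) F Ω[F⁄ℂ]) (k : κ) :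
    BD ℂ F := S.r • kP P b + S.A k + dvs B (S.c k)

/-- a discrete place as a place of b-divisors -/
def pl {E : Type} [Field E] [Algebra ℂ E] (p : Plc ℂ F E) : Pl ℂ F ℂ E where
  V := rz p.v p.triv
  φ := p.ρ
  ker x := (p.ker x).trans (by simpa using (v_rz_lt_iff p.v p.triv (x := x.1) (y := 1)).symm)
  ov c := ⟨c, p.ρ_alg c⟩

open Classical in
/-- the component `e` of `B` as a model `P'` of `E` with the induced boundary `B'`; the basis `b`
is normalised: it has a simple pole along `e` with residue `b'` -/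
structure Fc (B : Bd P (n + 1)) (b : Module.Basis (Fin (n + 1)) F Ω[F⁄ℂ]) (e : B.ι) (E : Type)
    [Field E] [Algebra ℂ E] where
  /-- the place -/
  p : Plc ℂ F E
  /-- the model -/
  P' : PModel ℂ E
  /-- the boundary -/
  B' : Bd P' n
  /-- the differentials -/
  b' : Module.Basis (Fin n) E Ω[E⁄ℂ]
  /-- the labels -/
  l : B'.ι → B.ι
  v_eq : p.v = B.v e
  up : ∀ x' : Pts P', ∃ x : Pts P, Ovr p x' x
  down : ∀ x : Pts P, Res.Log.On (B.v e) x → ∃ x' : Pts P', Ovr p x' x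
  l_ne : ∀ w, l w ≠ e
  lab : ∀ (x' : Pts P') (x : Pts P), Ovr p x' x → ∀ e₁, e₁ ≠ e →
    Un (lp x').O (p.r (B.τ e₁ x) / B'.mon x' fun w => if l w = e₁ then 1 else 0)
  res_on : ∀ a ∈ Br.On P, od B e a = 0 → (pl p).res a ∈ Br.On P'
  res_amp : ∀ a, Amp P a → od B e a = 0 → Amp P' ((pl p).res a)
  res_dvs : ∀ c : B.ι → ℤ, c e = 0 → (pl p).res (dvs B c) = dvs B' fun w => c (l w)
  isRes : p.IsRes b b' 1 1 1
  od_K : od B e (kP P b) = -1
  res_K : (pl p).res (kP P b + dvs B (Pi.single e 1)) = kP P' b'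

/-- the pair `(P, ∑ (c e / r) D e)` is canonical -/
def Can (B : Bd P n) (b : Module.Basis (Fin n) F Ω[F⁄ℂ]) (r : ℕ) (c : B.ι → ℤ) : Prop :=
  ∀ (Q : PModel ℂ F) (C : Bd Q n) (c' : C.ι → ℤ), oP P ∈ Br.On Q →
    (∀ e, c e ≠ 0 → ∃ e', C.v e' = B.v e ∧ c e ≤ c' e') → (∀ e', 0 ≤ c' e') →
    r • kP P b + dvs B c ≤ r • kP Q b + dvs C c'

end Lang

/-! ### the statements -/

/-- Theorem A: adjoint rings are finitely generated -/
def AStmt (n : ℕ) : Prop := ∀ (F : Type) [Field F] [Algebra ℂ F] (P : PModel ℂ F) (B : Bd P n)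
  (b : Module.Basis (Fin n) F Ω[F⁄ℂ]) (κ : Type) [Fintype κ] (S : Sys B κ), FGR (S.D b)

/-- Theorem B: the effective cone of an adjoint system is finitely generated -/
def BStmt (n : ℕ) : Prop := ∀ (F : Type) [Field F] [Algebra ℂ F] (P : PModel ℂ F) (B : Bd P n)
  (b : Module.Basis (Fin n) F Ω[F⁄ℂ]) (κ : Type) [Fintype κ] (S : Sys B κ), EffFG (S.D b)

/-- restricted rings are finitely generated -/
def RStmt (n : ℕ) : Prop := ∀ (F : Type) [Field F] [Algebra ℂ F] (P : PModel ℂ F) (B : Bd P n)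
  (b : Module.Basis (Fin n) F Ω[F⁄ℂ]) (κ : Type) [Fintype κ] (S : Sys B κ) (e : B.ι),
  (∀ k, S.c k e = S.r) → RFG (B.v e) (triv B e) (S.D b)

/-- restricted rings of plt systems with canonical restriction are finitely generated -/
def GoodStmt (n : ℕ) : Prop := ∀ (F : Type) [Field F] [Algebra ℂ F] (P : PModel ℂ F)
  (B : Bd P (n + 1)) (b : Module.Basis (Fin (n + 1)) F Ω[F⁄ℂ]) (κ : Type) [Fintype κ]
  (S : Sys B κ) (e : B.ι) (E : Type) [Field E] [Algebra ℂ E] (Φ : Fc B b e E),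
  (∀ k, S.c k e = S.r) → (∀ k e₁, e₁ ≠ e → S.c k e₁ < S.r) → (∀ k, od B e (S.A k) = 0) →
  (∀ k (g : Φ.B'.ι → ℤ), (∀ w, 0 ≤ g w ∧ g w ≤ S.c k (Φ.l w)) → Can Φ.B' Φ.b' S.r g) →
  RFG (B.v e) (triv B e) (S.D b)

/-- the lifting theorem of Hacon and McKernan, asymptotic form -/
def LiftStmt (n : ℕ) : Prop := ∀ (F : Type) [Field F] [Algebra ℂ F] (P : PModel ℂ F)
  (B : Bd P (n + 1)) (b : Module.Basis (Fin (n + 1)) F Ω[F⁄ℂ]) (e : B.ι) (E : Type) [Field E]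
  [Algebra ℂ E] (Φ : Fc B b e E) (m : ℕ) (a : BD ℂ F) (c : B.ι → ℤ) (γ : Φ.B'.ι → ℤ),
  Amp P a → od B e a = 0 → c e = m → (∀ e₁, e₁ ≠ e → 0 ≤ c e₁ ∧ c e₁ < m) → 0 < m →
  (∀ w, 0 ≤ γ w ∧ γ w ≤ c (Φ.l w)) → Can Φ.B' Φ.b' m γ →
  (∀ N : ℕ, ∃ q : ℕ, 0 < q ∧ ∃ σ ∈ (q • (m • (m • kP P b + a + dvs B c) + a)).Sec,
    B.v e σ = 1 ∧ ∀ w, γ w ≠ 0 →
      N * od Φ.B' w ((pl Φ.p).res (q • (m • (m • kP P b + a + dvs B c) + a) - pr ℂ σ)) ≤
        q * m * (N * (c (Φ.l w) - γ w) + 1)) →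
  ∀ s' ∈ (m • kP Φ.P' Φ.b' + (pl Φ.p).res a + dvs Φ.B' γ).Sec,
    ∃ s ∈ (m • kP P b + a + dvs B c).Sec, Φ.p.r s = s'

/-- the components of the boundary are models -/
def FacStmt : Prop := ∀ (F : Type) [Field F] [Algebra ℂ F] (n : ℕ) (P : PModel ℂ F)
  (B : Bd P (n + 1)) (e : B.ι), ∃ (b : Module.Basis (Fin (n + 1)) F Ω[F⁄ℂ]) (E : Type)
    (_ : Field E) (_ : Algebra ℂ E), Nonempty (Fc B b e E)

/-- the facet on a higher model, with the same place -/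
def FacUpStmt : Prop := ∀ (F : Type) [Field F] [Algebra ℂ F] (n : ℕ) (P : PModel ℂ F)
  (B : Bd P (n + 1)) (b : Module.Basis (Fin (n + 1)) F Ω[F⁄ℂ]) (e : B.ι) (E : Type) [Field E]
  [Algebra ℂ E] (Φ : Fc B b e E) (Q : PModel ℂ F) (C : Bd Q (n + 1)) (e₁ : C.ι),
  Res.Log.IsoOff P C → C.v e₁ = B.v e →
  ∃ Ψ : Fc C b e₁ E, Ψ.p = Φ.p ∧ Ψ.b' = Φ.b' ∧ oP Φ.P' ∈ Br.On Ψ.P'

/-- Bertini: a general member `s` of a free class is reduced and has normal crossings with `B`;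
`U` is any nonzero polynomial condition -/
def BertStmt : Prop := ∀ (F : Type) [Field F] [Algebra ℂ F] (n : ℕ) (P : PModel ℂ F) (B : Bd P n)
  (a : BD ℂ F), a ∈ Br.On P → ∀ (N : ℕ) (t : Fin N → F), (∀ i, t i ∈ a.Sec) →
  (∀ x : Pts P, ∃ i, At a x (t i)) → ∀ U : MvPolynomial (Fin N) ℂ, U ≠ 0 →
  ∃ (u : Fin N → ℂ) (C : Bd P n) (j : B.ι → C.ι) (c : C.ι → ℤ), MvPolynomial.eval u U ≠ 0 ∧
    ∑ i, u i • t i ≠ 0 ∧ (∀ e, C.v (j e) = B.v e ∧ c (j e) = 0) ∧
    (∀ e', e' ∉ Set.range j → c e' = 1) ∧ a - pr ℂ (∑ i, u i • t i) = dvs C c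

/-- section 4 and Lemma 6.2 -/
def S4Stmt : Prop := ∀ n, AStmt n → LiftStmt n → GoodStmt n

/-- the change of the model -/
def DisjStmt : Prop := ∀ n, GoodStmt n → RStmt (n + 1)

/-- section 5 -/
def NVStmt : Prop := ∀ n, RStmt (n + 1) → BStmt (n + 1)

/-- section 6 -/
def FinStmt : Prop := ∀ n, RStmt (n + 1) → BStmt (n + 1) → AStmt (n + 1)

/-- **the skeleton** -/
theorem aStmt_of (h0 : AStmt 0) (hL : ∀ n, LiftStmt n) (h4 : S4Stmt) (hD : DisjStmt) (hN : NVStmt)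
    (hF : FinStmt) (n : ℕ) : AStmt n := by
  induction n with
  | zero => exact h0
  | succ n ih =>
    have hR := hD n (h4 n ih (hL n))
    exact hF n hR (hN n hR)

end Crest.Agent.X262.FG
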