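import Mathlib
import Crest.Agent.R273.TorG_522

/-!
# Row 262, FG (helper76): Diophantine approximation in the minimal rational affine subspace

* `kron_real` : Kronecker's theorem in real form, with a large positive multiplier;
* `InW x y`, `InW0 x w` : `y` lies in the smallest rational affine subspace through `x`, `w` in its
  direction;
* `Ap x k m z` : `k ∣ m`, `m > 0` and `pt k m z = k z / m` lies in that subspace;
* `kron`       : `m x - k z` approximates any direction `w`;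
* `dio`        : `x` is a convex combination of points `k z / m` with `‖m x - k z‖ < ε`;
* `dio_ineq`   : the same inside a rational polyhedron (Cascini-Lazic, Lemma 2.14);
* `dio_two`    : two points on opposite sides of `x`.
-/

set_option autoImplicit false

open Finset Filter Topology

namespace Crest.Agent.X262.FG.Dio

noncomputable section

/-! ### Kronecker's theorem -/

theorem near_int {s η : ℝ} (h : ‖Complex.exp (Complex.I * (2 * Real.pi * s : ℝ)) - 1‖ < 4 * η) :
    |s - round s| < η := by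
  set u : ℝ := s - round s with hu
  have h1 : Complex.exp (Complex.I * (2 * Real.pi * s : ℝ)) =
      Complex.exp (Complex.I * (2 * Real.pi * u : ℝ)) := by
    have : Complex.I * (2 * Real.pi * s : ℝ) =
        Complex.I * (2 * Real.pi * u : ℝ) + (round s : ℤ) * (2 * Real.pi * Complex.I) := by
      rw [hu]; push_cast; ring
    rw [this, Complex.exp_add, Complex.exp_int_mul_two_pi_mul_I, mul_one]
  rw [h1, Complex.norm_exp_I_mul_ofReal_sub_one] at h
  have h2 : |u| ≤ 1 / 2 := abs_sub_round s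
  have h3 : |Real.pi * u| ≤ Real.pi / 2 := by
    rw [abs_mul, abs_of_pos Real.pi_pos]
    nlinarith [Real.pi_pos]
  have h4 := Real.mul_abs_le_abs_sin h3
  have h5 : 2 * Real.pi * u / 2 = Real.pi * u := by ring
  rw [h5, Real.norm_eq_abs, abs_mul, abs_two] at h
  rw [abs_mul, abs_of_pos Real.pi_pos] at h4
  have h6 : 2 / Real.pi * (Real.pi * |u|) = 2 * |u| := by
    field_simp
  rw [h6] at h4
  linarith

/-- the character `n ↦ exp (2 π i n θ)` -/
def chr (θ : ℝ) : AddChar ℤ Circle where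
  toFun n := Circle.exp (2 * Real.pi * (n * θ))
  map_zero_eq_one' := by simp
  map_add_eq_mul' a b := by
    rw [← Circle.exp_add]
    congr 1
    push_cast
    ring

theorem chr_apply (θ : ℝ) (n : ℤ) : chr θ n = Circle.exp (2 * Real.pi * (n * θ)) := rfl

/-- `1, θ` are linearly independent over the rationals -/
def Ind {r : ℕ} (θ : Fin r → ℝ) : Prop :=
  ∀ (c : ℚ) (a : Fin r → ℚ), (c : ℝ) + ∑ j, (a j : ℝ) * θ j = 0 → c = 0 ∧ ∀ j, a j = 0

theorem chr_ind {r : ℕ} {θ : Fin r → ℝ} (h : Ind θ) :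
    LinearIndependent ℤ fun j => chr (θ j) := by
  rw [Fintype.linearIndependent_iff]
  intro g hg
  have h1 : (∑ j, g j • chr (θ j)) 1 = 1 := by rw [hg]; rfl
  have h2 : (∑ j, g j • chr (θ j)) 1 = Circle.exp (2 * Real.pi * ∑ j, (g j : ℝ) * θ j) := by
    rw [AddChar.sum_apply, mul_sum]
    have : ∀ s : Finset (Fin r), ∏ j ∈ s, (g j • chr (θ j)) 1 =
        Circle.exp (∑ j ∈ s, 2 * Real.pi * ((g j : ℝ) * θ j)) := by
      intro s
      induction s using Finset.induction_on with
      | empty => simp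
      | insert a s ha ih =>
        rw [prod_insert ha, sum_insert ha, Circle.exp_add, ih, AddChar.zsmul_apply, chr_apply,
          ← Circle.exp_zsmul]
        congr 2
        simp
        ring
    exact this univ
  rw [h2, Circle.exp_eq_one] at h1
  obtain ⟨n, hn⟩ := h1
  have h3 : ∑ j, (g j : ℝ) * θ j = n := by
    have : 2 * Real.pi * ∑ j, (g j : ℝ) * θ j = 2 * Real.pi * n := by rw [hn]; ring
    exact mul_left_cancel₀ (by positivity) this
  have h4 := (h (-n) (fun j => g j) (by push_cast; linarith)).2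
  intro j
  exact_mod_cast h4 j

/-- simultaneous Dirichlet approximation with a large multiplier -/
theorem dirichlet {r : ℕ} (θ : Fin r → ℝ) (M : ℕ) {η : ℝ} (hη : 0 < η) :
    ∃ N : ℕ, M ≤ N ∧ ∃ n : Fin r → ℤ, ∀ j, |N * θ j - n j| < η := by
  set u : ℕ → Fin r → ℝ := fun m j => Int.fract (m * θ j) with hu
  have hb : ∀ m, u m ∈ Metric.closedBall (0 : Fin r → ℝ) 1 := by
    intro m
    rw [mem_closedBall_zero_iff, pi_norm_le_iff_of_nonneg zero_le_one]
    intro j
    rw [Real.norm_eq_abs, abs_of_nonneg (Int.fract_nonneg _)]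
    exact (Int.fract_lt_one _).le
  obtain ⟨a, -, φ, hφ, hlim⟩ := tendsto_subseq_of_bounded Metric.isBounded_closedBall hb
  obtain ⟨K, hK⟩ := Metric.cauchySeq_iff.1 hlim.cauchySeq η hη
  have h1 : φ K + M ≤ φ (K + M) := by
    have := StrictMono.add_le_nat hφ M K
    rw [add_comm M, add_comm M] at this
    exact this
  refine ⟨φ (K + M) - φ K, by omega, fun j => ⌊(φ (K + M) : ℝ) * θ j⌋ - ⌊(φ K : ℝ) * θ j⌋,
    fun j => ?_⟩
  have h2 := hK (K + M) (by omega) K le_rfl
  have h3 := (dist_pi_lt_iff hη).1 h2 j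
  rw [Real.dist_eq] at h3
  have h4 : φ K ≤ φ (K + M) := by omega
  convert h3 using 2
  simp only [Function.comp, hu, Int.fract]
  push_cast [Nat.cast_sub h4]
  ring

/-- **Kronecker's theorem** -/
theorem kron_real {r : ℕ} {θ : Fin r → ℝ} (h : Ind θ) (t : Fin r → ℝ) (M : ℕ) {η : ℝ}
    (hη : 0 < η) : ∃ m : ℕ, M ≤ m ∧ ∃ n : Fin r → ℤ, ∀ j, |m * θ j - n j - t j| < η := by
  obtain ⟨γ, hγ⟩ := R273.TorG_522.kron_approx (fun j => chr (θ j)) (chr_ind h)
    (fun j => Circle.exp (2 * Real.pi * t j)) (ε := 4 * (η / 2)) (by positivity)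
  obtain ⟨N, hN, n, hn⟩ := dirichlet θ (M + γ.natAbs) (η := η / 2) (by positivity)
  have hγ' : ∀ j, |(γ * θ j - t j) - round (γ * θ j - t j)| < η / 2 := by
    intro j
    apply near_int
    have h1 := hγ j
    rw [chr_apply, Circle.coe_exp, Circle.coe_exp] at h1
    have h2 : Complex.exp (Complex.I * (2 * Real.pi * (γ * θ j - t j) : ℝ)) - 1 =
        (Complex.exp ((2 * Real.pi * (γ * θ j) : ℝ) * Complex.I) -
          Complex.exp ((2 * Real.pi * t j : ℝ) * Complex.I)) *
          Complex.exp ((-(2 * Real.pi * t j) : ℝ) * Complex.I) := by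
      rw [sub_mul, ← Complex.exp_add, ← Complex.exp_add]
      congr 1
      · congr 1; push_cast; ring
      · rw [← Complex.exp_zero]; congr 1; push_cast; ring
    rw [h2, norm_mul, Complex.norm_exp_ofReal_mul_I, mul_one]
    exact h1
  have hpos : 0 ≤ γ + N := by omega
  refine ⟨(γ + N).toNat, by omega, fun j => round (γ * θ j - t j) + n j, fun j => ?_⟩
  have h5 : (((γ + N).toNat : ℕ) : ℝ) = γ + N := by
    have := Int.toNat_of_nonneg hpos
    exact_mod_cast this
  rw [h5]
  have h6 := abs_add_le ((γ * θ j - t j) - round (γ * θ j - t j)) (N * θ j - n j)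
  have h7 : ((γ : ℝ) + N) * θ j - ((round (γ * θ j - t j) + n j : ℤ) : ℝ) - t j =
      ((γ * θ j - t j) - round (γ * θ j - t j)) + (N * θ j - n j) := by
    push_cast; ring
  rw [h7]
  linarith [hγ' j, hn j]

/-! ### the minimal rational affine subspace -/

variable {ι : Type*} [Fintype ι]

/-- `y` lies in the smallest rational affine subspace through `x` -/
def InW (x y : ι → ℝ) : Prop :=
  ∀ (a : ι → ℚ) (c : ℚ), ∑ i, (a i : ℝ) * x i = c → ∑ i, (a i : ℝ) * y i = c

/-- `w` lies in the direction of the smallest rational affine subspace through `x` -/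
def InW0 (x w : ι → ℝ) : Prop :=
  ∀ (a : ι → ℚ) (c : ℚ), ∑ i, (a i : ℝ) * x i = c → ∑ i, (a i : ℝ) * w i = 0

theorem InW.refl (x : ι → ℝ) : InW x x := fun _ _ h => h

theorem InW.sub {x y y' : ι → ℝ} (h : InW x y) (h' : InW x y') : InW0 x (y - y') := by
  intro a c hc
  simp only [Pi.sub_apply, mul_sub, sum_sub_distrib, h a c hc, h' a c hc, sub_self]

theorem InW0.zero (x : ι → ℝ) : InW0 x 0 := fun _ _ _ => by simp

theorem InW0.smul {x w : ι → ℝ} (h : InW0 x w) (t : ℝ) : InW0 x (t • w) := by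
  intro a c hc
  have := h a c hc
  simp only [Pi.smul_apply, smul_eq_mul, mul_left_comm _ t, ← mul_sum, this, mul_zero]

theorem InW0.neg {x w : ι → ℝ} (h : InW0 x w) : InW0 x (-w) := by
  simpa using h.smul (-1)

theorem InW.add {x y w : ι → ℝ} (h : InW x y) (h' : InW0 x w) : InW x (y + w) := by
  intro a c hc
  simp only [Pi.add_apply, mul_add, sum_add_distrib, h a c hc, h' a c hc, add_zero]

/-- a rational parametrisation of the smallest rational affine subspace through `x` -/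
structure Par (x : ι → ℝ) where
  r : ℕ
  θ : Fin r → ℝ
  q0 : ι → ℚ
  q : Fin r → ι → ℚ
  ind : Ind θ
  eq : ∀ i, x i = q0 i + ∑ j, θ j * q j i

omit [Fintype ι] in
theorem nonempty_par [Finite ι] (x : ι → ℝ) : Nonempty (Par x) := by
  classical
  obtain ⟨φ, hφ⟩ : ∃ φ : ℝ →ₗ[ℚ] ℚ, φ 1 = 1 :=
    Module.Projective.exists_dual_eq_one ℚ (one_ne_zero (α := ℝ))
  have hq : ∀ c : ℚ, φ (c : ℝ) = c := by
    intro c
    have : (c : ℝ) = c • (1 : ℝ) := by simp
    rw [this, map_smul, hφ, smul_eq_mul, mul_one]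
  set U : Submodule ℚ ℝ := Submodule.span ℚ (Set.range fun i => x i - φ (x i)) with hU
  have : Module.Finite ℚ U := Module.Finite.span_of_finite ℚ (Set.finite_range _)
  have hker : ∀ u ∈ U, φ u = 0 := by
    intro u hu
    have : U ≤ LinearMap.ker φ := by
      rw [hU, Submodule.span_le]
      rintro _ ⟨i, rfl⟩
      simp [hq]
    exact this hu
  let b := Module.finBasis ℚ U
  let y : ι → U := fun i => ⟨x i - φ (x i), Submodule.subset_span ⟨i, rfl⟩⟩
  refine ⟨⟨Module.finrank ℚ U, fun j => b j, fun i => φ (x i), fun j i => b.repr (y i) j, ?_, ?_⟩⟩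
  · intro c a h
    have h1 : ∑ j, (a j : ℝ) * (b j : ℝ) = ((∑ j, a j • b j : U) : ℝ) := by
      push_cast
      simp [Rat.smul_def]
    rw [h1] at h
    have h2 := congrArg φ h
    rw [map_add, hq, hker _ (Subtype.property _), map_zero, add_zero] at h2
    refine ⟨h2, ?_⟩
    rw [h2, Rat.cast_zero, zero_add] at h
    exact Fintype.linearIndependent_iff.1 b.linearIndependent a (Subtype.ext h)
  · intro i
    have h1 := congrArg (fun u : U => (u : ℝ)) (b.sum_repr (y i))
    simp only [y] at h1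
    push_cast at h1
    simp only [Rat.smul_def] at h1
    have h2 : ∑ j, (b j : ℝ) * (b.repr (y i) j : ℝ) = x i - φ (x i) := by
      rw [← h1]
      exact sum_congr rfl fun j _ => mul_comm _ _
    linarith

namespace Par

variable {x : ι → ℝ} (P : Par x)

theorem rel {a : ι → ℚ} {c : ℚ} (h : ∑ i, (a i : ℝ) * x i = c) :
    ∑ i, a i * P.q0 i = c ∧ ∀ j, ∑ i, a i * P.q j i = 0 := by
  have h1 := P.ind (∑ i, a i * P.q0 i - c) (fun j => ∑ i, a i * P.q j i) (by
    push_cast
    have : ∑ j, (∑ i, (a i : ℝ) * P.q j i) * P.θ j = ∑ i, (a i : ℝ) * ∑ j, P.θ j * P.q j i := by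
      simp only [sum_mul, mul_sum]
      rw [sum_comm]
      exact sum_congr rfl fun i _ => sum_congr rfl fun j _ => by ring
    rw [this, ← h]
    simp only [P.eq, mul_add, sum_add_distrib]
    ring)
  exact ⟨sub_eq_zero.1 h1.1, h1.2⟩

theorem inW0 (t : Fin P.r → ℝ) : InW0 x fun i => ∑ j, t j * P.q j i := by
  intro a c hc
  have h := (P.rel hc).2
  have : ∑ i, (a i : ℝ) * ∑ j, t j * P.q j i = ∑ j, t j * ((∑ i, a i * P.q j i : ℚ) : ℝ) := by
    push_cast
    simp only [mul_sum]
    rw [sum_comm]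
    exact sum_congr rfl fun j _ => sum_congr rfl fun i _ => by ring
  rw [this]
  simp [h]

theorem inW_q0 : InW x fun i => P.q0 i := by
  intro a c hc
  have := (P.rel hc).1
  show ∑ i, (a i : ℝ) * (P.q0 i : ℝ) = c
  exact_mod_cast this

theorem exists_of_inW0 {w : ι → ℝ} (h : InW0 x w) :
    ∃ t : Fin P.r → ℝ, ∀ i, w i = ∑ j, t j * P.q j i := by
  classical
  let b := Module.Free.chooseBasis ℚ ℝ
  -- the components of `w` lie in the rational span
  have hc : ∀ l, (fun i => b.repr (w i) l) ∈ Submodule.span ℚ (Set.range P.q) := by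
    intro l
    by_contra hn
    obtain ⟨f, hf, hf0⟩ := Submodule.exists_dual_map_eq_bot_of_notMem hn inferInstance
    have hfa : ∀ v : ι → ℚ, f v = ∑ i, f (Pi.single i 1) * v i := by
      intro v
      conv_lhs => rw [← Finset.univ_sum_single v, map_sum]
      refine sum_congr rfl fun i _ => ?_
      have : (Pi.single i (v i) : ι → ℚ) = v i • (Pi.single i 1 : ι → ℚ) := by
        rw [← Pi.single_smul, smul_eq_mul, mul_one]
      rw [this, map_smul, smul_eq_mul, mul_comm]
    have hq : ∀ j, ∑ i, f (Pi.single i 1) * P.q j i = 0 := by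
      intro j
      rw [← hfa]
      have : f (P.q j) ∈ Submodule.map f (Submodule.span ℚ (Set.range P.q)) :=
        ⟨_, Submodule.subset_span ⟨j, rfl⟩, rfl⟩
      rwa [hf0] at this
    have h1 := h (fun i => f (Pi.single i 1)) (∑ i, f (Pi.single i 1) * P.q0 i) (by
      push_cast
      simp only [P.eq, mul_add, sum_add_distrib, add_eq_left]
      have : ∑ i, (f (Pi.single i 1) : ℝ) * ∑ j, P.θ j * P.q j i =
          ∑ j, P.θ j * ((∑ i, f (Pi.single i 1) * P.q j i : ℚ) : ℝ) := by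
        push_cast
        simp only [mul_sum]
        rw [sum_comm]
        exact sum_congr rfl fun j _ => sum_congr rfl fun i _ => by ring
      rw [this]
      simp [hq])
    apply hf
    rw [hfa]
    have h2 := congrArg (fun u => b.repr u l) h1
    simp only [← Rat.smul_def, map_sum, map_smul, map_zero, Finsupp.coe_finset_sum,
      Finset.sum_apply, Finsupp.smul_apply, smul_eq_mul, Finsupp.zero_apply] at h2
    exact h2
  choose s hs using fun l => (Submodule.mem_span_range_iff_exists_fun ℚ).1 (hc l)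
  set T : Finset _ := univ.biUnion fun i => (b.repr (w i)).support with hT
  refine ⟨fun j => ∑ l ∈ T, (s l j : ℝ) * b l, fun i => ?_⟩
  have h1 : w i = ∑ l ∈ T, (b.repr (w i) l : ℝ) * b l := by
    conv_lhs => rw [← b.linearCombination_repr (w i), Finsupp.linearCombination_apply]
    rw [Finsupp.sum_of_support_subset _ (s := T) (subset_biUnion_of_mem
      (fun i => (b.repr (w i)).support) (mem_univ i)) _ (by simp)]
    simp [Rat.smul_def]
  rw [h1]
  simp only [sum_mul]
  rw [sum_comm]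
  refine sum_congr rfl fun l _ => ?_
  have h2 := congrFun (hs l) i
  simp only [Finset.sum_apply, Pi.smul_apply, smul_eq_mul] at h2
  rw [← h2]
  push_cast
  rw [sum_mul]
  exact sum_congr rfl fun j _ => by ring

end Par

/-- common denominators -/
theorem exists_den {κ : Type*} [Finite κ] (q : κ → ℚ) :
    ∃ D : ℕ, 0 < D ∧ ∀ k, ∃ n : ℤ, (D : ℚ) * q k = n := by
  classical
  have := Fintype.ofFinite κ
  refine ⟨∏ k, (q k).den, prod_pos fun k _ => (q k).den_pos, fun k => ?_⟩
  obtain ⟨c, hc⟩ : (q k).den ∣ ∏ k, (q k).den := dvd_prod_of_mem _ (mem_univ k)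
  refine ⟨c * (q k).num, ?_⟩
  rw [hc]
  push_cast
  rw [mul_comm ((q k).den : ℚ), mul_assoc, Rat.den_mul_eq_num]

/-- the point `k z / m` -/
def pt (k m : ℕ) (z : ι → ℤ) : ι → ℝ := fun i => k * z i / m

/-- `k z / m` is an admissible approximation of `x` -/
structure Ap (x : ι → ℝ) (k m : ℕ) (z : ι → ℤ) : Prop where
  pos : 0 < m
  dvd : k ∣ m
  inW : InW x (pt k m z)

omit [Fintype ι] in
theorem smul_sub_pt {m : ℕ} (hm : 0 < m) (x : ι → ℝ) (k : ℕ) (z : ι → ℤ) (i : ι) :
    (m : ℝ) * (x i - pt k m z i) = m * x i - k * z i := by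
  have : (m : ℝ) ≠ 0 := by positivity
  simp only [pt]
  field_simp

theorem Par.approx {x : ι → ℝ} (P : Par x) {k : ℕ} (hk : 0 < k) (M : ℕ) (t : Fin P.r → ℝ) {η : ℝ}
    (hη : 0 < η) : ∃ (m : ℕ) (z : ι → ℤ) (s : Fin P.r → ℝ), M ≤ m ∧ Ap x k m z ∧
      (∀ j, |s j - t j| < η) ∧ ∀ i, (m : ℝ) * (x i - pt k m z i) = ∑ j, s j * P.q j i := by
  obtain ⟨D, hD, hn⟩ := exists_den (κ := Option (Fin P.r) × ι)
    fun p => p.1.elim (P.q0 p.2) fun j => P.q j p.2
  choose n0 hn0 using fun i => hn (none, i)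
  choose n1 hn1 using fun j i => hn (some j, i)
  simp only [Option.elim] at hn0 hn1
  have hn0' : ∀ i, (n0 i : ℝ) = D * P.q0 i := fun i => by exact_mod_cast (hn0 i).symm
  have hn1' : ∀ j i, (n1 j i : ℝ) = D * P.q j i := fun j i => by exact_mod_cast (hn1 j i).symm
  have hDk : (0 : ℝ) < D * k := by positivity
  obtain ⟨m, hm, n, hmn⟩ := kron_real P.ind (fun j => t j / (D * k)) (M + 1) (η := η / (D * k))
    (by positivity)
  have hm0 : 0 < m := by omega
  have hm0' : (m : ℝ) ≠ 0 := by positivity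
  have hpos : 0 < D * k * m := by positivity
  refine ⟨D * k * m, fun i => m * n0 i + ∑ j, n j * n1 j i, fun j => D * k * (m * P.θ j - n j),
    ?_, ⟨hpos, ⟨D * m, by ring⟩, ?_⟩, fun j => ?_, fun i => ?_⟩
  · have : m ≤ D * k * m := Nat.le_mul_of_pos_left m (by positivity)
    omega
  · have h1 := P.inW_q0.add (P.inW0 fun j => n j / m)
    convert h1 using 1
    funext i
    simp only [pt, Pi.add_apply]
    push_cast
    simp only [hn0', hn1']
    have : ∑ j, (n j : ℝ) * (D * P.q j i) = D * m * ∑ j, (n j : ℝ) / m * P.q j i := by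
      rw [mul_sum]
      refine sum_congr rfl fun j _ => ?_
      field_simp
    rw [this]
    field_simp
  · have h1 := hmn j
    have h2 : (D : ℝ) * k * (m * P.θ j - n j) - t j =
        D * k * (m * P.θ j - n j - t j / (D * k)) := by
      field_simp
    rw [h2, abs_mul, abs_of_pos hDk]
    rwa [lt_div_iff₀' hDk] at h1
  · rw [smul_sub_pt hpos]
    push_cast
    simp only [hn0', hn1', P.eq, mul_add, mul_sum, sub_mul, mul_sub, sum_sub_distrib]
    have e1 : ∑ j, (D : ℝ) * k * m * (P.θ j * P.q j i) = ∑ j, D * k * (m * P.θ j) * P.q j i :=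
      sum_congr rfl fun j _ => by ring
    have e2 : ∑ j, (k : ℝ) * (n j * (D * P.q j i)) = ∑ j, (D : ℝ) * k * n j * P.q j i :=
      sum_congr rfl fun j _ => by ring
    rw [e1, e2]
    ring

theorem Par.bound {x : ι → ℝ} (P : Par x) : ∃ C : ℝ, 0 < C ∧ ∀ (s : Fin P.r → ℝ) (η : ℝ),
    (∀ j, |s j| ≤ η) → 0 ≤ η → ∀ i, |∑ j, s j * P.q j i| ≤ C * η := by
  refine ⟨1 + ∑ i, ∑ j, |(P.q j i : ℝ)|, by positivity, fun s η hs hη i => ?_⟩
  calc |∑ j, s j * P.q j i| ≤ ∑ j, |s j * P.q j i| := abs_sum_le_sum_abs _ _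
    _ ≤ ∑ j, η * |(P.q j i : ℝ)| := sum_le_sum fun j _ => by
        rw [abs_mul]
        exact mul_le_mul_of_nonneg_right (hs j) (abs_nonneg _)
    _ = (∑ j, |(P.q j i : ℝ)|) * η := by rw [← mul_sum, mul_comm]
    _ ≤ (1 + ∑ i, ∑ j, |(P.q j i : ℝ)|) * η := by
        refine mul_le_mul_of_nonneg_right ?_ hη
        have := single_le_sum (f := fun i => ∑ j, |(P.q j i : ℝ)|)
          (fun i _ => by positivity) (mem_univ i)
        linarith

/-- **directional approximation**: `m (x - k z / m)` is close to a given direction -/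
theorem kron (x : ι → ℝ) {k : ℕ} (hk : 0 < k) (M : ℕ) {w : ι → ℝ} (hw : InW0 x w) {η : ℝ}
    (hη : 0 < η) : ∃ (m : ℕ) (z : ι → ℤ), M ≤ m ∧ Ap x k m z ∧
      ‖(m : ℝ) • (x - pt k m z) - w‖ < η := by
  obtain ⟨P⟩ := nonempty_par x
  obtain ⟨t, ht⟩ := P.exists_of_inW0 hw
  obtain ⟨C, hC, hb⟩ := P.bound
  obtain ⟨m, z, s, hM, hA, hs, he⟩ := P.approx hk M t (η := η / (2 * C)) (by positivity)
  refine ⟨m, z, hM, hA, (pi_norm_lt_iff hη).2 fun i => ?_⟩
  have h1 := hb (fun j => s j - t j) (η / (2 * C)) (fun j => (hs j).le) (by positivity) i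
  have h2 : C * (η / (2 * C)) = η / 2 := by field_simp
  simp only [Pi.sub_apply, Pi.smul_apply, smul_eq_mul, he, ht, Real.norm_eq_abs]
  simp only [sub_mul, sum_sub_distrib] at h1
  linarith

/-- zero lies in the convex hull of a perturbed cross-polytope -/
theorem cross {r : ℕ} {c : ℝ} (s : Fin r × Bool → Fin r → ℝ) (hr : 0 < r)
    (hs : ∀ p j, |s p j - (if j = p.1 then (if p.2 then c else -c) else 0)| < c / r) :
    ∃ l ∈ stdSimplex ℝ (Fin r × Bool), ∑ p, l p • s p = 0 := by
  classical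
  by_contra hn
  let L : (Fin r × Bool → ℝ) →ₗ[ℝ] Fin r → ℝ := Fintype.linearCombination ℝ s
  have hL : ∀ l, L l = ∑ p, l p • s p := fun l => Fintype.linearCombination_apply ℝ s l
  have h1 : Convex ℝ (L '' stdSimplex ℝ (Fin r × Bool)) := (convex_stdSimplex ℝ _).linear_image L
  have h2 : IsClosed (L '' stdSimplex ℝ (Fin r × Bool)) :=
    ((isCompact_stdSimplex ℝ _).image L.continuous_of_finiteDimensional).isClosed
  obtain ⟨f, u, hu, hf⟩ := geometric_hahn_banach_point_closed (x := 0) h1 h2 (by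
    rintro ⟨l, hl, h0⟩
    exact hn ⟨l, hl, by rw [← hL, h0]⟩)
  have hp : ∀ p, 0 < f (s p) := by
    intro p
    have := hf (s p) ⟨Pi.single p 1, single_mem_stdSimplex ℝ p, by
      rw [hL]; simp [Pi.single_apply, ite_smul]⟩
    rw [map_zero] at hu
    linarith
  have hfa : ∀ v : Fin r → ℝ, f v = ∑ i, v i * f (Pi.single i 1) := by
    intro v
    conv_lhs => rw [← Finset.univ_sum_single v, map_sum]
    refine sum_congr rfl fun i _ => ?_
    have : (Pi.single i (v i) : Fin r → ℝ) = v i • (Pi.single i 1 : Fin r → ℝ) := by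
      rw [← Pi.single_smul, smul_eq_mul, mul_one]
    rw [this, map_smul, smul_eq_mul]
  obtain ⟨j0, -, hj0⟩ := exists_max_image univ (fun j : Fin r => |f (Pi.single j 1)|)
    ⟨⟨0, hr⟩, mem_univ _⟩
  set A := |f (Pi.single j0 1)| with hA
  set p : Fin r × Bool := (j0, decide (f (Pi.single j0 1) ≤ 0)) with hpdef
  set e : Fin r → ℝ := fun j => if j = p.1 then (if p.2 then c else -c) else 0 with he
  have h3 : f e = -(c * A) := by
    rw [hfa, sum_eq_single j0 (fun j _ hj => by simp [he, hpdef, hj]) (by simp)]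
    by_cases h : f (Pi.single j0 1) ≤ 0
    · simp [he, hpdef, h, hA, abs_of_nonpos h]
    · simp [he, hpdef, h, hA, abs_of_pos (not_le.1 h)]
  have h4 : f (s p - e) ≤ c * A := by
    rw [hfa]
    calc ∑ i, (s p - e) i * f (Pi.single i 1) ≤ ∑ _i : Fin r, c / r * A := by
          refine sum_le_sum fun i _ => (le_abs_self _).trans ?_
          rw [abs_mul]
          exact mul_le_mul (hs p i).le (hj0 i (mem_univ i)) (abs_nonneg _)
            ((abs_nonneg _).trans (hs p i).le)
      _ = c * A := by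
          have : (r : ℝ) ≠ 0 := by positivity
          rw [sum_const, card_univ, Fintype.card_fin, nsmul_eq_mul]
          field_simp
  have h5 := hp p
  rw [map_sub] at h4
  linarith

/-- **Diophantine approximation**: `x` is a convex combination, with positive weights, of
admissible points `k z / m` at distance `< ε / m`. -/
theorem dio (x : ι → ℝ) {k : ℕ} (hk : 0 < k) (M : ℕ) {ε : ℝ} (hε : 0 < ε) :
    ∃ (n : ℕ) (m : Fin n → ℕ) (z : Fin n → ι → ℤ) (r : Fin n → ℝ),
      (∀ l, M ≤ m l ∧ Ap x k (m l) (z l) ∧ ‖x - pt k (m l) (z l)‖ < ε / m l ∧ 0 < r l) ∧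
      ∑ l, r l = 1 ∧ ∑ l, r l • pt k (m l) (z l) = x := by
  classical
  -- any finite index type, nonnegative unnormalised weights
  suffices H : ∃ (κ : Type) (_ : Fintype κ) (m : κ → ℕ) (z : κ → ι → ℤ) (l : κ → ℝ),
      (∀ p, M ≤ m p ∧ Ap x k (m p) (z p) ∧ ‖x - pt k (m p) (z p)‖ < ε / m p ∧ 0 ≤ l p) ∧
      ∑ p, l p = 1 ∧ ∑ p, (l p * m p) • (x - pt k (m p) (z p)) = 0 by
    obtain ⟨κ, _, m, z, l, h1, h2, h3⟩ := H
    have hm : ∀ p, (0 : ℝ) < m p := fun p => by exact_mod_cast (h1 p).2.1.pos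
    have hS : 0 < ∑ p, l p * m p := by
      obtain ⟨p, -, hp⟩ : ∃ p ∈ (univ : Finset κ), l p ≠ 0 :=
        exists_ne_zero_of_sum_ne_zero (by rw [h2]; exact one_ne_zero)
      exact sum_pos' (fun p _ => mul_nonneg (h1 p).2.2.2 (hm p).le)
        ⟨p, mem_univ p, mul_pos (lt_of_le_of_ne (h1 p).2.2.2 hp.symm) (hm p)⟩
    set S := ∑ p, l p * m p with hSdef
    let e := (Fintype.equivFin {p // 0 < l p}).symm
    have key : ∀ {E : Type _} [AddCommMonoid E] (g : κ → E), (∀ p, l p = 0 → g p = 0) →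
        ∑ i, g (e i) = ∑ p, g p := by
      intro E _ g hg
      rw [Equiv.sum_comp e fun p => g p, ← sum_subtype (univ.filter fun p => 0 < l p) (by simp),
        sum_filter_of_ne]
      intro p _ hp
      exact lt_of_le_of_ne (h1 p).2.2.2 fun h => hp (hg p h.symm)
    refine ⟨_, fun i => m (e i), fun i => z (e i), fun i => l (e i) * m (e i) / S,
      fun i => ⟨(h1 _).1, (h1 _).2.1, (h1 _).2.2.1, div_pos (mul_pos (e i).2 (hm _)) hS⟩, ?_, ?_⟩
    · have := key (E := ℝ) (fun p => l p * m p / S) (fun p hp => by simp [hp])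
      rw [this, ← sum_div, div_self hS.ne']
    · funext i
      have := key (E := ℝ) (fun p => l p * m p / S * pt k (m p) (z p) i) (fun p hp => by simp [hp])
      simp only [Finset.sum_apply, Pi.smul_apply, smul_eq_mul]
      rw [this]
      have h4 := congrFun h3 i
      simp only [Finset.sum_apply, Pi.smul_apply, smul_eq_mul, Pi.sub_apply, mul_sub,
        sum_sub_distrib, ← sum_mul, Pi.zero_apply] at h4
      simp only [div_mul_eq_mul_div, ← sum_div]
      rw [div_eq_iff hS.ne']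
      linarith
  obtain ⟨P⟩ := nonempty_par x
  obtain ⟨C, hC, hb⟩ := P.bound
  have hnorm : ∀ (m : ℕ) (z : ι → ℤ) (s : Fin P.r → ℝ), 0 < m → (∀ j, |s j| ≤ ε / (2 * C)) →
      (∀ i, (m : ℝ) * (x i - pt k m z i) = ∑ j, s j * P.q j i) → ‖x - pt k m z‖ < ε / m := by
    intro m z s hm hs he
    have hm' : (0 : ℝ) < m := by exact_mod_cast hm
    refine (pi_norm_lt_iff (by positivity)).2 fun i => ?_
    have h1 := hb s _ hs (by positivity) i
    rw [← he, abs_mul, abs_of_pos hm'] at h1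
    have h2 : C * (ε / (2 * C)) = ε / 2 := by field_simp
    rw [lt_div_iff₀' hm', Real.norm_eq_abs, Pi.sub_apply]
    linarith
  rcases Nat.eq_zero_or_pos P.r with h0 | hr
  · obtain ⟨m, z, s, hM, hA, -, he⟩ := P.approx hk M 0 one_pos
    have : IsEmpty (Fin P.r) := by rw [h0]; infer_instance
    refine ⟨Unit, inferInstance, fun _ => m, fun _ => z, fun _ => 1,
      fun _ => ⟨hM, hA, hnorm m z s hA.pos (fun j => isEmptyElim j) he, zero_le_one⟩, by simp, ?_⟩
    funext i
    simpa using he i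
  · set c := ε / (4 * C) with hc
    have hc0 : 0 < c := by positivity
    have hr1 : (1 : ℝ) ≤ P.r := by exact_mod_cast hr
    choose m z s hM hA hs he using fun p : Fin P.r × Bool =>
      P.approx hk M (fun j => if j = p.1 then (if p.2 then c else -c) else 0) (η := c / P.r)
        (by positivity)
    obtain ⟨l, hl, h0⟩ := cross s hr hs
    refine ⟨_, inferInstance, m, z, l, fun p => ⟨hM p, hA p,
      hnorm _ _ (s p) (hA p).pos (fun j => ?_) (he p), hl.1 p⟩, hl.2, ?_⟩
    · have h1 := hs p j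
      have h2 : c / P.r ≤ c := div_le_self hc0.le hr1
      have h3 : |(if j = p.1 then (if p.2 then c else -c) else 0 : ℝ)| ≤ c := by
        split_ifs <;> simp [abs_of_pos hc0, hc0.le]
      have h4 := abs_sub_abs_le_abs_sub (s p j) (if j = p.1 then (if p.2 then c else -c) else 0)
      have h5 : ε / (2 * C) = 2 * c := by rw [hc]; field_simp; ring
      linarith
    · funext i
      simp only [Finset.sum_apply, Pi.smul_apply, smul_eq_mul, Pi.sub_apply, mul_assoc, he,
        mul_sum, Pi.zero_apply]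
      rw [sum_comm]
      refine sum_eq_zero fun j _ => ?_
      have h1 := congrFun h0 j
      simp only [Finset.sum_apply, Pi.smul_apply, smul_eq_mul, Pi.zero_apply] at h1
      simp only [← mul_assoc, ← sum_mul, h1, zero_mul]

/-- near `x`, the minimal rational subspace lies in every rational polyhedron through `x` -/
theorem ineq_near (x : ι → ℝ) {α : Type*} [Finite α] (a : α → ι → ℚ) (c : α → ℚ)
    (hx : ∀ s, (c s : ℝ) ≤ ∑ i, (a s i : ℝ) * x i) :
    ∃ δ : ℝ, 0 < δ ∧ ∀ y, InW x y → ‖x - y‖ < δ → ∀ s, (c s : ℝ) ≤ ∑ i, (a s i : ℝ) * y i := by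
  have h1 : ∀ᶠ y in 𝓝 x, ∀ s, InW x y → (c s : ℝ) ≤ ∑ i, (a s i : ℝ) * y i := by
    rw [eventually_all]
    intro s
    rcases (hx s).eq_or_lt with h | h
    · exact Eventually.of_forall fun y hy => (hy _ _ h.symm).ge
    · have hc : Continuous fun y : ι → ℝ => ∑ i, (a s i : ℝ) * y i := by fun_prop
      exact (hc.continuousAt.eventually (lt_mem_nhds h)).mono fun y hy _ => hy.le
  obtain ⟨δ, hδ, h2⟩ := Metric.eventually_nhds_iff.1 h1
  exact ⟨δ, hδ, fun y hy hd s => h2 (by rwa [dist_comm, dist_eq_norm]) s hy⟩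

/-- **Cascini-Lazic 2.14**: approximation inside a rational polyhedron -/
theorem dio_ineq (x : ι → ℝ) {α : Type*} [Finite α] (a : α → ι → ℚ) (c : α → ℚ)
    (hx : ∀ s, (c s : ℝ) ≤ ∑ i, (a s i : ℝ) * x i) {k : ℕ} (hk : 0 < k) (M : ℕ) {ε : ℝ}
    (hε : 0 < ε) :
    ∃ (n : ℕ) (m : Fin n → ℕ) (z : Fin n → ι → ℤ) (r : Fin n → ℝ),
      (∀ l, M ≤ m l ∧ Ap x k (m l) (z l) ∧ ‖x - pt k (m l) (z l)‖ < ε / m l ∧ 0 < r l ∧
        ∀ s, (c s : ℝ) ≤ ∑ i, (a s i : ℝ) * pt k (m l) (z l) i) ∧
      ∑ l, r l = 1 ∧ ∑ l, r l • pt k (m l) (z l) = x := by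
  obtain ⟨δ, hδ, h⟩ := ineq_near x a c hx
  obtain ⟨n, m, z, r, h1, h2, h3⟩ := dio x hk M (lt_min hε hδ)
  refine ⟨n, m, z, r, fun l => ?_, h2, h3⟩
  obtain ⟨hM, hA, hd, hr⟩ := h1 l
  have hm : (1 : ℝ) ≤ m l := by exact_mod_cast hA.pos
  refine ⟨hM, hA, hd.trans_le ?_, hr, h _ hA.inW (hd.trans_le ?_)⟩
  · exact div_le_div_of_nonneg_right (min_le_left _ _) (by linarith)
  · exact (div_le_self (lt_min hε hδ).le hm).trans (min_le_right _ _)

/-- two approximations on opposite sides of `x` -/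
theorem dio_two (x : ι → ℝ) {k : ℕ} (hk : 0 < k) (M : ℕ) {w : ι → ℝ} (hw : InW0 x w) {η : ℝ}
    (hη : 0 < η) : ∃ (m₁ m₂ : ℕ) (z₁ z₂ : ι → ℤ), M ≤ m₁ ∧ M ≤ m₂ ∧ Ap x k m₁ z₁ ∧ Ap x k m₂ z₂ ∧
      ‖(m₁ : ℝ) • (x - pt k m₁ z₁) - w‖ < η ∧ ‖(m₂ : ℝ) • (x - pt k m₂ z₂) + w‖ < η := by
  obtain ⟨m₁, z₁, h1, h2, h3⟩ := kron x hk M hw hη
  obtain ⟨m₂, z₂, h4, h5, h6⟩ := kron x hk M hw.neg hη
  exact ⟨m₁, m₂, z₁, z₂, h1, h4, h2, h5, h3, by rwa [sub_neg_eq_add] at h6⟩

end

end Crest.Agent.X262.FG.Dio
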