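import Crest.Agent.X277.Res.LogI

/-!
# Row 262, FG / DISJ (helper74): local algebra of coordinates

* `isPrime_crd`, `notMem_crd` : sub-families of coordinates generate primes;
* `le_span_of_der`  : an ideal stable under the partial derivatives `∂_l`, `l ∉ S`, lies in `(t_S)`;
* `exists_pd_unit`  : a place other than the component `e` has a function with a unit derivative;
* `Bd.ord_jac_gt`   : `ord τ_e ≤ ord (jac t₀ / jac t)` for a place other than `e`.
-/

set_option autoImplicit false
set_option linter.unusedSectionVars false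

open WithZero Module MvPolynomial
open scoped KaehlerDifferential

noncomputable section

namespace Crest.Agent.X262.FG.Dj

open Crest.Agent.X277 Crest.Agent.X277.Lef Crest.Agent.X277.Res Crest.Agent.X277.Res.Out
  Crest.Agent.X277.AN.G1 Crest.Agent.X277.Res.Log

section alg

variable {k O : Type*} [Field k] [CharZero k] [CommRing O] [Algebra k O] [IsLocalRing O]
  [IsNoetherianRing O] {n : ℕ} {x : Fin n → O} {d : Fin n → Derivation k O O}

include k in
theorem charZero_res : CharZero (O ⧸ IsLocalRing.maximalIdeal O) := by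
  have hm := IsLocalRing.maximalIdeal.isMaximal O
  have : Nontrivial (O ⧸ IsLocalRing.maximalIdeal O) := Ideal.Quotient.nontrivial_iff.2 hm.ne_top
  exact charZero_of_injective_algebraMap (algebraMap k _).injective

theorem isPrime_crd (hd : ∀ l j, d l (x j) = if l = j then 1 else 0)
    (hx : Ideal.span (Set.range x) = IsLocalRing.maximalIdeal O) (S : Set (Fin n)) :
    (Ideal.span (x '' S)).IsPrime := by
  have := charZero_res (k := k) (O := O)
  exact P0.isPrime_span_coords (IsLocalRing.maximalIdeal O) x d hd hx S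
    fun f hf => mem_of_forall_sup_pow (IsLocalRing.maximalIdeal.isMaximal O).ne_top hf

theorem der_mem_crd (hd : ∀ l j, d l (x j) = if l = j then 1 else 0) {S : Set (Fin n)} {l : Fin n}
    (hl : l ∉ S) {f : O} (hf : f ∈ Ideal.span (x '' S)) : d l f ∈ Ideal.span (x '' S) := by
  refine P0.der_mem_span _ _ ?_ f hf
  rintro _ ⟨i, hi, rfl⟩
  rw [hd, if_neg fun h : l = i => hl (h ▸ hi)]
  exact zero_mem _

theorem notMem_crd (hd : ∀ l j, d l (x j) = if l = j then 1 else 0)
    (hx : Ideal.span (Set.range x) = IsLocalRing.maximalIdeal O) {S : Set (Fin n)} {l : Fin n}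
    (hl : l ∉ S) : x l ∉ Ideal.span (x '' S) := by
  intro h
  have h1 := der_mem_crd hd hl h
  rw [hd, if_pos rfl] at h1
  exact (isPrime_crd hd hx S).ne_top ((Ideal.eq_top_iff_one _).2 h1)

/-- an ideal which is stable under the derivatives along a stratum vanishes on the stratum -/
theorem le_span_of_der (hd : ∀ l j, d l (x j) = if l = j then 1 else 0)
    (hx : Ideal.span (Set.range x) = IsLocalRing.maximalIdeal O) (S : Set (Fin n)) {p : Ideal O}
    (hp : p ≠ ⊤) (h : ∀ l ∉ S, ∀ f ∈ p, d l f ∈ p) : p ≤ Ideal.span (x '' S) := by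
  classical
  have := charZero_res (k := k) (O := O)
  set m := IsLocalRing.maximalIdeal O with hm
  set J := Ideal.span (x '' S) with hJ
  let y : {i // i ∉ S} → O := fun i => x i.1
  let D : {i // i ∉ S} → Derivation k O O := fun i => d i.1
  have hD : ∀ l j, D l (y j) = if l = j then 1 else 0 := fun l j => by
    simp only [D, y, hd, Subtype.ext_iff]
  have hJD : ∀ l, ∀ f ∈ J, D l f ∈ J := fun l f hf => der_mem_crd hd l.2 hf
  have hmJ : m = J ⊔ Ideal.span (Set.range y) := by
    rw [← hx, ← Ideal.span_union]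
    congr 1
    ext a
    constructor
    · rintro ⟨i, rfl⟩
      by_cases hi : i ∈ S
      · exact Or.inl ⟨i, hi, rfl⟩
      · exact Or.inr ⟨⟨i, hi⟩, rfl⟩
    · rintro (⟨i, _, rfl⟩ | ⟨i, rfl⟩)
      · exact ⟨i, rfl⟩
      · exact ⟨i.1, rfl⟩
  have hJm : J ≤ m := hmJ ▸ le_sup_left
  have hy : Ideal.span (Set.range y) ≤ m := hmJ ▸ le_sup_right
  have key : ∀ N, ∀ f ∈ p, f ∈ J ⊔ Ideal.span (Set.range y) ^ (N + 1) := by
    intro N
    induction N with
    | zero =>
      intro f hf
      rw [zero_add, pow_one, ← hmJ]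
      exact IsLocalRing.le_maximalIdeal hp hf
    | succ N ih =>
      intro f hf
      obtain ⟨a, ha, b, hb, hab⟩ := Submodule.mem_sup.1 (ih f hf)
      obtain ⟨q, hq, rfl⟩ := (Ideal.mem_span_pow_iff_exists_isHomogeneous y b).1 hb
      have hl : ∀ l, map (Ideal.Quotient.mk m) (pderiv l q) = 0 := by
        intro l
        refine P0.map_eq_zero_of_mem m J y D hD hJD hJm hy N _ (by simpa using hq.pderiv (i := l)) ?_
        have h1 := ih _ (h l.1 l.2 f hf)
        rw [← hab, map_add] at h1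
        have h2 := Ideal.sub_mem _ (Ideal.sub_mem _ h1 (Ideal.mem_sup_left (hJD l a ha)))
          (Ideal.mem_sup_right (P0.der_eval (D l) y l (hD l) hq))
        simpa [D] using h2
      have he := (hq.map (Ideal.Quotient.mk m)).sum_X_mul_pderiv
      simp only [pderiv_map, hl, mul_zero, Finset.sum_const_zero] at he
      rw [nsmul_eq_mul] at he
      have hne : ((N + 1 : ℕ) : MvPolynomial {i // i ∉ S} (O ⧸ m)) ≠ 0 :=
        Nat.cast_ne_zero.2 (by omega)
      rw [← hab]
      exact add_mem (Ideal.mem_sup_left ha) (P0.eval_mem_of_map_eq_zero m J y hmJ.le hq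
        ((mul_eq_zero.1 he.symm).resolve_left hne))
  intro f hf
  refine mem_of_forall_sup_pow (IsLocalRing.maximalIdeal.isMaximal O).ne_top fun N => ?_
  exact sup_le_sup_left ((Ideal.pow_le_pow_right (Nat.le_succ N)).trans
    (Ideal.pow_right_mono hy N)) J (key N f hf)

end alg

variable {F : Type} [Field F] [Algebra ℂ F] {P P₀ : PModel ℂ F} {n : ℕ}
  (b : Basis (Fin n) F Ω[F⁄ℂ])

/-- the partial derivatives on the local ring -/
def pdO {x : Pts P} {t : Fin n → F} (ht : Coords (lp x).O t) (l : Fin n) :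
    Derivation ℂ (lp x).O (lp x).O :=
  resDer _ (pdD ((crd_of_coords ht).jac_ne (lp_fin x) b) l) fun f hf => by
    rw [pdD_apply]
    exact (crd_of_coords ht).pd_mem (lp_fin x) b l hf

theorem coe_pdO {x : Pts P} {t : Fin n → F} (ht : Coords (lp x).O t) (l : Fin n) (f : (lp x).O) :
    (pdO b ht l f : F) = pd b t l f := pdD_apply _ l _

theorem pdO_el {x : Pts P} {t : Fin n → F} (ht : Coords (lp x).O t) (l j : Fin n) :
    pdO b ht l (ht.el j) = if l = j then 1 else 0 := by
  refine Subtype.ext ?_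
  rw [coe_pdO]
  change pd b t l (t j) = _
  rw [pd_self ((crd_of_coords ht).jac_ne (lp_fin x) b)]
  split_ifs <;> rfl

/-- a place other than the divisor of the coordinate `t l₀` has a function in its centre with a
transversal derivative which is a unit -/
theorem exists_pd_unit {x : Pts P} {t : Fin n → F} (ht : Coords (lp x).O t) {l₀ : Fin n}
    {w v : Valuation F ℤᵐ⁰} (hw : Link.Eqn (lp x).O w (t l₀)) (hv : Link.Nrm v) (h : On v x)
    (hne : v ≠ w) : ∃ f ∈ (lp x).O, v f < 1 ∧ ∃ l ≠ l₀, v (pd b t l f) = 1 := by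
  by_contra hc
  push Not at hc
  have h1 := le_span_of_der (pdO_el b ht) ht.span_eq {l₀} (Link.isPrime_ctr h).ne_top
    fun l hl f hf => (Link.mem_ctr h).2 (lt_of_le_of_ne (h _ (pdO b ht l f).2) (by
      rw [coe_pdO]
      exact hc f f.2 ((Link.mem_ctr h).1 hf) l hl))
  refine hne (hw.loc.eq_of_cen hw.nrm hv h fun a ha h2 => ?_).symm
  have h3 := h1 ((Link.mem_ctr h (a := ⟨a, ha⟩)).2 h2)
  rw [Set.image_singleton, Ideal.mem_span_singleton'] at h3
  obtain ⟨c, hc⟩ := h3
  have h4 : a = c * t l₀ := (congrArg Subtype.val hc).symm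
  rw [h4, map_mul]
  exact (mul_le_of_le_one_left' (hw.loc.le _ c.2)).trans_lt hw.lt

variable {B : Bd P n} {B₀ : Bd P₀ n} {e : B.ι} {e₀ : B₀.ι} {x : Pts P} {x₀ : Pts P₀}

/-- **(J+)** a place other than the component `e₀` has discrepancy at least `ord τ_e₀` -/
theorem ord_τ_le_jac (he : On (B.v e) x) (h₀ : On (B.v e) x₀) (he₀ : On (B₀.v e₀) x₀)
    (hne : B.v e ≠ B₀.v e₀) {t t₀ : Fin n → F} (ht : (lp x).Crd t) (ht₀ : (lp x₀).Crd t₀) :
    ord (B.v e) (B₀.τ e₀ x₀) ≤ ord (B.v e) (jac b t₀ / jac b t) := by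
  classical
  obtain ⟨z, σ, hz, -, h⟩ := B₀.snc x₀
  have h1 := crd_of_coords hz
  have hτ := h ⟨e₀, he₀⟩
  obtain ⟨f, hf, h2, l, hl, h3⟩ := exists_pd_unit b hz (l₀ := σ ⟨e₀, he₀⟩)
    (hτ ▸ Bd.eqn he₀) (Bd.eqn he).nrm h₀ hne
  have h4 := ht.jac_ne (lp_fin x) b
  have h5 := h1.jac_ne (lp_fin x₀) b
  have h6 : pd b z l f ≠ 0 := Link.ne_of_v_one h3
  have h7 : jac b (Function.update z l f) = pd b z l f * jac b z := by
    rw [pd, div_mul_cancel₀ _ h5]
  have h8 : f ≠ 0 := by
    rintro rfl
    exact h6 (by simpa using pd_algebraMap h5 l 0)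
  have h9 := Bd.v_jac_log b he ht (Function.update z l f) {l, σ ⟨e₀, he₀⟩} fun m hm => by
    rw [Function.update_of_ne fun h => hm (by simp [h])]
    exact h₀ _ (h1.mem m)
  rw [Finset.prod_pair hl, Function.update_self, Function.update_of_ne hl.symm, ← hτ, h7, map_mul,
    h3, one_mul, v_eq_exp _ h5, v_eq_exp _ h4, v_eq_exp _ h8, v_eq_exp _ (B₀.τ_ne e₀ x₀),
    ← exp_add, ← exp_add, ← exp_add, exp_le_exp, ord_jac_eq b h₀ h₀ h1 ht₀] at h9
  have h10 := (v_lt_one_iff h8).1 h2
  rw [ord_div (ht₀.jac_ne (lp_fin x₀) b) h4]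
  omega

end Crest.Agent.X262.FG.Dj
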