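import Crest.Agent.X262.FG.Dj0

/-!
# Row 262, FG / DISJ (helper74): independence of the weights of lc places

* `der_monAt` : logarithmic derivatives of monomials;
* `indep`     : crossing lc places of an snc pair have independent weight vectors;
* `sep`       : two independent weight vectors are separated by a monomial (mediant).
-/

set_option autoImplicit false
set_option linter.unusedSectionVars false

open WithZero Module
open scoped KaehlerDifferential

noncomputable section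

namespace Crest.Agent.X262.FG.Dj

open Crest.Agent.X277 Crest.Agent.X277.Lef Crest.Agent.X277.Res Crest.Agent.X277.Res.Out
  Crest.Agent.X277.AN.G1 Crest.Agent.X277.Res.Log

variable {F : Type} [Field F] [Algebra ℂ F] {P P₀ : PModel ℂ F} {n : ℕ}
  {B : Bd P n} {B₀ : Bd P₀ n} {x : Pts P} {x₀ : Pts P₀}

theorem der_prod_div (ξ : Derivation ℂ F F) {ι : Type*} (s : Finset ι) {f : ι → F}
    (hf : ∀ i, f i ≠ 0) : ξ (∏ i ∈ s, f i) / ∏ i ∈ s, f i = ∑ i ∈ s, ξ (f i) / f i := by
  classical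
  induction s using Finset.induction_on with
  | empty => simp
  | insert a s ha ih =>
    rw [Finset.prod_insert ha, Finset.sum_insert ha,
      Link.der_mul_div ξ (hf a) (Finset.prod_ne_zero_iff.2 fun i _ => hf i), ih]

theorem der_monAt (ξ : Derivation ℂ F F) {ε : B.ι → ℤ} (hε : ∀ e, ξ (B.τ e x) = ε e * B.τ e x)
    {g : F} (hg : B.MonAt x g) : ∃ u, Un (lp x).O u ∧
      ξ g / g = ξ u * u⁻¹ + ((∑ e, ε e * ord (B.v e) g : ℤ) : F) := by
  refine ⟨_, hg, ?_⟩
  have h0 := B.mon_ne x fun e => ord (B.v e) g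
  nth_rewrite 1 2 [← div_mul_cancel₀ g h0]
  rw [Link.der_mul_div ξ hg.1 h0, ← div_eq_mul_inv (ξ _)]
  congr 1
  rw [Bd.mon, der_prod_div ξ _ fun e => zpow_ne_zero _ (B.τ_ne e x), Int.cast_sum]
  refine Finset.sum_congr rfl fun e _ => ?_
  rw [Link.der_zpow_div ξ (B.τ_ne e x), hε, mul_div_cancel_right₀ _ (B.τ_ne e x), Int.cast_mul,
    mul_comm]

theorem prod_ite_eq_mon {t : Fin n → F} {σ : {e // On (B.v e) x} → Fin n}
    (hσ : Function.Injective σ) (h : ∀ e, B.τ e.1 x = t (σ e)) [DecidablePred (· ∈ Set.range σ)] :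
    ∏ l, (if l ∈ Set.range σ then t l else 1) = B.mon x 1 := by
  classical
  rw [← Finset.prod_filter, Bd.mon,
    ← Finset.prod_subset (Finset.filter_subset (fun e => On (B.v e) x) Finset.univ),
    Finset.prod_subtype (Finset.filter (fun e => On (B.v e) x) _) (p := fun e => On (B.v e) x)
      (by simp)]
  · symm
    refine Finset.prod_nbij σ (fun e _ => Finset.mem_filter.2 ⟨Finset.mem_univ _, e, rfl⟩) hσ.injOn
      (fun l hl => by simpa using hl) fun e _ => ?_
    rw [Pi.one_apply, zpow_one, h]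
  · infer_instance
  · intro e _ h4
    rw [B.off e x (by simpa using h4), one_zpow]

theorem det_mem {O : Type*} [CommRing O] [Algebra ℂ O] {J : Ideal O} (hJ : J.IsPrime)
    {M : Matrix (Fin n) (Fin n) O} {c : Fin n → ℤ} {l₀ : Fin n} (hc : c l₀ ≠ 0)
    (h : ∀ m, ∑ l, (c l : O) * M l m ∈ J) : M.det ∈ J := by
  have : Nontrivial (O ⧸ J) := Ideal.Quotient.nontrivial_iff.2 hJ.ne_top
  have : CharZero (O ⧸ J) := charZero_of_injective_algebraMap (algebraMap ℂ _).injective
  rw [← Ideal.Quotient.eq_zero_iff_mem, RingHom.map_det, ← Matrix.exists_vecMul_eq_zero_iff]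
  refine ⟨fun l => c l, fun h2 => hc ?_, funext fun m => ?_⟩
  · have h3 := congrFun h2 l₀
    rwa [Pi.zero_apply, Int.cast_eq_zero] at h3
  · have h3 := Ideal.Quotient.eq_zero_iff_mem.2 (h m)
    simpa [Matrix.vecMul, dotProduct] using h3

theorem der_sum_apply {ι : Type*} (s : Finset ι) (δ : ι → Derivation ℂ F F) (f : F) :
    (∑ i ∈ s, δ i) f = ∑ i ∈ s, δ i f := by
  classical
  induction s using Finset.induction_on with
  | empty => simp
  | insert a s ha ih => rw [Finset.sum_insert ha, Finset.sum_insert ha, Derivation.add_apply, ih]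

variable (b : Basis (Fin n) F Ω[F⁄ℂ])

/-- **(IND)** crossing lc places of an snc pair have independent weight vectors -/
theorem indep (hd : (lp x₀).O ≤ (lp x).O) (hm : ∀ d, B.MonAt x (B₀.τ d x₀)) {t t₀ : Fin n → F}
    (ht : (lp x).Crd t) (ht₀ : (lp x₀).Crd t₀) (hj : B.MonAt x (jac b t₀ / jac b t))
    {a : B.ι → ℤ} (ha : ∀ e, a e ≠ 0 → On (B.v e) x ∧
      ord (B.v e) (jac b t₀ / jac b t) + 1 ≤ ∑ d, ord (B.v e) (B₀.τ d x₀))
    (h : ∀ d, ∑ e, a e * ord (B.v e) (B₀.τ d x₀) = 0) (e₁ : B.ι) : a e₁ = 0 := by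
  classical
  by_contra h1
  obtain ⟨s, σ, hs, hσ, hτ⟩ := B.snc x
  obtain ⟨z, σ₀, hz, hσ₀, hτ₀⟩ := B₀.snc x₀
  have hs' := crd_of_coords hs
  have hz' := crd_of_coords hz
  have h0 := hs'.jac_ne (lp_fin x) b
  let ρ : Fin n → (lp x).O := fun l => if l ∈ Set.range σ then hs.el l else 1
  let γ : Fin n → F := fun m => if m ∈ Set.range σ₀ then z m else 1
  have hρ : ∀ e, ρ (σ e) = hs.el (σ e) := fun e => if_pos ⟨e, rfl⟩
  let δ : Fin n → Derivation ℂ F F := fun l => (ρ l : F) • pdD h0 l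
  have hδ : ∀ l f, δ l f = ρ l * pd b s l f := fun l f => by
    rw [Derivation.smul_apply, pdD_apply, smul_eq_mul]
  have hδO : ∀ l, ∀ f ∈ (lp x).O, δ l f ∈ (lp x).O := fun l f hf =>
    hδ l f ▸ mul_mem (ρ l).2 (hs'.pd_mem (lp_fin x) b l hf)
  let ε : Fin n → B.ι → ℤ := fun l e =>
    if he : On (B.v e) x then (if l = σ ⟨e, he⟩ then 1 else 0) else 0
  have hε : ∀ l e, δ l (B.τ e x) = ε l e * B.τ e x := fun l e => by
    by_cases he : On (B.v e) x
    · simp only [ε, dif_pos he]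
      rw [hδ, hτ ⟨e, he⟩, pd_self h0]
      split_ifs with hl
      · rw [hl, hρ, mul_one, Int.cast_one, one_mul]
        rfl
      · simp
    · simp [ε, dif_neg he, B.off e x he]
  have hM : ∀ l m, δ l (z m) / γ m ∈ (lp x).O := fun l m => by
    simp only [γ]
    split_ifs with hm'
    · obtain ⟨d, rfl⟩ := hm'
      obtain ⟨u, hu, h2⟩ := der_monAt (δ l) (hε l) (hm d.1)
      rw [← hτ₀, h2]
      exact add_mem (mul_mem (hδO l u hu.2.1) hu.2.2) (intCast_mem _ _)
    · rw [div_one]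
      exact hδO l _ (hd (hz'.mem m))
  let M : Matrix (Fin n) (Fin n) (lp x).O := Matrix.of fun l m => ⟨_, hM l m⟩
  let S : Set (Fin n) := σ '' {e | a e.1 ≠ 0}
  let J : Ideal (lp x).O := Ideal.span (hs.el '' S)
  have hJ : J.IsPrime := isPrime_crd (pdO_el b hs) hs.span_eq S
  -- the log vector field
  let c : Fin n → ℤ := fun l => ∑ e, ε l e * a e
  have hcσ : ∀ e : {e // On (B.v e) x}, c (σ e) = a e := fun e => by
    simp only [c]
    rw [Finset.sum_eq_single e.1]
    · simp [ε, dif_pos e.2]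
    · intro e' _ he'
      by_cases h2 : On (B.v e') x
      · simp only [ε, dif_pos h2]
        rw [if_neg fun h3 => he' (congrArg Subtype.val (hσ h3)).symm, zero_mul]
      · simp [ε, dif_neg h2]
    · simp
  have hcS : ∀ l, l ∉ S → c l = 0 := fun l hl => Finset.sum_eq_zero fun e _ => by
    by_cases h2 : On (B.v e) x
    · simp only [ε, dif_pos h2]
      split_ifs with h3
      · rw [one_mul]
        by_contra h4
        exact hl ⟨⟨e, h2⟩, h4, h3.symm⟩
      · rw [zero_mul]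
    · simp [ε, dif_neg h2]
  let ξ : Derivation ℂ F F := ∑ l, (c l : F) • δ l
  have hξ : ∀ f, ξ f = ∑ l, (c l : F) * δ l f := fun f => by
    simp only [ξ, der_sum_apply, Derivation.smul_apply, smul_eq_mul]
  have hξτ : ∀ e, ξ (B.τ e x) = a e * B.τ e x := fun e => by
    simp only [hξ, hε, ← mul_assoc, ← Finset.sum_mul, ← Int.cast_mul, ← Int.cast_sum]
    congr 2
    by_cases he : On (B.v e) x
    · simp only [ε, dif_pos he, mul_ite, mul_one, mul_zero, Finset.sum_ite_eq', Finset.mem_univ,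
        if_true, hcσ]
    · simp only [ε, dif_neg he, mul_zero, Finset.sum_const_zero]
      by_contra h2
      exact he (ha e (Ne.symm h2)).1
  have hξJ : ∀ f ∈ (lp x).O, ∃ g ∈ J, (g : F) = ξ f := fun f hf => by
    refine ⟨∑ l, (c l : (lp x).O) * (ρ l * pdO b hs l ⟨f, hf⟩), J.sum_mem fun l _ => ?_, ?_⟩
    · by_cases hl : l ∈ S
      · obtain ⟨e, he, rfl⟩ := hl
        exact J.mul_mem_left _ (J.mul_mem_right _ (hρ e ▸ Ideal.subset_span ⟨_, ⟨e, he, rfl⟩, rfl⟩))
      · rw [hcS l hl, Int.cast_zero, zero_mul]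
        exact zero_mem _
    · simp only [hξ, hδ, AddSubmonoidClass.coe_finsetSum, MulMemClass.coe_mul, coe_pdO,
        SubringClass.coe_intCast]
  have hrow : ∀ m, ∑ l, (c l : (lp x).O) * M l m ∈ J := fun m => by
    have h2 : ((∑ l, (c l : (lp x).O) * M l m : (lp x).O) : F) = ξ (z m) / γ m := by
      simp only [hξ, M, AddSubmonoidClass.coe_finsetSum, MulMemClass.coe_mul, Matrix.of_apply,
        SubringClass.coe_intCast, Finset.sum_div, mul_div_assoc]
    simp only [γ] at h2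
    split_ifs at h2 with hm'
    · obtain ⟨d, rfl⟩ := hm'
      obtain ⟨u, hu, h3⟩ := der_monAt ξ hξτ (hm d.1)
      obtain ⟨g, hg, h4⟩ := hξJ u hu.2.1
      rw [← hτ₀, h3, h, Int.cast_zero, add_zero, ← h4] at h2
      rw [show ∑ l, (c l : (lp x).O) * M l (σ₀ d) = g * ⟨_, hu.2.2⟩ from Subtype.ext h2]
      exact J.mul_mem_right _ hg
    · obtain ⟨g, hg, h4⟩ := hξJ _ (hd (hz'.mem m))
      rw [div_one, ← h4] at h2
      rwa [Subtype.ext h2]
  have hdet : M.det ∈ J :=
    det_mem hJ (l₀ := σ ⟨e₁, (ha e₁ h1).1⟩) (by rw [hcσ]; exact h1) hrow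
  -- the determinant is a monomial
  have hγ0 : ∀ m, γ m ≠ 0 := fun m => by
    simp only [γ]
    split_ifs
    exacts [hz.ne_zero m, one_ne_zero]
  have hdet' : (M.det : F) = B.mon x 1 * ((B₀.mon x₀ 1)⁻¹ * (jac b z / jac b s)) := by
    have h2 := RingHom.map_det (lp x).O.val.toRingHom M
    have h3 : (lp x).O.val.toRingHom.mapMatrix M = Matrix.of fun l m =>
        (ρ l : F) * (Matrix.of fun l m => (γ m)⁻¹ * (Matrix.of fun l m => pd b s l (z m)) l m) l m := by
      ext l m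
      change δ l (z m) / γ m = _
      rw [hδ, Matrix.of_apply, Matrix.of_apply, Matrix.of_apply, mul_div_assoc, div_eq_inv_mul]
    rw [h3, Matrix.det_mul_column, Matrix.det_mul_row, ← jac_div_eq_det h0, Finset.prod_inv_distrib,
      prod_ite_eq_mon hσ₀ hτ₀] at h2
    rw [← prod_ite_eq_mon hσ hτ]
    refine h2.trans (congrArg (· * _) (Finset.prod_congr rfl fun l _ => ?_))
    simp only [ρ]
    split_ifs <;> rfl
  have hz0 := hz'.jac_ne (lp_fin x₀) b
  have ht0 := ht.jac_ne (lp_fin x) b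
  have ht₀0 := ht₀.jac_ne (lp_fin x₀) b
  have hu1 : Un (lp x).O (jac b t / jac b s) := un_iff.2 (hs'.v_jac_div_ne (lp_fin x) b ht)
  have hu2 : Un (lp x).O (jac b z / jac b t₀) :=
    (un_iff.2 (ht₀.v_jac_div_ne (lp_fin x₀) b hz')).mono hd
  have hjs : jac b z / jac b s = jac b z / jac b t₀ * (jac b t₀ / jac b t) * (jac b t / jac b s) := by
    field_simp
  have hm1 : B.MonAt x (B₀.mon x₀ 1) := Bd.MonAt.prod _ fun d _ => (hm d).zpow _
  have hmon : B.MonAt x (M.det : F) := by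
    rw [hdet', hjs]
    exact (Bd.monAt_mon 1).mul (hm1.inv.mul (((Bd.monAt_un hu2).mul hj).mul (Bd.monAt_un hu1)))
  have hord : ∀ e, a e ≠ 0 → ord (B.v e) (M.det : F) ≤ 0 := fun e he => by
    have h2 := (ha e he).1
    have h3 := (ha e he).2
    rw [hdet', hjs, ord_mul (B.mon_ne x 1) (mul_ne_zero (inv_ne_zero hm1.ne)
        (mul_ne_zero (mul_ne_zero hu2.1 hj.ne) hu1.1)),
      ord_mul (inv_ne_zero hm1.ne) (mul_ne_zero (mul_ne_zero hu2.1 hj.ne) hu1.1),
      ord_mul (mul_ne_zero hu2.1 hj.ne) hu1.1, ord_mul hu2.1 hj.ne, h2.ord_un hu1, h2.ord_un hu2,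
      Bd.ord_mon h2, ord_inv, Bd.ord_mon']
    simp only [Pi.one_apply, one_mul]
    omega
  let τ : B.ι → (lp x).O := fun e => ⟨_, B.τ_mem e x⟩
  have hfac : M.det = ⟨_, hmon.2.1⟩ * ∏ e, τ e ^ (ord (B.v e) (M.det : F)).toNat := by
    refine Subtype.ext ?_
    have h2 : ((∏ e, τ e ^ (ord (B.v e) (M.det : F)).toNat : (lp x).O) : F) =
        B.mon x fun e => ord (B.v e) (M.det : F) := by
      rw [Bd.mon_congr (m' := fun e => (ord (B.v e) (M.det : F)).toNat) fun e he =>
        (Int.toNat_of_nonneg (ord_nonneg (he _ M.det.2))).symm]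
      simp only [SubmonoidClass.coe_finsetProd, SubmonoidClass.coe_pow, τ, Bd.mon, zpow_natCast]
    rw [MulMemClass.coe_mul, h2, div_mul_cancel₀ _ (B.mon_ne x _)]
  rw [hfac] at hdet
  rcases hJ.mem_or_mem hdet with h2 | h2
  · refine hJ.ne_top (J.eq_top_of_isUnit_mem h2 ?_)
    exact IsUnit.of_mul_eq_one ⟨_, hmon.2.2⟩ (Subtype.ext (mul_inv_cancel₀ hmon.1))
  · obtain ⟨e, -, h3⟩ := Ideal.IsPrime.prod_mem_iff.1 h2
    have h4 := hJ.mem_of_pow_mem _ h3
    by_cases he : On (B.v e) x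
    · rw [show τ e = hs.el (σ ⟨e, he⟩) from Subtype.ext (hτ ⟨e, he⟩)] at h4
      refine notMem_crd (pdO_el b hs) hs.span_eq (fun h5 => ?_) h4
      obtain ⟨e', he', h6⟩ := h5
      obtain rfl := hσ h6
      rw [Int.toNat_eq_zero.2 (hord _ he'), pow_zero] at h3
      exact hJ.ne_top ((Ideal.eq_top_iff_one _).2 h3)
    · rw [show τ e = 1 from Subtype.ext (B.off e x he)] at h4
      exact hJ.ne_top ((Ideal.eq_top_iff_one _).2 h4)

end Crest.Agent.X262.FG.Dj
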