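import Crest.Agent.X262.FG.Dj1
import Crest.Agent.X262.FG.Basic
import Crest.Agent.X277.Up.B

/-!
# Row 262, FG / DISJ (helper74): a criterion for canonical pairs

* `ord_jac_ge'`, `ord_τ_le_jac'` : discrepancy bounds along any prime divisor of a model;
* `crep_nonpos`  : places other than the components have crepant coefficient at most zero;
* `can_of_cross` : `c e + c e' ≤ r` for crossing components implies canonical.
-/

set_option autoImplicit false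
set_option linter.unusedSectionVars false

open WithZero Module
open scoped KaehlerDifferential

noncomputable section

namespace Crest.Agent.X262.FG.Dj

open Crest.Agent.X277 Crest.Agent.X277.Lef Crest.Agent.X277.Res Crest.Agent.X277.Res.Out
  Crest.Agent.X277.AN.G1 Crest.Agent.X277.Res.Log
open Crest.Agent.X277.Link (IsPD)
open Crest.Agent.X277.BD.Br (At oP kP)

variable {F : Type} [Field F] [Algebra ℂ F] {P P₀ : PModel ℂ F} {n : ℕ}
  (b : Basis (Fin n) F Ω[F⁄ℂ]) {B₀ : Bd P₀ n} {x : Pts P} {x₀ : Pts P₀} {v : Valuation F ℤᵐ⁰}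
  {t t₀ : Fin n → F}

/-- every prime divisor is a component of a boundary on a higher model -/
theorem exists_comp (hv : IsPD P v) (hx : On v x) (ht : (lp x).Crd t) :
    ∃ (Q : PModel ℂ F) (C : Bd Q n) (e : C.ι) (y : Pts Q) (s : Fin n → F), C.v e = v ∧ On v y ∧
      (lp y).Crd s ∧ ord v (jac b s) = ord v (jac b t) := by
  obtain ⟨f, hf⟩ := hv.nrm
  obtain ⟨Q, C, h⟩ := exists_logRes' b P {{f}}
  obtain ⟨e, he⟩ := Up.exists_lab h.isoOff hv (h.mon _ (Finset.mem_singleton_self _) f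
    (Finset.mem_singleton_self _) (Link.ne_zero_of_v hf)) (hf ▸ Link.exp_neg_one_lt.ne)
  obtain ⟨y, hy⟩ := C.ne e
  obtain ⟨s, hs⟩ := exists_crd b y
  rw [he] at hy
  exact ⟨Q, C, e, y, s, he, hy, hs, by rw [ord, ord, Up.v_jac_up b h.isoOff hv hy hx hs ht]⟩

theorem ord_jac_ge' (hv : IsPD P v) (hx : On v x) (h₀ : On v x₀) (ht : (lp x).Crd t)
    (ht₀ : (lp x₀).Crd t₀) : ∑ d, ord v (B₀.τ d x₀) ≤ ord v (jac b t₀ / jac b t) + 1 := by
  obtain ⟨Q, C, e, y, s, rfl, hy, hs, h⟩ := exists_comp b hv hx ht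
  have h1 := Bd.ord_jac_ge (B₀ := B₀) b hy h₀ hs ht₀
  rwa [ord_div (ht₀.jac_ne (lp_fin x₀) b) (hs.jac_ne (lp_fin y) b), h,
    ← ord_div (ht₀.jac_ne (lp_fin x₀) b) (ht.jac_ne (lp_fin x) b)] at h1

theorem ord_τ_le_jac' (hv : IsPD P v) (hx : On v x) (h₀ : On v x₀) {d : B₀.ι}
    (hd : On (B₀.v d) x₀) (hne : v ≠ B₀.v d) (ht : (lp x).Crd t) (ht₀ : (lp x₀).Crd t₀) :
    ord v (B₀.τ d x₀) ≤ ord v (jac b t₀ / jac b t) := by
  obtain ⟨Q, C, e, y, s, rfl, hy, hs, h⟩ := exists_comp b hv hx ht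
  have h1 := ord_τ_le_jac b hy h₀ hd hne hs ht₀
  rwa [ord_div (ht₀.jac_ne (lp_fin x₀) b) (hs.jac_ne (lp_fin y) b), h,
    ← ord_div (ht₀.jac_ne (lp_fin x₀) b) (ht.jac_ne (lp_fin x) b)] at h1

theorem on_of_ord_pos {d : B₀.ι} (h : 0 < ord v (B₀.τ d x₀)) : On (B₀.v d) x₀ :=
  Bd.on_of_v_τ_lt ((v_lt_one_iff (B₀.τ_ne d x₀)).2 h)

/-- an lc place other than the components lies over two components -/
theorem exists_two (hv : IsPD P v) (hx : On v x) (hd : (lp x₀).O ≤ (lp x).O) (ht : (lp x).Crd t)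
    (ht₀ : (lp x₀).Crd t₀) (h : ord v (jac b t₀ / jac b t) + 1 ≤ ∑ d, ord v (B₀.τ d x₀))
    {d₀ : B₀.ι} (hne : v ≠ B₀.v d₀) : ∃ d ≠ d₀, 0 < ord v (B₀.τ d x₀) := by
  classical
  by_contra h1
  push Not at h1
  have h₀ : On v x₀ := fun f hf => hx f (hd hf)
  rw [Finset.sum_eq_single d₀ (fun d _ h2 => le_antisymm (h1 d h2) (Bd.ord_τ_nonneg h₀ d))
    (by simp)] at h
  have h2 := Bd.ord_jac_nonneg b hx hd ht ht₀
  have h3 := ord_τ_le_jac' b hv hx h₀ (on_of_ord_pos (v := v) (d := d₀) (by omega)) hne ht ht₀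
  omega

variable {r : ℕ} {c : B₀.ι → ℤ}

theorem crep_eq' (ht : (lp x).Crd t) (ht₀ : (lp x₀).Crd t₀) : B₀.crep b r c v x₀ t t₀ =
    r - r * (ord v (jac b t₀ / jac b t) + 1 - ∑ d, ord v (B₀.τ d x₀)) -
      ∑ d, (r - c d) * ord v (B₀.τ d x₀) := by
  simp only [Bd.crep_eq b _ ht ht₀, sub_mul, Finset.sum_sub_distrib, ← Finset.mul_sum]
  ring

/-- a place with positive crepant coefficient is an lc place of the reduced boundary -/
theorem lc_of_crep_pos (hc : ∀ d, c d ≤ r) (hv : IsPD P v) (hx : On v x) (h₀ : On v x₀)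
    (ht : (lp x).Crd t) (ht₀ : (lp x₀).Crd t₀) (h : 0 < B₀.crep b r c v x₀ t t₀) :
    ord v (jac b t₀ / jac b t) + 1 ≤ ∑ d, ord v (B₀.τ d x₀) ∧
      ∑ d, (r - c d) * ord v (B₀.τ d x₀) < r := by
  have h1 := ord_jac_ge' (B₀ := B₀) b hv hx h₀ ht ht₀
  have h2 : 0 ≤ ∑ d, (r - c d) * ord v (B₀.τ d x₀) := Finset.sum_nonneg fun d _ =>
    mul_nonneg (sub_nonneg.2 (hc d)) (Bd.ord_τ_nonneg h₀ d)
  rw [crep_eq' b ht ht₀] at h
  have h3 := mul_nonneg (Int.natCast_nonneg r) (sub_nonneg.2 h1)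
  refine ⟨?_, by linarith⟩
  by_contra h4
  have h5 := mul_le_mul_of_nonneg_left (show 1 ≤ ord v (jac b t₀ / jac b t) + 1 -
    ∑ d, ord v (B₀.τ d x₀) by omega) (Int.natCast_nonneg r)
  linarith

/-- **(CAN1)** -/
theorem crep_nonpos (hc : ∀ d, c d ≤ r)
    (hcr : ∀ d d', d ≠ d' → On (B₀.v d) x₀ → On (B₀.v d') x₀ → c d + c d' ≤ r) (hv : IsPD P v)
    (hx : On v x) (hd : (lp x₀).O ≤ (lp x).O) (ht : (lp x).Crd t) (ht₀ : (lp x₀).Crd t₀)
    (hne : ∀ d, v ≠ B₀.v d) : B₀.crep b r c v x₀ t t₀ ≤ 0 := by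
  classical
  by_contra h
  have h₀ : On v x₀ := fun f hf => hx f (hd hf)
  obtain ⟨h1, h2⟩ := lc_of_crep_pos b hc hv hx h₀ ht ht₀ (not_le.1 h)
  obtain ⟨d₀, -, -⟩ := Bd.crep_pos b hx hd ht ht₀ (not_le.1 h)
  obtain ⟨d, -, h3⟩ := exists_two b hv hx hd ht ht₀ h1 (hne d₀)
  obtain ⟨d', h4, h5⟩ := exists_two b hv hx hd ht ht₀ h1 (hne d)
  have h6 := Finset.sum_le_sum_of_subset_of_nonneg (f := fun d => (r - c d) * ord v (B₀.τ d x₀))
    (Finset.subset_univ {d', d}) fun d _ _ =>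
      mul_nonneg (sub_nonneg.2 (hc d)) (Bd.ord_τ_nonneg h₀ d)
  rw [Finset.sum_pair h4] at h6
  have h7 := hcr d' d h4 (on_of_ord_pos h5) (on_of_ord_pos h3)
  have h8 := mul_le_mul_of_nonneg_left (show 1 ≤ ord v (B₀.τ d x₀) from h3) (sub_nonneg.2 (hc d))
  have h9 := mul_le_mul_of_nonneg_left (show 1 ≤ ord v (B₀.τ d' x₀) from h5) (sub_nonneg.2 (hc d'))
  linarith

/-- a place other than `d₀` has coefficient less than one if only `d₀` has coefficient one -/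
theorem crep_lt (hr : 0 < r) {d₀ : B₀.ι} (hc₀ : c d₀ ≤ r) (hc : ∀ d ≠ d₀, c d < r) (hv : IsPD P v)
    (hx : On v x) (hd : (lp x₀).O ≤ (lp x).O) (ht : (lp x).Crd t) (ht₀ : (lp x₀).Crd t₀)
    (hne : v ≠ B₀.v d₀) : B₀.crep b r c v x₀ t t₀ < r := by
  by_contra h
  have hc' : ∀ d, c d ≤ r := fun d => (eq_or_ne d d₀).elim (fun h => h ▸ hc₀) fun h => (hc d h).le
  have h₀ : On v x₀ := fun f hf => hx f (hd hf)
  have h1 := (lc_of_crep_pos b hc' hv hx h₀ ht ht₀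
    ((Int.natCast_pos.2 hr).trans_le (not_lt.1 h))).1
  obtain ⟨d, h2, h3⟩ := exists_two b hv hx hd ht ht₀ h1 hne
  have h4 := Finset.single_le_sum (f := fun d => (r - c d) * ord v (B₀.τ d x₀))
    (fun d _ => mul_nonneg (sub_nonneg.2 (hc' d)) (Bd.ord_τ_nonneg h₀ d)) (Finset.mem_univ d)
  have h5 := mul_pos (sub_pos.2 (hc d h2)) h3
  have h6 := mul_nonneg (Int.natCast_nonneg r)
    (sub_nonneg.2 (ord_jac_ge' (B₀ := B₀) b hv hx h₀ ht ht₀))
  rw [crep_eq' b ht ht₀] at h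
  linarith

theorem exists_centre (h : oP P₀ ∈ BD.Br.On P) (x : Pts P) :
    ∃ x₀ : Pts P₀, (lp x₀).O ≤ (lp x).O := by
  obtain ⟨i, hi⟩ := BD.Br.gn_of_mem ⟨0, P₀.y_ne 0⟩ h x
  obtain ⟨x₀, -, h1⟩ := exists_dom (lp x) hi.2
  exact ⟨x₀, h1.le⟩

theorem at_up {a : BD ℂ F} {g : F} (hd : (lp x₀).O ≤ (lp x).O) (h : At a x₀ g) : At a x g :=
  fun V hV => h V fun f hf => hV f (hd hf)

theorem at_adj (B : Bd P n) (r : ℕ) (c : B.ι → ℤ) (ht : (lp x).Crd t) :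
    At (r • kP P b + dvs B c) x (jac b t ^ r / B.mon x c) := by
  rw [div_eq_mul_inv]
  exact ((BD.Br.at_kP b ht).nsmul r).add (at_dvs B c x)

theorem ord_mon_of_ne {B : Bd P n} (hv : IsPD P v) (hx : On v x) (h : ∀ e, B.v e ≠ v)
    (m : B.ι → ℤ) : ord v (B.mon x m) = 0 := by
  rw [Bd.ord_mon']
  refine Finset.sum_eq_zero fun e _ => ?_
  by_cases he : On (B.v e) x
  · rw [ord_eq_zero ((Bd.eqn he).v_ne hv hx (h e).symm), mul_zero]
  · rw [B.off e x he, ord_one, mul_zero]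

/-- **crossing components with small coefficients form a canonical pair** -/
theorem can_of_cross (hc : ∀ d, c d ≤ r)
    (hcr : ∀ (x₀ : Pts P₀) d d', d ≠ d' → On (B₀.v d) x₀ → On (B₀.v d') x₀ → c d + c d' ≤ r) :
    Can B₀ b r c := by
  intro Q C c' hQ h1 h2
  refine BD.Br.le_of_at (P := Q) fun x => ?_
  obtain ⟨x₀, hd⟩ := exists_centre hQ x
  obtain ⟨t, ht⟩ := exists_crd b x
  obtain ⟨t₀, ht₀⟩ := exists_crd b x₀
  refine ⟨_, _, at_up hd (at_adj b B₀ r c ht₀), at_adj b C r c' ht,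
    Link.mem_lp_of_v fun v hv hx => ?_⟩
  have h3 := pow_ne_zero r (ht.jac_ne (lp_fin x) b)
  have h4 := div_ne_zero (pow_ne_zero r (ht₀.jac_ne (lp_fin x₀) b)) (B₀.mon_ne x₀ c)
  have h5 : B₀.crep b r c v x₀ t t₀ ≤ ord v (C.mon x c') := by
    have h6 : 0 ≤ ord v (C.mon x c') := ord_nonneg (hx _ (Bd.mon_mem fun e _ => h2 e))
    by_cases h7 : ∃ d, v = B₀.v d
    · obtain ⟨d, rfl⟩ := h7
      rw [Bd.crep_self b (fun f hf => hx f (hd hf)) hx hd ht ht₀]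
      rcases eq_or_ne (c d) 0 with h8 | h8
      · rwa [h8]
      · obtain ⟨e, h9, h10⟩ := h1 d h8
        rw [← h9] at hx ⊢
        rwa [Bd.ord_mon hx]
    · exact (crep_nonpos b hc (hcr x₀) hv hx hd ht ht₀ fun d h => h7 ⟨d, h⟩).trans h6
  rw [Bd.crep, ord_div h3 h4] at h5
  rw [Link.v_div_le (div_ne_zero h3 (C.mon_ne x c')), v_le_iff h4 (div_ne_zero h3 (C.mon_ne x c')),
    ord_div h3 (C.mon_ne x c')]
  omega

end Crest.Agent.X262.FG.Dj
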