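import Crest.Agent.X262.FG.Dj2

/-!
# Row 262, FG / DISJ (helper74): one log resolution separates the lc places of bounded weight

* `Sep B₀ P N`   : the ideals `(τ_d ^ a, τ_d' ^ a')`, `a, a' ≤ N`, are principal on `P`;
* `exists_sep`   : every log resolution of a suitable finite family has this property;
* `disj`, `crep_disj` : along the strict transform of `d₀` two crossing components do not both have
  positive crepant coefficients.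
-/

set_option autoImplicit false
set_option linter.unusedSectionVars false

open WithZero Module Filter Topology
open scoped KaehlerDifferential

noncomputable section

namespace Crest.Agent.X262.FG.Dj

open Crest.Agent.X277 Crest.Agent.X277.Lef Crest.Agent.X277.Res Crest.Agent.X277.Res.Out
  Crest.Agent.X277.AN.G1 Crest.Agent.X277.Res.Log
open Crest.Agent.X277.Link (IsPD)

variable {F : Type} [Field F] [Algebra ℂ F] {P P₀ : PModel ℂ F} {n : ℕ}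

/-- the ideals `(τ_d ^ a, τ_d' ^ a')`, `a, a' ≤ N`, are principal on `P` -/
def Sep (B₀ : Bd P₀ n) (P : PModel ℂ F) (N : ℕ) : Prop :=
  ∀ (x : Pts P) (x₀ : Pts P₀), (lp x₀).O ≤ (lp x).O → ∀ (d d' : B₀.ι) (a a' : ℕ), a ≤ N → a' ≤ N →
    B₀.τ d x₀ ^ a / B₀.τ d' x₀ ^ a' ∈ (lp x).O ∨ B₀.τ d' x₀ ^ a' / B₀.τ d x₀ ^ a ∈ (lp x).O

theorem exists_sep (B₀ : Bd P₀ n) (N : ℕ) : ∃ 𝒢 : Finset (Finset F), ∀ {P : PModel ℂ F}
    {B : Bd P n}, LogRes P₀.y 𝒢 B → Sep B₀ P N := by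
  classical
  obtain ⟨T, hT⟩ := CompactSpace.elim_nhds_subcover
    (fun z : Pts P₀ => {x₀ | ∀ d, Un (lp x₀).O (B₀.τ d x₀ / B₀.τ d z)})
    fun z => eventually_all.2 fun d => B₀.coh d z
  refine ⟨(T ×ˢ (Finset.univ ×ˢ Finset.univ) ×ˢ Finset.range (N + 1) ×ˢ Finset.range (N + 1)).image
    fun q => {B₀.τ q.2.1.1 q.1 ^ q.2.2.1, B₀.τ q.2.1.2 q.1 ^ q.2.2.2},
    fun h x x₀ hd d d' a a' ha ha' => ?_⟩
  obtain ⟨z, hz, h1⟩ : ∃ z ∈ T, ∀ d, Un (lp x₀).O (B₀.τ d x₀ / B₀.τ d z) := by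
    simpa using Set.eq_univ_iff_forall.1 hT x₀
  have key : ∀ d d' (a a' : ℕ), B₀.τ d z ^ a / B₀.τ d' z ^ a' ∈ (lp x).O →
      B₀.τ d x₀ ^ a / B₀.τ d' x₀ ^ a' ∈ (lp x).O := fun d d' a a' h2 => by
    have h3 := mul_mem h2 (hd (((h1 d).pow a).div ((h1 d').pow a')).2.1)
    have := B₀.τ_ne d z
    have := B₀.τ_ne d' z
    convert h3 using 1
    rw [div_pow, div_pow]
    field_simp
  obtain ⟨g, h2, -, h3⟩ := h.prin x _ (Finset.mem_image_of_mem _ (show (z, (d, d'), a, a') ∈ _ by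
    simp [hz, ha, ha'])) ⟨_, Finset.mem_insert_self _ _, pow_ne_zero _ (B₀.τ_ne d z)⟩
  rcases Finset.mem_insert.1 h2 with rfl | h2
  · exact Or.inr (key _ _ _ _ (h3 _ (by simp)))
  · rw [Finset.mem_singleton.1 h2] at h3
    exact Or.inl (key _ _ _ _ (h3 _ (by simp)))

/-- proportional vectors are dependent -/
theorem exists_rel {ι : Type*} {p : ι → Prop} {w w' : ι → ℤ}
    (h : ∀ d d', p d → p d' → w d * w' d' = w' d * w d') :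
    ∃ α β : ℤ, (α ≠ 0 ∨ β ≠ 0) ∧ ∀ d, p d → α * w d + β * w' d = 0 := by
  by_cases h1 : ∃ d, p d ∧ w d ≠ 0
  · obtain ⟨d₁, h2, h3⟩ := h1
    exact ⟨-w' d₁, w d₁, Or.inr h3, fun d hd => by rw [h d₁ d h2 hd]; ring⟩
  · push Not at h1
    exact ⟨1, 0, Or.inl one_ne_zero, fun d hd => by rw [h1 d hd]; ring⟩

variable (b : Basis (Fin n) F Ω[F⁄ℂ]) {B : Bd P n} {B₀ : Bd P₀ n} {x : Pts P} {x₀ : Pts P₀}
  {t t₀ : Fin n → F} {N : ℕ}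

/-- the mediant separates -/
theorem Sep.le (hs : Sep B₀ P (2 * N)) (hd : (lp x₀).O ≤ (lp x).O) {v w : Valuation F ℤᵐ⁰}
    (hv : On v x) (hw : On w x) {d d' : B₀.ι} (h1 : ord v (B₀.τ d x₀) ≤ N)
    (h2 : ord w (B₀.τ d x₀) ≤ N) (h3 : ord v (B₀.τ d' x₀) ≤ N) (h4 : ord w (B₀.τ d' x₀) ≤ N) :
    ord w (B₀.τ d x₀) * ord v (B₀.τ d' x₀) ≤ ord v (B₀.τ d x₀) * ord w (B₀.τ d' x₀) := by
  by_contra h
  have hv₀ : On v x₀ := fun f hf => hv f (hd hf)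
  have hw₀ : On w x₀ := fun f hf => hw f (hd hf)
  obtain ⟨a₁, ha₁⟩ := Int.eq_ofNat_of_zero_le (Bd.ord_τ_nonneg hv₀ d)
  obtain ⟨a₂, ha₂⟩ := Int.eq_ofNat_of_zero_le (Bd.ord_τ_nonneg hw₀ d)
  obtain ⟨b₁, hb₁⟩ := Int.eq_ofNat_of_zero_le (Bd.ord_τ_nonneg hv₀ d')
  obtain ⟨b₂, hb₂⟩ := Int.eq_ofNat_of_zero_le (Bd.ord_τ_nonneg hw₀ d')
  have h0 := pow_ne_zero (b₁ + b₂) (B₀.τ_ne d x₀)
  have h0' := pow_ne_zero (a₁ + a₂) (B₀.τ_ne d' x₀)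
  rcases hs x x₀ hd d d' (b₁ + b₂) (a₁ + a₂) (by omega) (by omega) with h5 | h5
  · have h6 := ord_nonneg (hv _ h5)
    rw [ord_div h0 h0', ord_pow, ord_pow] at h6
    rw [ha₁, hb₁] at h6
    rw [ha₁, ha₂, hb₁, hb₂] at h
    push_cast at h6
    linarith
  · have h6 := ord_nonneg (hw _ h5)
    rw [ord_div h0' h0, ord_pow, ord_pow] at h6
    rw [ha₂, hb₂] at h6
    rw [ha₁, ha₂, hb₁, hb₂] at h
    push_cast at h6
    linarith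

theorem lc_self {d₀ : B₀.ι} (hx : On (B₀.v d₀) x) (h₀ : On (B₀.v d₀) x₀) (ht : (lp x).Crd t)
    (ht₀ : (lp x₀).Crd t₀) :
    ord (B₀.v d₀) (jac b t₀ / jac b t) + 1 ≤ ∑ d, ord (B₀.v d₀) (B₀.τ d x₀) := by
  have h1 := v_jac_le_of_loc b (Bd.eqn h₀).loc ht₀ fun l => hx _ (ht.mem l)
  have h4 := ht.jac_ne (lp_fin x) b
  have h5 := ht₀.jac_ne (lp_fin x₀) b
  have h2 := Bd.ord_mon' (x₀ := x₀) (B₀.v d₀) (1 : B₀.ι → ℤ)
  rw [v_le_iff h4 h5] at h1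
  simp only [Bd.ord_mon h₀, Pi.one_apply, one_mul] at h2
  rw [ord_div h5 h4]
  omega

/-- **(DISJ)** lc places of bounded weight do not cross on the strict transform of `d₀` -/
theorem disj (hs : Sep B₀ P (2 * N)) (hd : (lp x₀).O ≤ (lp x).O)
    (hm : ∀ d, B.MonAt x (B₀.τ d x₀)) (ht : (lp x).Crd t) (ht₀ : (lp x₀).Crd t₀)
    (hj : B.MonAt x (jac b t₀ / jac b t)) {d₀ : B₀.ι} {e₀ e₁ e₂ : B.ι} (h₀ : B.v e₀ = B₀.v d₀)
    (h1 : e₁ ≠ e₀) (h2 : e₂ ≠ e₀) (h12 : e₁ ≠ e₂) (he₀ : On (B.v e₀) x) (he₁ : On (B.v e₁) x)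
    (he₂ : On (B.v e₂) x)
    (l1 : ord (B.v e₁) (jac b t₀ / jac b t) + 1 ≤ ∑ d, ord (B.v e₁) (B₀.τ d x₀))
    (l2 : ord (B.v e₂) (jac b t₀ / jac b t) + 1 ≤ ∑ d, ord (B.v e₂) (B₀.τ d x₀))
    (b1 : ∀ d ≠ d₀, ord (B.v e₁) (B₀.τ d x₀) ≤ N) (b2 : ∀ d ≠ d₀, ord (B.v e₂) (B₀.τ d x₀) ≤ N) :
    False := by
  classical
  obtain ⟨α, β, h3, h4⟩ := exists_rel (p := (· ≠ d₀)) (w := fun d => ord (B.v e₁) (B₀.τ d x₀))
    (w' := fun d => ord (B.v e₂) (B₀.τ d x₀)) fun d d' h h' => le_antisymm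
      (hs.le hd he₂ he₁ (b2 d h) (b1 d h) (b2 d' h') (b1 d' h'))
      (hs.le hd he₁ he₂ (b1 d h) (b2 d h) (b1 d' h') (b2 d' h'))
  have he₀' : On (B₀.v d₀) x₀ := fun f hf => h₀ ▸ he₀ f (hd hf)
  let γ := α * ord (B.v e₁) (B₀.τ d₀ x₀) + β * ord (B.v e₂) (B₀.τ d₀ x₀)
  have h5 := indep b hd hm ht ht₀ hj
    (a := Pi.single e₁ α + Pi.single e₂ β - Pi.single e₀ γ) (fun e he => ?_) fun d => ?_
  · have h6 := h5 e₁
    have h7 := h5 e₂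
    simp [h1, h2, h12, h12.symm] at h6 h7
    exact h3.elim (· h6) (· h7)
  · by_cases h6 : e = e₁
    · exact h6 ▸ ⟨he₁, l1⟩
    by_cases h7 : e = e₂
    · exact h7 ▸ ⟨he₂, l2⟩
    by_cases h8 : e = e₀
    · refine h8 ▸ ⟨he₀, ?_⟩
      rw [h₀] at he₀ ⊢
      exact lc_self b he₀ he₀' ht ht₀
    · simp [h6, h7, h8] at he
  · simp only [Pi.sub_apply, Pi.add_apply, sub_mul, add_mul, Finset.sum_sub_distrib,
      Finset.sum_add_distrib, Pi.single_apply, ite_mul, zero_mul, Finset.sum_ite_eq',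
      Finset.mem_univ, if_true]
    rcases eq_or_ne d d₀ with rfl | h6
    · rw [h₀, Bd.ord_τ_self he₀', mul_one, sub_self]
    · rw [h4 d h6, h₀, Bd.ord_τ_ne he₀' h6.symm, mul_zero, sub_zero]

theorem ord_le_of_lt {r : ℕ} {c : B₀.ι → ℤ} {d₀ : B₀.ι} (hc₀ : c d₀ ≤ r) (hc : ∀ d ≠ d₀, c d < r)
    {v : Valuation F ℤᵐ⁰} (h₀ : On v x₀) (h : ∑ d, (r - c d) * ord v (B₀.τ d x₀) < r) :
    ∀ d ≠ d₀, ord v (B₀.τ d x₀) ≤ r := fun d hd => by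
  have hc' : ∀ d, c d ≤ r := fun d => (eq_or_ne d d₀).elim (fun h => h ▸ hc₀) fun h => (hc d h).le
  have h4 := Finset.single_le_sum (f := fun d => (r - c d) * ord v (B₀.τ d x₀))
    (fun d _ => mul_nonneg (sub_nonneg.2 (hc' d)) (Bd.ord_τ_nonneg h₀ d)) (Finset.mem_univ d)
  have h5 := mul_le_mul_of_nonneg_right (show 1 ≤ r - c d by have := hc d hd; omega)
    (Bd.ord_τ_nonneg h₀ d)
  linarith

/-- **(DISJ)** in terms of crepant coefficients -/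
theorem crep_disj {r : ℕ} (hs : Sep B₀ P (2 * r)) (h : IsoOff P₀ B) (hd : (lp x₀).O ≤ (lp x).O)
    (hm : ∀ d, B.MonAt x (B₀.τ d x₀)) (ht : (lp x).Crd t) (ht₀ : (lp x₀).Crd t₀)
    {d₀ : B₀.ι} {e₀ e₁ e₂ : B.ι} (h₀ : B.v e₀ = B₀.v d₀)
    (h1 : e₁ ≠ e₀) (h2 : e₂ ≠ e₀) (h12 : e₁ ≠ e₂) (he₀ : On (B.v e₀) x) (he₁ : On (B.v e₁) x)
    (he₂ : On (B.v e₂) x) {c c' : B₀.ι → ℤ} (hc₀ : c d₀ ≤ r) (hc : ∀ d ≠ d₀, c d < r)
    (hc₀' : c' d₀ ≤ r) (hc' : ∀ d ≠ d₀, c' d < r) :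
    B₀.crep b r c (B.v e₁) x₀ t t₀ ≤ 0 ∨ B₀.crep b r c' (B.v e₂) x₀ t t₀ ≤ 0 := by
  by_contra h3
  push Not at h3
  have h4 : On (B.v e₁) x₀ := fun f hf => he₁ f (hd hf)
  have h5 : On (B.v e₂) x₀ := fun f hf => he₂ f (hd hf)
  have h6 := lc_of_crep_pos b (fun d => (eq_or_ne d d₀).elim (fun h => h ▸ hc₀)
    fun h => (hc d h).le) (B.isPD e₁) he₁ h4 ht ht₀ h3.1
  have h7 := lc_of_crep_pos b (fun d => (eq_or_ne d d₀).elim (fun h => h ▸ hc₀')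
    fun h => (hc' d h).le) (B.isPD e₂) he₂ h5 ht ht₀ h3.2
  exact disj b hs hd hm ht ht₀ (h.monAt_jac b hd ht₀ ht) h₀ h1 h2 h12 he₀ he₁ he₂ h6.1 h7.1
    (ord_le_of_lt hc₀ hc h4 h6.2) (ord_le_of_lt hc₀' hc' h5 h7.2)

end Crest.Agent.X262.FG.Dj
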