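import Crest.Agent.X262.FG.Dj3

/-!
# Row 262, FG / DISJ (helper74): facets and crepant pull-backs

* `Fc.cross`     : crossing components of a facet come from different crossing components;
* `monAt_mon`, `cr`, `adj_eq`, `cr_eq` : the crepant pull-back of `r K + ∑ c d • D d`;
* `sec_add_exc`  : exceptional effective divisors do not change the sections.
-/

set_option autoImplicit false
set_option linter.unusedSectionVars false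

open WithZero Module
open scoped KaehlerDifferential

noncomputable section

namespace Crest.Agent.X262.FG.Dj

open Crest.Agent.X277 Crest.Agent.X277.Lef Crest.Agent.X277.Res Crest.Agent.X277.Res.Out
  Crest.Agent.X277.AN.G1 Crest.Agent.X277.Res.Log
open Crest.Agent.X277.Link (IsPD)
open Crest.Agent.X277.BD.Br (At oP kP)
open Crest.Agent.X277.Glue (Ovr)

variable {F : Type} [Field F] [Algebra ℂ F] {P P₀ : PModel ℂ F} {n : ℕ}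

section Facet

variable {B : Bd P (n + 1)} {b : Basis (Fin (n + 1)) F Ω[F⁄ℂ]} {e : B.ι} {E : Type} [Field E]
  [Algebra ℂ E] (Φ : Fc B b e E) {x : Pts P} {x' : Pts Φ.P'} {w w' : Φ.B'.ι}

theorem on_of_ovr (h : Ovr Φ.p x' x) : On (B.v e) x := fun f hf => Φ.v_eq ▸ h.le f hf

theorem ord_lab (h : Ovr Φ.p x' x) (hw : On (Φ.B'.v w) x') :
    ord (Φ.B'.v w) (Φ.p.r (B.τ (Φ.l w) x)) = 1 := by
  rw [Bd.ord_eq_of_un (Φ.lab x' x h _ (Φ.l_ne w)) hw, if_pos rfl]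

theorem on_lab (h : Ovr Φ.p x' x) (hw : On (Φ.B'.v w) x') : On (B.v (Φ.l w)) x := by
  rw [Bd.on_iff, ← h.ev_eq _ (B.τ_mem _ x)]
  refine hw.ev_eq ((v_lt_one_iff fun h0 => ?_).2 (by rw [ord_lab Φ h hw]; exact one_pos))
  have h1 := ord_lab Φ h hw
  rw [h0, ord_zero] at h1
  exact zero_ne_one h1

theorem lab_ne (h : Ovr Φ.p x' x) (hw : On (Φ.B'.v w) x') (hw' : On (Φ.B'.v w') x')
    (hne : w ≠ w') : Φ.l w ≠ Φ.l w' := by
  intro hl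
  have he := on_of_ovr Φ h
  have h1 := on_lab Φ h hw
  have h2 := h.mem _ (B.τ_mem (Φ.l w) x)
  have h0 : Φ.p.r (B.τ (Φ.l w) x) ≠ 0 := fun h0 => by
    have h1 := ord_lab Φ h hw
    rw [h0, ord_zero] at h1
    exact zero_ne_one h1
  have h3 := Bd.div_mem hw h2 ((v_lt_one_iff h0).2 (by rw [ord_lab Φ h hw]; exact one_pos))
  have h4 : ev (Φ.p.r (B.τ (Φ.l w) x) / Φ.B'.τ w x') x' = 0 := by
    refine hw'.ev_eq ((v_lt_one_iff (div_ne_zero h0 (Φ.B'.τ_ne w x'))).2 ?_)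
    rw [ord_div h0 (Φ.B'.τ_ne w x'), Bd.ord_τ_ne hw' hne.symm, hl, ord_lab Φ h hw']
    exact one_pos
  obtain ⟨a, ha, h5⟩ := h.surj _ h3
  obtain ⟨c, hc, h6⟩ := h.surj _ (Φ.B'.τ_mem w x')
  have h7 : ev a x = 0 := by rw [← h.ev_eq a ha, h5, h4]
  have h8 : ev c x = 0 := by rw [← h.ev_eq c hc, h6, Bd.on_iff.1 hw]
  have h9 : B.v e (B.τ (Φ.l w) x - a * c) < 1 := by
    rw [← Φ.v_eq, ← Φ.p.r_eq_zero (h.le _ (sub_mem (B.τ_mem _ x) (mul_mem ha hc))),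
      Φ.p.r_sub (h.le _ (B.τ_mem _ x)) (h.le _ (mul_mem ha hc)), Φ.p.r_mul (h.le a ha) (h.le c hc),
      h5, h6, div_mul_cancel₀ _ (Φ.B'.τ_ne w x'), sub_self]
  have h10 := Bd.div_mem he (sub_mem (B.τ_mem _ x) (mul_mem ha hc)) h9
  obtain ⟨t, σ, ht, hσ, hτ⟩ := B.snc x
  obtain ⟨d, hd, hd'⟩ := ht.der
  set q := (B.τ (Φ.l w) x - a * c) / B.τ e x with hq
  have h11 : B.τ (Φ.l w) x = a * c + q * B.τ e x := by
    rw [hq, div_mul_cancel₀ _ (B.τ_ne e x), add_sub_cancel]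
  have h12 := congrArg (fun f => ev (d (σ ⟨_, h1⟩) f) x) h11
  have h13 : d (σ ⟨_, h1⟩) (B.τ e x) = 0 := by
    rw [hτ ⟨e, he⟩, hd', if_neg fun h => Φ.l_ne w (congrArg Subtype.val (hσ h))]
  have h14 : d (σ ⟨_, h1⟩) (B.τ (Φ.l w) x) = 1 := by rw [hτ ⟨_, h1⟩, hd', if_pos rfl]
  have h15 : ev (B.τ e x) x = 0 := Bd.on_iff.1 he
  simp only [map_add, Derivation.leibniz, smul_eq_mul, h13, h14, mul_zero, zero_add, ev] at h12
  rw [(lp x).v_add (add_mem (mul_mem ha (hd _ c hc)) (mul_mem hc (hd _ a ha)))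
      (mul_mem (B.τ_mem e x) (hd _ q h10)),
    (lp x).v_add (mul_mem ha (hd _ c hc)) (mul_mem hc (hd _ a ha)), (lp x).v_mul ha (hd _ c hc),
    (lp x).v_mul hc (hd _ a ha), (lp x).v_mul (B.τ_mem e x) (hd _ q h10), (lp x).v_one] at h12
  simp only [ev] at h7 h8 h15
  simp [h7, h8, h15] at h12

end Facet

variable {B : Bd P n} {B₀ : Bd P₀ n} {x : Pts P} {x₀ : Pts P₀} {v : Valuation F ℤᵐ⁰}
  (b : Basis (Fin n) F Ω[F⁄ℂ])

theorem mem_On_up (h : IsoOff P₀ B) {a : BD ℂ F} (ha : a ∈ BD.Br.On P₀) : a ∈ BD.Br.On P :=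
  fun x => (ha (h.mor.map x)).imp fun _ => at_up (h.le x)

theorem at_dvs_off (h : IsoOff P₀ B) (hl : ∀ d, ∃ e, B.v e = B₀.v d) (c : B₀.ι → ℤ)
    (hx : B.Off x) : At (dvs B₀ c) x 1 :=
  (at_up (h.le x) (at_dvs B₀ c _)).of_ev (by
    rw [div_one]
    exact un_iff.1 (Up.un_mon_of_lab h hl c hx).inv)

theorem monAt_mon (h : IsoOff P₀ B) (hl : ∀ d, ∃ e, B.v e = B₀.v d) (hd : (lp x₀).O ≤ (lp x).O)
    (c : B₀.ι → ℤ) : B.MonAt x (B₀.mon x₀ c) := by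
  have h1 := at_up hd (at_dvs B₀ c x₀)
  rw [eq_dvs (mem_On_up h (dvs_mem B₀ c)) fun _ => at_dvs_off h hl c] at h1
  have h2 := un_iff.2 ((at_dvs B _ x).ev_div_ne h1)
  rw [inv_div_inv] at h2
  exact Bd.monAt_of_un h2

theorem monAt_τ (h : IsoOff P₀ B) (hl : ∀ d, ∃ e, B.v e = B₀.v d) (hd : (lp x₀).O ≤ (lp x).O)
    (d : B₀.ι) : B.MonAt x (B₀.τ d x₀) := by
  classical
  have h1 := monAt_mon h hl hd (Pi.single d 1)
  rwa [Bd.mon, Finset.prod_eq_single d, Pi.single_eq_same, zpow_one] at h1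
  · intro e' _ he
    rw [Pi.single_eq_of_ne he, zpow_zero]
  · simp

variable (B) in
/-- the crepant coefficients -/
def cr (r : ℕ) (c : B₀.ι → ℤ) (e : B.ι) : ℤ := od B e (r • kP P₀ b + dvs B₀ c - r • kP P b)

variable {r : ℕ} {c : B₀.ι → ℤ} {e : B.ι}

theorem adj_eq (h : IsoOff P₀ B) (hl : ∀ d, ∃ e, B.v e = B₀.v d) (r : ℕ) (c : B₀.ι → ℤ) :
    r • kP P₀ b + dvs B₀ c = r • kP P b + dvs B (cr B b r c) := by
  rw [← sub_eq_iff_eq_add']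
  refine eq_dvs (sub_mem (mem_On_up h (add_mem (nsmul_mem (BD.Br.kP_mem b) r) (dvs_mem B₀ c)))
    (nsmul_mem (BD.Br.kP_mem b) r)) fun x hx => ?_
  obtain ⟨t, ht⟩ := exists_crd b x
  have h1 := ((at_up (h.le x) (BD.Br.at_kP b (x := h.mor.map x)
    (by rwa [h.lp_map hx]))).nsmul r).add (at_dvs_off h hl c hx) |>.sub ((BD.Br.at_kP b ht).nsmul r)
  rwa [mul_one, div_self (pow_ne_zero _ (ht.jac_ne (lp_fin x) b))] at h1

theorem cr_eq (he : On (B.v e) x) (hd : (lp x₀).O ≤ (lp x).O) {t t₀ : Fin n → F} (ht : (lp x).Crd t)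
    (ht₀ : (lp x₀).Crd t₀) : cr B b r c e = B₀.crep b r c (B.v e) x₀ t t₀ := by
  rw [cr, od_of_at ((at_up hd (at_adj b B₀ r c ht₀)).sub ((BD.Br.at_kP b ht).nsmul r)) he, Bd.crep,
    ← ord_inv, inv_div]

include b in
theorem exists_frame (h : IsoOff P₀ B) (x : Pts P) : ∃ (x₀ : Pts P₀) (t t₀ : Fin n → F),
    (lp x₀).O ≤ (lp x).O ∧ (lp x).Crd t ∧ (lp x₀).Crd t₀ := by
  obtain ⟨t, ht⟩ := exists_crd b x
  obtain ⟨t₀, ht₀⟩ := exists_crd b (h.mor.map x)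
  exact ⟨_, t, t₀, h.le x, ht, ht₀⟩

theorem cr_self (h : IsoOff P₀ B) {d : B₀.ι} (he : B.v e = B₀.v d) : cr B b r c e = c d := by
  obtain ⟨x, hx⟩ := B.ne e
  obtain ⟨x₀, t, t₀, hd, ht, ht₀⟩ := exists_frame b h x
  rw [cr_eq b hx hd ht ht₀, he]
  rw [he] at hx
  exact Bd.crep_self b (fun f hf => hx f (hd hf)) hx hd ht ht₀

theorem cr_le (h : IsoOff P₀ B) (hc : ∀ d, c d ≤ r) (e : B.ι) : cr B b r c e ≤ r := by
  obtain ⟨x, hx⟩ := B.ne e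
  obtain ⟨x₀, t, t₀, hd, ht, ht₀⟩ := exists_frame b h x
  rw [cr_eq b hx hd ht ht₀]
  exact Bd.crep_le b hc hx (fun f hf => hx f (hd hf)) ht ht₀

theorem cr_lt (h : IsoOff P₀ B) (hr : 0 < r) {d₀ : B₀.ι} (hc₀ : c d₀ ≤ r) (hc : ∀ d ≠ d₀, c d < r)
    (he : B.v e ≠ B₀.v d₀) : cr B b r c e < r := by
  obtain ⟨x, hx⟩ := B.ne e
  obtain ⟨x₀, t, t₀, hd, ht, ht₀⟩ := exists_frame b h x
  rw [cr_eq b hx hd ht ht₀]
  exact crep_lt b hr hc₀ hc (B.isPD e) hx hd ht ht₀ he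

theorem cr_nonneg (h : IsoOff P₀ B) (hc : ∀ d, 0 ≤ c d) (he : IsPD P₀ (B.v e)) :
    0 ≤ cr B b r c e := by
  obtain ⟨x, hx⟩ := B.ne e
  obtain ⟨x₀, t, t₀, hd, ht, ht₀⟩ := exists_frame b h x
  have h₀ : On (B.v e) x₀ := fun f hf => hx f (hd hf)
  rw [cr_eq b hx hd ht ht₀, Bd.crep_eq b _ ht ht₀, ord_eq_zero
    ((Link.v_div_eq (ht.jac_ne (lp_fin x) b)).2 (Up.v_jac_up b h he hx h₀ ht ht₀).symm),
    mul_zero, sub_zero]
  exact Finset.sum_nonneg fun d _ => mul_nonneg (hc d) (Bd.ord_τ_nonneg h₀ d)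

theorem cr_disj (hs : Sep B₀ P (2 * r)) (h : IsoOff P₀ B) (hl : ∀ d, ∃ e, B.v e = B₀.v d)
    {d₀ : B₀.ι} {e₀ e₁ e₂ : B.ι} (h₀ : B.v e₀ = B₀.v d₀)
    (h1 : e₁ ≠ e₀) (h2 : e₂ ≠ e₀) (h12 : e₁ ≠ e₂) (he₀ : On (B.v e₀) x) (he₁ : On (B.v e₁) x)
    (he₂ : On (B.v e₂) x) {c c' : B₀.ι → ℤ} (hc₀ : c d₀ ≤ r) (hc : ∀ d ≠ d₀, c d < r)
    (hc₀' : c' d₀ ≤ r) (hc' : ∀ d ≠ d₀, c' d < r) : cr B b r c e₁ ≤ 0 ∨ cr B b r c' e₂ ≤ 0 := by
  obtain ⟨x₀, t, t₀, hd, ht, ht₀⟩ := exists_frame b h x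
  rw [cr_eq b he₁ hd ht ht₀, cr_eq b he₂ hd ht ht₀]
  exact crep_disj b hs h hd (monAt_τ h hl hd) ht ht₀ h₀ h1 h2 h12 he₀ he₁ he₂ hc₀ hc hc₀' hc'

/-- exceptional effective divisors do not change the sections -/
theorem sec_add_exc (h : IsoOff P₀ B) {g : B.ι → ℤ} (h0 : ∀ e, 0 ≤ g e)
    (hg : ∀ e, IsPD P₀ (B.v e) → g e = 0) {a : BD ℂ F} (ha : a ∈ BD.Br.On P₀) :
    (a + dvs B g).Sec = a.Sec := by
  refine le_antisymm (fun f hf => BD.Br.mem_Sec_of (P := P₀) fun x₀ => ?_)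
    (BD.Sec_mono (le_add_of_nonneg_right (dvs_nonneg h0)))
  obtain ⟨u, hu⟩ := ha x₀
  refine ⟨u, hu, Link.mem_lp_of_v fun v hv hx₀ => ?_⟩
  obtain ⟨x, hx⟩ := Top.exists_ov P (BD.rz v hv.triv)
  obtain ⟨u', hu'⟩ := mem_On_up h ha x
  have h1 : v (f / (u' * (B.mon x g)⁻¹)) ≤ 1 := hx _ ((hu'.add (at_dvs B g x)).div_mem hf)
  have h2 : v u' = v u := (BD.v_rz_eq_iff v hv.triv).1 ((hu' _ hx).trans (hu (BD.rz v hv.triv) hx₀).symm)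
  have h3 : v (B.mon x g) = 1 := by
    rw [v_eq_one_iff (B.mon_ne x g)]
    by_cases h4 : ∃ e, B.v e = v
    · obtain ⟨e, rfl⟩ := h4
      rw [Bd.ord_mon hx, hg e hv]
    · exact ord_mon_of_ne (Up.isPD_up h hv) hx (fun e he => h4 ⟨e, he⟩) g
  rwa [map_div₀, map_mul, map_inv₀, h3, inv_one, mul_one, h2, ← map_div₀] at h1

end Crest.Agent.X262.FG.Dj
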