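import Crest.Agent.X262.FG.Basic
import Crest.Agent.X262.Cvx.Gr1
import Crest.Agent.X262.Cvx.Cone1
import Crest.Agent.X277.Strat.StD

/-!
# Row 262, FG (helper86): invariance of `FGR`, `RFG`, `EffFG`

* `fg_of_sat` : finite generation can be tested on a family of degrees which spans the support;
* `FGR.congr`, `of_lin`, `comap`, `of_comap`, `of_nsmul`, `nsmul`, `effFG`;
* `EffFG.congr`, `of_nsmul`, `comap`;
* `resS p D g`, `rfg_iff` : the restricted ring in the residue field;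
* `RFG.congr`, `of_lin`, `comap`, `of_comap`, `of_nsmul`, `supp`;
* `aStmt_zero`.
-/

set_option autoImplicit false
set_option linter.unusedSectionVars false

open WithZero
open scoped KaehlerDifferential

noncomputable section

namespace Crest.Agent.X262.FG

open Crest.Agent.X277 Crest.Agent.X277.Lef Crest.Agent.X277.AN.G1 Crest.Agent.X277.BD
open Crest.Agent.X277.BD.Br (At oP kP)
open Crest.Agent.X277.Res.Log (Bd)
open Crest.Agent.X277.Link (Plc)
open Crest.Agent.X262.Cvx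

variable {F : Type} [Field F] [Algebra ℂ F] {κ κ' : Type} [Fintype κ] [Fintype κ']

/-! ### degrees -/

theorem fg_top (κ : Type) [Finite κ] : (⊤ : AddSubmonoid (κ → ℕ)).FG := AddMonoid.FG.fg_top

/-- the saturation of the monoid generated by a family of degrees -/
def sat (φ : κ' → κ → ℕ) : AddSubmonoid (κ → ℕ) where
  carrier := {x | ∃ m : ℕ, 0 < m ∧ ∃ y, dg φ y = m • x}
  zero_mem' := ⟨1, one_pos, 0, by simp⟩
  add_mem' := by
    rintro x x' ⟨m, hm, y, h⟩ ⟨m', hm', y', h'⟩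
    refine ⟨m * m', Nat.mul_pos hm hm', m' • y + m • y', ?_⟩
    rw [map_add, map_nsmul, map_nsmul, h, h', smul_add, smul_smul, smul_smul, mul_comm m' m]

theorem mem_sat {φ : κ' → κ → ℕ} {x : κ → ℕ} :
    x ∈ sat φ ↔ ∃ m : ℕ, 0 < m ∧ ∃ y, dg φ y = m • x := Iff.rfl

theorem mem_sat_iff_cone {φ : κ' → κ → ℕ} {x : κ → ℕ} :
    x ∈ sat φ ↔ ∃ t : κ' → ℝ, (∀ a, 0 ≤ t a) ∧ nc x = ∑ a, t a • nc (φ a) := by
  constructor
  · rintro ⟨m, hm, y, h⟩
    have hm' : (0 : ℝ) < m := Nat.cast_pos.2 hm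
    refine ⟨fun a => y a / m, fun a => by positivity, funext fun k => ?_⟩
    have h1 := congrArg (Nat.cast : ℕ → ℝ) (congrFun h k)
    simp only [dg_apply, Finset.sum_apply, Pi.smul_apply, smul_eq_mul, nc_apply] at h1 ⊢
    push_cast at h1
    simp only [div_mul_eq_mul_div, ← Finset.sum_div]
    rw [h1, mul_div_cancel_left₀ _ hm'.ne']
  · rintro ⟨t, ht, h⟩
    obtain ⟨m, hm, c, hc⟩ := exists_nat_comb (fun a k => (φ a k : ℤ)) (isRat_nc x) ht
      (h.trans (Finset.sum_congr rfl fun a _ => by congr 1))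
    refine ⟨m, hm, c, funext fun k => ?_⟩
    have h1 := congrFun hc k
    simp only [dg_apply, Finset.sum_apply, Pi.smul_apply, smul_eq_mul, nc_apply, zc_apply] at h1 ⊢
    simp only [nsmul_eq_mul] at h1
    exact_mod_cast h1.symm

theorem sat_fg (φ : κ' → κ → ℕ) : (sat φ).FG :=
  (rCone_of_gen fun a => isRat_nc (φ a)).gordan_nat _ fun _ => mem_sat_iff_cone

theorem fg_of_sat {E : Type} [Field E] [Algebra ℂ E] {M : (κ → ℕ) → Submodule ℂ E}
    (hM : Gr.Mult M ⊤) (φ : κ' → κ → ℕ) (h1 : ∀ x, M x = ⊥ ∨ x ∈ sat φ)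
    (h : Gr.FG (fun y => M (dg φ y)) ⊤) : Gr.FG M ⊤ := by
  have h2 : Gr.FG M (sat φ) := Gr.FG.of_veronese_comap (hM.mono le_top) (sat_fg φ) (dg φ) (T := ⊤)
    (fun y _ => ⟨1, one_pos, y, (one_smul _ _).symm⟩)
    (fun s ⟨m, hm, y, hy⟩ => ⟨m, hm, y, trivial, hy⟩) h
  exact Gr.FG.of_comap (AddMonoidHom.id _) (fun _ _ => trivial)
    (fun s _ => (h1 s).imp_right fun h => ⟨s, h, rfl⟩) h2

/-- the support of a finitely generated family -/
theorem supp_of_fg {E : Type} [Field E] [Algebra ℂ E] {M : (κ → ℕ) → Submodule ℂ E}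
    (h : Gr.FG M ⊤) : ∃ (N : ℕ) (d : Fin N → κ → ℕ), (∀ j, M (d j) ≠ ⊥) ∧
      ∀ x, M x ≠ ⊥ → ∃ a : Fin N → ℕ, ∑ j, a j • d j = x := by
  classical
  obtain ⟨N, d, f, h1, h2⟩ := h
  let J := {j : Fin N // f j ≠ 0}
  let e := (Fintype.equivFin J).symm
  refine ⟨_, fun i => d (e i), fun i h => (e i).2 ((Submodule.eq_bot_iff _).1 h _ (h1 _).2),
    fun x hx => ?_⟩
  by_contra hc
  refine hx (le_bot_iff.1 ((h2 x trivial).trans (Gr.Mon_le fun a ha => ?_)))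
  by_contra h0
  have h3 : ∀ j, f j = 0 → a j = 0 := fun j hj => by
    by_contra h4
    exact h0 (Finset.prod_eq_zero (Finset.mem_univ j) (by rw [hj, zero_pow h4]))
  refine hc ⟨fun i => a (e i), ?_⟩
  rw [← ha, Equiv.sum_comp e fun j : J => a j • d j,
    ← Finset.sum_subtype (Finset.univ.filter fun j => f j ≠ 0) (by simp) fun j => a j • d j]
  refine Finset.sum_filter_of_ne fun j _ hj h4 => hj ?_
  rw [h3 j h4, zero_smul]

variable {D D' : κ → BD ℂ F}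

theorem eff_iff_ne_bot {a : BD ℂ F} : Eff a ↔ a.Sec ≠ ⊥ := (Submodule.ne_bot_iff _).symm

theorem lin_lc (h : ∀ k, Lin (D k) (D' k)) : ∃ g : κ → F, (∀ k, g k ≠ 0) ∧
    ∀ x, lc D x = lc D' x + pr ℂ (∏ k, g k ^ x k) := by
  choose g hg h using h
  refine ⟨g, hg, fun x => ?_⟩
  rw [← lc_pr hg, ← lc_add_fam, funext h]

theorem dg_smul (m : ℕ) [DecidableEq κ] (x : κ → ℕ) :
    dg (fun k : κ => m • Pi.single k 1) x = m • x := by
  rw [dg_apply]
  conv_rhs => rw [← Finset.univ_sum_single x, Finset.smul_sum]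
  refine Finset.sum_congr rfl fun k _ => ?_
  rw [smul_comm, ← Pi.single_smul, smul_eq_mul, mul_one]

/-! ### the ring -/

theorem FGR.congr (h : FGR D) (e : ∀ x, (lc D x).Sec = (lc D' x).Sec) : FGR D' :=
  Gr.FG.congr h fun x _ => e x

theorem FGR.of_lin (h : FGR D') (hl : ∀ k, Lin (D k) (D' k)) : FGR D := by
  obtain ⟨g, hg, e⟩ := lin_lc hl
  have h0 : ∀ x : κ → ℕ, ∏ k, g k ^ x k ≠ 0 := fun x =>
    Finset.prod_ne_zero_iff.2 fun k _ => pow_ne_zero _ (hg k)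
  refine (Gr.FG.twist_iff (mult D') (AlgHom.id ℂ F) Function.injective_id (fun x => ∏ k, g k ^ x k)
    (by simp) (fun s _ t _ => by simp [pow_add, Finset.prod_mul_distrib]) (fun s _ => h0 s)
    fun s _ y => ?_).1 h
  rw [e, mem_Sec_add_pr (h0 s)]
  exact ⟨fun h => ⟨_, h, mul_div_cancel₀ _ (h0 s)⟩, by
    rintro ⟨x, hx, rfl⟩
    simpa [mul_div_cancel_left₀ _ (h0 s)] using hx⟩

theorem FGR.comap (h : FGR D) (φ : κ' → κ → ℕ) : FGR fun t => lc D (φ t) :=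
  (Gr.FG.comap (mult D) h (dg φ) (fg_top κ') fun _ _ => trivial).congr fun y _ => by rw [lc_lc]

theorem FGR.of_comap (φ : κ' → κ → ℕ) (h1 : ∀ x, Eff (lc D x) → x ∈ sat φ)
    (h : FGR fun t => lc D (φ t)) : FGR D :=
  fg_of_sat (mult D) φ (fun x => or_iff_not_imp_left.2 fun hx => h1 x (eff_iff_ne_bot.2 hx))
    (Gr.FG.congr h fun y _ => by rw [lc_lc])

theorem FGR.of_nsmul {m : ℕ} (hm : 0 < m) (h : FGR fun k => m • D k) : FGR D :=
  Gr.FG.of_nsmul (mult D) (fg_top κ) hm (Gr.FG.congr h fun y _ => by rw [lc_smul_fam])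

theorem FGR.nsmul (h : FGR D) (m : ℕ) : FGR fun k => m • D k :=
  (Gr.FG.comap (mult D) h (nsmulAddMonoidHom m) (fg_top κ) fun _ _ => trivial).congr
    fun y _ => by rw [lc_smul_fam]; rfl

theorem FGR.sub (h : FGR D) (f : κ' → κ) : FGR fun t => D (f t) := by
  classical
  simpa only [lc_single] using h.comap fun t => Pi.single (f t) 1

theorem FGR.effFG (h : FGR D) : EffFG D := by
  obtain ⟨N, d, h1, h2⟩ := supp_of_fg h
  exact ⟨N, d, fun j => eff_iff_ne_bot.2 (h1 j), fun x hx => ⟨1, one_pos, by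
    simpa using h2 x (eff_iff_ne_bot.1 hx)⟩⟩

/-! ### the support -/

theorem effFG_iff : EffFG D ↔ ∃ (N : ℕ) (d : Fin N → κ → ℕ), (∀ j, Eff (lc D (d j))) ∧
    ∀ x, Eff (lc D x) → x ∈ sat d := Iff.rfl

theorem effFG_of_fintype (d : κ' → κ → ℕ) (h1 : ∀ j, ∃ m : ℕ, 0 < m ∧ Eff (m • lc D (d j)))
    (h2 : ∀ x, Eff (lc D x) → x ∈ sat d) : EffFG D := by
  classical
  choose m hm h1 using h1
  let e := (Fintype.equivFin κ').symm
  refine ⟨_, fun i => m (e i) • d (e i), fun i => by rw [lc_nsmul]; exact h1 _, fun x hx => ?_⟩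
  obtain ⟨q, hq, y, hy⟩ := h2 x hx
  refine ⟨(∏ j, m j) * q, Nat.mul_pos (Finset.prod_pos fun j _ => hm j) hq,
    fun i => y (e i) * ∏ j ∈ Finset.univ.erase (e i), m j, ?_⟩
  rw [Equiv.sum_comp e fun j => (y j * ∏ j' ∈ Finset.univ.erase j, m j') • m j • d j, mul_smul,
    ← hy, dg_apply, Finset.smul_sum]
  refine Finset.sum_congr rfl fun j _ => ?_
  rw [smul_smul, smul_smul, mul_assoc, Finset.prod_erase_mul _ _ (Finset.mem_univ j), mul_comm]

theorem EffFG.congr (h : EffFG D) (e : ∀ x, Eff (lc D x) ↔ Eff (lc D' x)) : EffFG D' := by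
  obtain ⟨N, d, h1, h2⟩ := h
  exact ⟨N, d, fun j => (e _).1 (h1 j), fun x hx => h2 x ((e x).2 hx)⟩

theorem EffFG.of_lin (h : EffFG D') (hl : ∀ k, Lin (D k) (D' k)) : EffFG D := by
  obtain ⟨g, hg, e⟩ := lin_lc hl
  have h0 : ∀ x, Lin (lc D x) (lc D' x) := fun x =>
    ⟨_, Finset.prod_ne_zero_iff.2 fun k _ => pow_ne_zero _ (hg k), e x⟩
  exact h.congr fun x => ⟨(h0 x).eff, (h0 x).symm.eff⟩

theorem EffFG.of_nsmul {m : ℕ} (hm : 0 < m) (h : EffFG fun k => m • D k) : EffFG D := by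
  obtain ⟨N, d, h1, h2⟩ := h
  refine effFG_of_fintype d (fun j => ⟨m, hm, ?_⟩) fun x hx => h2 x ?_
  · simpa only [lc_smul_fam, lc_nsmul] using h1 j
  · simpa only [lc_smul_fam, lc_nsmul] using hx.nsmul m

/-! ### the restricted ring -/

section Res

variable {E : Type} [Field E] [Algebra ℂ E] (p : Plc ℂ F E)

/-- `g k` generates `D k` along `p` -/
def GenP (D : κ → BD ℂ F) (g : κ → F) : Prop := ∀ k, p.v (g k) = vl p.v p.triv (D k)

theorem exists_genP (D : κ → BD ℂ F) : ∃ g, GenP p D g := ⟨fun k => (D k).gen _, fun _ => rfl⟩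

variable {p} {g : κ → F}

theorem GenP.ne (h : GenP p D g) (k : κ) : g k ≠ 0 := fun h0 =>
  vl_ne (D k) (by rw [← h k, h0, map_zero])

theorem GenP.prod_ne (h : GenP p D g) (x : κ → ℕ) : ∏ k, g k ^ x k ≠ 0 :=
  Finset.prod_ne_zero_iff.2 fun k _ => pow_ne_zero _ (h.ne k)

theorem vl_lc {v : Valuation F ℤᵐ⁰} {hv : ∀ c : ℂ, v (algebraMap ℂ F c) ≤ 1} (x : κ → ℕ) :
    vl v hv (lc D x) = ∏ k, vl v hv (D k) ^ x k := by
  classical
  rw [lc]
  induction (Finset.univ : Finset κ) using Finset.induction_on with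
  | empty => simpa using vl_zero
  | insert k t hk ih =>
    rw [Finset.sum_insert hk, Finset.prod_insert hk, vl_add, ih, ← exp_ord, ← exp_ord (a := D k),
      map_nsmul, exp_nsmul]

theorem GenP.v_prod (h : GenP p D g) (x : κ → ℕ) :
    p.v (∏ k, g k ^ x k) = vl p.v p.triv (lc D x) := by
  rw [vl_lc, map_prod]
  exact Finset.prod_congr rfl fun k _ => by rw [map_pow, h k]

theorem GenP.v_le (h : GenP p D g) {x : κ → ℕ} {s : F} (hs : s ∈ (lc D x).Sec) :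
    p.v (s / ∏ k, g k ^ x k) ≤ 1 := by
  rw [map_div₀, h.v_prod, div_le_one₀ (zero_lt_iff.2 (vl_ne _))]
  exact le_vl hs

theorem GenP.r_eq_zero (h : GenP p D g) {x : κ → ℕ} {s : F} (hs : s ∈ (lc D x).Sec) :
    p.r (s / ∏ k, g k ^ x k) = 0 ↔ p.v s < vl p.v p.triv (lc D x) := by
  rw [p.r_eq_zero (h.v_le hs), map_div₀, h.v_prod, div_lt_one₀ (zero_lt_iff.2 (vl_ne _))]

theorem GenP.hom (h : GenP p D g) :
    Gr.Hom (fun x => (lc D x).Sec) ⊤ fun x s => p.r (s / ∏ k, g k ^ x k) where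
  one := by simp [p.r_one]
  add s _ f hf f' hf' := by rw [add_div, p.r_add (h.v_le hf) (h.v_le hf')]
  smul s _ c f hf := by
    rw [smul_div_assoc, Algebra.smul_def, p.r_mul (p.triv c) (h.v_le hf), p.r_alg, Algebra.smul_def]
  mul s _ t _ f hf f' hf' := by
    rw [← p.r_mul (h.v_le hf) (h.v_le hf'), div_mul_div_comm, ← Finset.prod_mul_distrib]
    simp only [Pi.add_apply, pow_add]

/-- the restricted ring -/
def resS (h : GenP p D g) (x : κ → ℕ) : Submodule ℂ E where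
  carrier := {z | ∃ s ∈ (lc D x).Sec, p.r (s / ∏ k, g k ^ x k) = z}
  zero_mem' := ⟨0, zero_mem _, h.hom.zero trivial⟩
  add_mem' := by
    rintro _ _ ⟨s, hs, rfl⟩ ⟨t, ht, rfl⟩
    exact ⟨s + t, add_mem hs ht, h.hom.add x trivial s hs t ht⟩
  smul_mem' := by
    rintro c _ ⟨s, hs, rfl⟩
    exact ⟨c • s, Submodule.smul_mem _ c hs, h.hom.smul x trivial c s hs⟩

theorem mem_resS (h : GenP p D g) {x : κ → ℕ} {z : E} :
    z ∈ resS h x ↔ ∃ s ∈ (lc D x).Sec, p.r (s / ∏ k, g k ^ x k) = z := Iff.rfl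

theorem mult_resS (h : GenP p D g) : Gr.Mult (resS h) ⊤ :=
  ⟨⟨1, (mult D).one, h.hom.one⟩, by
    rintro a - b - _ ⟨s, hs, rfl⟩ _ ⟨t, ht, rfl⟩
    exact ⟨s * t, (mult D).mul a trivial b trivial s hs t ht,
      h.hom.mul a trivial b trivial s hs t ht⟩⟩

theorem resS_ne_bot (h : GenP p D g) {x : κ → ℕ} :
    resS h x ≠ ⊥ ↔ ∃ s ∈ (lc D x).Sec, p.v s = vl p.v p.triv (lc D x) := by
  rw [Submodule.ne_bot_iff]
  constructor
  · rintro ⟨_, ⟨s, hs, rfl⟩, h0⟩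
    exact ⟨s, hs, le_antisymm (le_vl hs) (not_lt.1 fun h1 => h0 ((h.r_eq_zero hs).2 h1))⟩
  · rintro ⟨s, hs, h0⟩
    exact ⟨_, ⟨s, hs, rfl⟩, fun h1 => h0.not_lt ((h.r_eq_zero hs).1 h1)⟩

theorem rfg_iff (h : GenP p D g) : RFG p.v p.triv D ↔ Gr.FG (resS h) ⊤ := by
  constructor
  · rintro ⟨N, d, f, h1, h2⟩
    have hd : ∀ j, d j ∈ (⊤ : AddSubmonoid (κ → ℕ)) ∧ f j ∈ (lc D (d j)).Sec :=
      fun j => ⟨trivial, h1 j⟩
    refine ⟨N, d, fun j => p.r (f j / ∏ k, g k ^ d j k), fun j => ⟨trivial, f j, h1 j, rfl⟩, ?_⟩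
    rintro x - _ ⟨s, hs, rfl⟩
    obtain ⟨t, ht, h3⟩ := h2 x s hs
    have h4 := (mult D).Mon_le hd x ht
    have h5 := (h.r_eq_zero (sub_mem hs h4)).2 h3
    rw [h.hom.sub trivial hs h4, sub_eq_zero] at h5
    rw [h5]
    exact h.hom.map_Mon (mult D) hd trivial ht
  · intro H
    obtain ⟨N, d, f, h1, h2⟩ := H.lift h.hom (mult D) fun _ _ _ => Iff.rfl
    refine ⟨N, d, f, fun j => (h1 j).2, fun x s hs => ?_⟩
    obtain ⟨t, ht, h3, h4⟩ := h2 x trivial s hs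
    exact ⟨t, ht, (h.r_eq_zero h3).1 h4⟩

theorem GenP.comap (h : GenP p D g) (φ : κ' → κ → ℕ) :
    GenP p (fun t => lc D (φ t)) fun t => ∏ k, g k ^ φ t k := fun t => h.v_prod (φ t)

theorem resS_comap (h : GenP p D g) (φ : κ' → κ → ℕ) (y : κ' → ℕ) :
    resS (h.comap φ) y = resS h (dg φ y) := by
  ext z
  have h1 : ∏ t, (∏ k, g k ^ φ t k) ^ y t = ∏ k, g k ^ dg φ y k := by
    simp only [← Finset.prod_pow, ← pow_mul, dg_apply, Finset.sum_apply, Pi.smul_apply,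
      smul_eq_mul, ← Finset.prod_pow_eq_pow_sum, mul_comm]
    exact Finset.prod_comm
  rw [mem_resS, mem_resS, lc_lc, h1]

end Res

section RFG

variable {v : Valuation F ℤᵐ⁰} {hv : ∀ c : ℂ, v (algebraMap ℂ F c) ≤ 1}

/-- the degrees in which some section does not vanish along `v` -/
def Nv (v : Valuation F ℤᵐ⁰) (hv : ∀ c : ℂ, v (algebraMap ℂ F c) ≤ 1) (a : BD ℂ F) : Prop :=
  ∃ s ∈ a.Sec, v s = vl v hv a

theorem RFG.congr (h : RFG v hv D) (e : ∀ x, (lc D x).Sec = (lc D' x).Sec)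
    (e' : ∀ k, vl v hv (D k) = vl v hv (D' k)) : RFG v hv D' := by
  obtain ⟨N, d, f, h1, h2⟩ := h
  refine ⟨N, d, f, fun j => e _ ▸ h1 j, fun x s hs => ?_⟩
  obtain ⟨t, ht, h3⟩ := h2 x s (e x ▸ hs)
  exact ⟨t, ht, by simpa only [vl_lc, e'] using h3⟩

variable (hn : Link.Nrm v)
include hn

theorem RFG.of_lin (h : RFG v hv D') (hl : ∀ k, Lin (D k) (D' k)) : RFG v hv D := by
  obtain ⟨E, _, _, p, rfl⟩ := Strat.Fac.exists_plc hn hv
  obtain ⟨g, hg⟩ := exists_genP p D'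
  choose u hu e using hl
  have h1 : GenP p D fun k => g k * u k := fun k => by
    rw [e k, vl_add, vl_pr (hu k), map_mul, hg k]
  refine (rfg_iff h1).2 (((rfg_iff hg).1 h).congr fun x _ => ?_)
  have h0 : ∏ k, u k ^ x k ≠ 0 := Finset.prod_ne_zero_iff.2 fun k _ => pow_ne_zero _ (hu k)
  have h2 : lc D x = lc D' x + pr ℂ (∏ k, u k ^ x k) := by
    rw [← lc_pr hu, ← lc_add_fam, funext e]
  ext z
  simp only [mem_resS, h2, mem_Sec_add_pr h0, mul_pow, Finset.prod_mul_distrib]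
  constructor
  · rintro ⟨s, hs, rfl⟩
    exact ⟨s * ∏ k, u k ^ x k, by rwa [mul_div_cancel_right₀ _ h0],
      by rw [mul_div_mul_right _ _ h0]⟩
  · rintro ⟨s, hs, rfl⟩
    exact ⟨_, hs, by rw [div_div, mul_comm]⟩

theorem RFG.comap (h : RFG v hv D) (φ : κ' → κ → ℕ) : RFG v hv fun t => lc D (φ t) := by
  obtain ⟨E, _, _, p, rfl⟩ := Strat.Fac.exists_plc hn hv
  obtain ⟨g, hg⟩ := exists_genP p D
  exact (rfg_iff (hg.comap φ)).2 ((Gr.FG.comap (mult_resS hg) ((rfg_iff hg).1 h) (dg φ)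
    (fg_top κ') fun _ _ => trivial).congr fun y _ => (resS_comap hg φ y).symm)

theorem RFG.of_comap (φ : κ' → κ → ℕ) (h1 : ∀ x, Nv v hv (lc D x) → x ∈ sat φ)
    (h : RFG v hv fun t => lc D (φ t)) : RFG v hv D := by
  obtain ⟨E, _, _, p, rfl⟩ := Strat.Fac.exists_plc hn hv
  obtain ⟨g, hg⟩ := exists_genP p D
  exact (rfg_iff hg).2 (fg_of_sat (mult_resS hg) φ
    (fun x => or_iff_not_imp_left.2 fun hx => h1 x ((resS_ne_bot hg).1 hx))
    (((rfg_iff (hg.comap φ)).1 h).congr fun y _ => resS_comap hg φ y))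

theorem RFG.of_nsmul {m : ℕ} (hm : 0 < m) (h : RFG v hv fun k => m • D k) : RFG v hv D := by
  classical
  refine RFG.of_comap hn (fun k => m • Pi.single k 1) (fun x _ => ⟨m, hm, x, dg_smul m x⟩) ?_
  simpa only [lc_nsmul, lc_single] using h

/-- the degrees whose base locus does not contain the divisor form a finitely generated monoid -/
theorem RFG.supp (h : RFG v hv D) : ∃ (N : ℕ) (d : Fin N → κ → ℕ), (∀ j, Nv v hv (lc D (d j))) ∧
    ∀ x, Nv v hv (lc D x) → ∃ a : Fin N → ℕ, ∑ j, a j • d j = x := by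
  obtain ⟨E, _, _, p, rfl⟩ := Strat.Fac.exists_plc hn hv
  obtain ⟨g, hg⟩ := exists_genP p D
  obtain ⟨N, d, h1, h2⟩ := supp_of_fg ((rfg_iff hg).1 h)
  exact ⟨N, d, fun j => (resS_ne_bot hg).1 (h1 j), fun x hx => h2 x ((resS_ne_bot hg).2 hx)⟩

end RFG

theorem nrm {P : PModel ℂ F} {n : ℕ} (B : Bd P n) (e : B.ι) : Link.Nrm (B.v e) := (B.isPD e).nrm

/-! ### dimension zero -/

theorem surj_of_zero {P : PModel ℂ F} (B : Bd P 0) : Function.Surjective (algebraMap ℂ F) := by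
  intro f
  obtain ⟨x⟩ : Nonempty (Pts P) := inferInstance
  obtain ⟨t, ht⟩ := B.exists_coords x
  have h1 : ∀ a ∈ (lp x).O, ∃ c : ℂ, algebraMap ℂ F c = a := fun a ha => by
    obtain ⟨c, -, h⟩ := (Res.Log.crd_of_coords ht).gen a ha
    exact ⟨_, by simpa using h.symm⟩
  obtain ⟨a, ha, c, hc, -, rfl⟩ := frac_lp x f
  obtain ⟨a, rfl⟩ := h1 a ha
  obtain ⟨c, rfl⟩ := h1 c hc
  exact ⟨a / c, map_div₀ _ _ _⟩

theorem aStmt_zero : AStmt 0 := by
  classical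
  intro F _ _ P B b κ _ S
  have h1 : ∀ a : BD ℂ F, (1 : F) ∈ a.Sec := fun a V => by
    have h2 : V = RZ.top ℂ F := Subtype.ext (eq_top_iff.2 fun f _ => by
      obtain ⟨c, rfl⟩ := surj_of_zero B f
      exact V.2 c)
    rw [h2, val_top, map_one]
  refine Gr.FG.of_fintype (fun k : κ => Pi.single k 1) (fun _ => 1) (fun k => ⟨trivial, h1 _⟩)
    fun x _ s _ => ?_
  obtain ⟨c, rfl⟩ := surj_of_zero B s
  rw [Algebra.algebraMap_eq_smul_one]
  refine Submodule.smul_mem _ c ?_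
  simpa using Gr.mono_mem_Mon (k := ℂ) (fun k : κ => Pi.single k 1) (fun _ => (1 : F)) x
    (s := x) (by simpa [dg_apply] using dg_smul 1 x)

end Crest.Agent.X262.FG
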