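import Crest.Agent.X262.FG.Dj4
import Crest.Agent.X262.FG.Inv

/-!
# Row 262, FG / DISJ (helper74): the change of the model

* `exists_good` : a plt system goes up to a model on which crossing components along `e` have
  small coefficients;
* `disjStmt_of` : `DisjStmt`.
-/

set_option autoImplicit false
set_option linter.unusedSectionVars false

open WithZero Module
open scoped KaehlerDifferential

noncomputable section

namespace Crest.Agent.X262.FG.Dj

open Crest.Agent.X277 Crest.Agent.X277.Lef Crest.Agent.X277.Res Crest.Agent.X277.Res.Out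
  Crest.Agent.X277.AN.G1 Crest.Agent.X277.Res.Log
open Crest.Agent.X277.Link (IsPD)
open Crest.Agent.X277.BD.Br (At oP kP)

/-- a relatively ample exceptional divisor -/
def ExcAmp : Prop := ∀ (F : Type) [Field F] [Algebra ℂ F] (n : ℕ) (P Q : PModel ℂ F) (C : Bd Q n),
  IsoOff P C → ∃ (N : ℕ) (g : C.ι → ℤ), (∀ e, 0 ≤ g e) ∧ (∀ e, IsPD P (C.v e) → g e = 0) ∧
    Amp Q (N • oP P - dvs C g)

variable {F : Type} [Field F] [Algebra ℂ F] {P : PModel ℂ F} {n : ℕ} {B : Bd P n} {κ : Type}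

/-- a plt system on a higher model: along the strict transform of `e` crossing components have
coefficients with sum at most one -/
theorem exists_good (hE : ExcAmp) [Finite κ] (S : Sys B κ) {e : B.ι} (he : ∀ k, S.c k e = S.r)
    (hk : ∀ k, ∀ d ≠ e, S.c k d < S.r) : ∃ (Q : PModel ℂ F) (C : Bd Q n) (e₁ : C.ι),
      IsoOff P C ∧ C.v e₁ = B.v e ∧ ∀ b : Basis (Fin n) F Ω[F⁄ℂ],
      ∃ (S' : Sys C κ) (M : ℕ) (η : κ → C.ι → ℤ), 0 < M ∧
        (∀ k, S'.c k e₁ = S'.r) ∧ (∀ k, ∀ e' ≠ e₁, S'.c k e' < S'.r) ∧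
        (∀ k, od C e₁ (S'.A k) = 0) ∧
        (∀ k (x : Pts Q) e' e'', e' ≠ e₁ → e'' ≠ e₁ → e' ≠ e'' → On (C.v e₁) x → On (C.v e') x →
          On (C.v e'') x → S'.c k e' + S'.c k e'' ≤ S'.r) ∧
        (∀ k e', 0 ≤ η k e') ∧ (∀ k e', IsPD P (C.v e') → η k e' = 0) ∧
        ∀ k, BD.Lin (M • S.D b k + dvs C (η k)) (S'.D b k) := by
  obtain ⟨b₀⟩ := B.exists_basis
  obtain ⟨𝒢, h𝒢⟩ := exists_sep B (2 * S.r)
  obtain ⟨Q, C, hL, hl, -⟩ := Up.exists_res b₀ B 𝒢 (ι := Empty) Empty.elim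
  have h := hL.isoOff
  obtain ⟨e₁, he₁⟩ := hl e
  refine ⟨Q, C, e₁, h, he₁, fun b => ?_⟩
  obtain ⟨N, g, hg0, hg, hA⟩ := hE F n P Q C h
  choose m hm using fun k => (S.amp k).exists_free (neg_mem (nsmul_mem BD.Br.oP_mem N))
  obtain ⟨M₁, hM₁⟩ := (Set.finite_range m).bddAbove
  obtain ⟨M₂, hM₂⟩ := (Set.finite_range fun e' => (g e').toNat).bddAbove
  set M := M₁ + 2 * M₂ + 1 with hM
  have h1 : ∀ e', 2 * g e' < M := fun e' => by
    have h2 : (g e').toNat ≤ M₂ := hM₂ ⟨e', rfl⟩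
    omega
  have h2 : ∀ k, Amp Q (M • S.A k - dvs C g) := fun k => by
    have h3 : m k ≤ M₁ := hM₁ ⟨k, rfl⟩
    convert hA.add_free (mem_On_up h (add_mem (nsmul_mem (S.amp k).1 M)
      (neg_mem (nsmul_mem BD.Br.oP_mem N)))) (hm k M (by omega)) using 1
    abel
  choose f hf0 hf using fun k => exists_od_zero C e₁ (M • S.A k - dvs C g)
  have hr : (0 : ℤ) < S.r := Int.natCast_pos.2 S.r_pos
  have hM0 : (0 : ℤ) < M := by omega
  have h3 : ∀ k, ∀ e' ≠ e₁, cr C b S.r (S.c k) e' < S.r := fun k e' h3 =>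
    cr_lt b h S.r_pos (he k).le (hk k) fun h4 => h3 (C.v_injective (h4.trans he₁.symm))
  have h4 : ∀ k, M * max (cr C b S.r (S.c k) e₁) 0 + g e₁ = (M * S.r : ℕ) := fun k => by
    rw [cr_self b h he₁, he, max_eq_left hr.le, hg e₁ (he₁ ▸ B.isPD e), add_zero, Nat.cast_mul]
  have h5 : ∀ k, ∀ e' ≠ e₁, M * max (cr C b S.r (S.c k) e') 0 + M ≤ (M * S.r : ℕ) :=
    fun k e' h5 => by
      rw [Nat.cast_mul, ← mul_add_one]
      exact mul_le_mul_of_nonneg_left (max_lt (h3 k e' h5) hr) hM0.le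
  have h6 : ∀ k, ∀ e' ≠ e₁, M * max (cr C b S.r (S.c k) e') 0 + g e' < (M * S.r : ℕ) :=
    fun k e' h6 => by
      have := h5 k e' h6
      have := h1 e'
      have := hg0 e'
      omega
  refine ⟨⟨M * S.r, Nat.mul_pos (by omega) S.r_pos, fun k => M • S.A k - dvs C g - BD.pr ℂ (f k),
    fun k => (h2 k).sub_pr _, fun k e' => M * max (cr C b S.r (S.c k) e') 0 + g e',
    fun k e' => add_nonneg (mul_nonneg hM0.le (le_max_right _ _)) (hg0 e'),
    fun k e' => (eq_or_ne e' e₁).elim (fun h => h ▸ (h4 k).le) fun h => (h6 k e' h).le⟩, M,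
    fun k e' => M * max (-cr C b S.r (S.c k) e') 0, by omega, h4, h6, hf,
    fun k x e' e'' h7 h8 h9 h10 h11 h12 => ?_, fun k e' => mul_nonneg hM0.le (le_max_right _ _),
    fun k e' h7 => ?_, fun k => ⟨f k, hf0 k, ?_⟩⟩
  · have := h1 e'
    have := h1 e''
    have := h5 k e' h7
    have := h5 k e'' h8
    dsimp only
    rcases cr_disj b (h𝒢 hL) h hl he₁ h7 h8 h9 h10 h11 h12 (he k).le (hk k) (he k).le (hk k)
      with h13 | h13 <;> rw [max_eq_right h13] <;> omega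
  · dsimp only
    rw [max_eq_right (neg_nonpos.2 (cr_nonneg b h (S.c_nonneg k) h7)), mul_zero]
  · have h7 : (fun e' => M * max (cr C b S.r (S.c k) e') 0 + g e') =
        M • cr C b S.r (S.c k) + (fun e' => M * max (-cr C b S.r (S.c k) e') 0) + g := by
      funext e'
      rw [Pi.add_apply, Pi.add_apply, Pi.smul_apply, nsmul_eq_mul, ← mul_add]
      congr 2
      rcases le_total (cr C b S.r (S.c k) e') 0 with h7 | h7
      · rw [max_eq_right h7, max_eq_left (neg_nonneg.2 h7), add_neg_cancel]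
      · rw [max_eq_left h7, max_eq_right (neg_nonpos.2 h7), add_zero]
    simp only [Sys.D]
    rw [h7, dvs_add, dvs_add, dvs_nsmul, add_right_comm (S.r • kP P b), adj_eq b h hl, mul_smul]
    simp only [smul_add]
    abel

theorem rfg_congr_v [Fintype κ] {v w : Valuation F ℤᵐ⁰} (h : v = w)
    {hv : ∀ c : ℂ, v (algebraMap ℂ F c) ≤ 1} {hw : ∀ c : ℂ, w (algebraMap ℂ F c) ≤ 1}
    {D : κ → BD ℂ F} (H : RFG v hv D) : RFG w hw D := by
  subst h
  exact H

/-- **DISJ** -/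
theorem disjStmt_of (hE : ExcAmp) (hF : FacStmt) : DisjStmt := by
  intro n hG F _ _ P B b κ _ S e he
  obtain ⟨M₁, S₁, hM₁, hr, hD, hI, hk, -, -⟩ := S.exists_klt {e}
  obtain ⟨Q, C, e₁, h, he₁, H⟩ := exists_good hE S₁ (e := e)
    (fun k => by rw [hI k e rfl, he, hr, Nat.cast_mul]) fun k d hd => hk k d hd
  obtain ⟨b', E, _, _, ⟨Φ⟩⟩ := hF F n Q C e₁
  obtain ⟨S', M, η, hM, h1, h2, h3, h4, h5, h6, h7⟩ := H b'
  have h8 := hG F Q C b' κ S' e₁ E Φ h1 h2 h3 fun k g hg => can_of_cross Φ.b'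
    (fun w => (hg w).2.trans (S'.c_le k _)) fun x' w w' hne hw hw' => by
      obtain ⟨x, hx⟩ := Φ.up x'
      exact (add_le_add (hg w).2 (hg w').2).trans (h4 k x _ _ (Φ.l_ne w) (Φ.l_ne w')
        (lab_ne Φ hx hw hw' hne) (on_of_ovr Φ hx) (on_lab Φ hx hw) (on_lab Φ hx hw'))
  have hn := nrm C e₁
  have h9 : RFG (C.v e₁) (triv C e₁) fun k => M • S₁.D b' k := by
    refine (h8.of_lin hn h7).congr (fun x => ?_) fun k => ?_
    · rw [lc_add_fam, lc_dvs]
      refine sec_add_exc h (fun e' => ?_) (fun e' h9 => ?_)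
        (lc_mem (fun k => nsmul_mem (S₁.D_mem b' k) M) x)
      · rw [Finset.sum_apply]
        exact Finset.sum_nonneg fun k _ => nsmul_nonneg (h5 k e') _
      · rw [Finset.sum_apply]
        exact Finset.sum_eq_zero fun k _ => by rw [Pi.smul_apply, h6 k e' h9, smul_zero]
    · rw [← exp_od, ← exp_od, map_add, od_dvs, h6 k e₁ (he₁ ▸ B.isPD e), add_zero]
  have h10 := RFG.of_nsmul hn hM h9
  simp only [funext (hD b')] at h10
  refine rfg_congr_v he₁ ((RFG.of_nsmul hn hM₁ h10).of_lin hn fun k => ?_)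
  exact (((BD.Br.lin_kP b b').nsmul S.r).add BD.Lin.rfl).add BD.Lin.rfl

end Crest.Agent.X262.FG.Dj
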