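import Crest.Agent.X262.FG.Dj5
import Crest.Agent.X262.FG.Up0

/-!
# Row 262, FG / DISJ (helper74): `DisjStmt` from `FacStmt`
-/

set_option autoImplicit false

namespace Crest.Agent.X262.FG.Dj

theorem excAmp : ExcAmp := fun _ _ _ _ _ _ _ h => by
  obtain ⟨N, g, -, h1, h2⟩ := exists_amp h
  exact ⟨N, g, h1.1, h1.2, h2⟩

theorem disjStmt_of_fac (hF : FacStmt) : DisjStmt := disjStmt_of excAmp hF

end Crest.Agent.X262.FG.Dj
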