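import Mathlib

/-!
# X262/FG/Fan76 (helper76): the chamber decomposition of a finite set of degrees

`d : J → ι → ℤ` is a pointed finite family of degrees.  For every basis `B ⊆ J` of its span the
coordinates with respect to `B` are an integral matrix `T B` (up to a common denominator `N`).  The
rows of these matrices cut the cone spanned by the `d j` into chambers; on each chamber every linear
programme `max {∑ a j • c j | a ≥ 0, ∑ a j • d j = x}` (weights `c` in any ordered group) is solved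
by one basis (`Dat.lp_int`).
-/

set_option autoImplicit false
set_option linter.unusedSectionVars false

noncomputable section

open Finset Filter Topology

namespace Crest.Agent.X262.FG.Fan

variable {J ι : Type*} [Fintype J] [Fintype ι]

/-- the degree of a vector of exponents -/
def deg (K : Type*) [CommRing K] (d : J → ι → ℤ) : (J → K) →ₗ[K] (ι → K) where
  toFun a i := ∑ j, a j * d j i
  map_add' a b := by ext i; simp [add_mul, sum_add_distrib]
  map_smul' t a := by ext i; simp [mul_sum, mul_assoc]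

variable {d : J → ι → ℤ}

theorem deg_apply {K : Type*} [CommRing K] (a : J → K) (i : ι) :
    deg K d a i = ∑ j, a j * d j i := rfl

theorem deg_single {K : Type*} [CommRing K] [DecidableEq J] (j : J) (t : K) (i : ι) :
    deg K d (Pi.single j t) i = t * d j i := by
  rw [deg_apply, sum_eq_single j] <;> simp +contextual

theorem cast_deg {K : Type*} [CommRing K] (a : J → ℤ) (i : ι) :
    ((deg ℤ d a i : ℤ) : K) = deg K d (fun j => a j) i := by
  simp [deg_apply]

/-- no non-trivial non-negative relation -/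
def Pt (d : J → ι → ℤ) : Prop := ∀ a : J → ℚ, 0 ≤ a → deg ℚ d a = 0 → a = 0

theorem pt_of_nonneg (h : ∀ j i, 0 ≤ d j i) (h0 : ∀ j, d j ≠ 0) : Pt d := by
  intro a ha h1
  ext j
  obtain ⟨i, hi⟩ := Function.ne_iff.1 (h0 j)
  have h2 : ∑ j, a j * d j i = 0 := congrFun h1 i
  rw [sum_eq_zero_iff_of_nonneg fun j _ => mul_nonneg (ha j) (Int.cast_nonneg (h j i))] at h2
  have := h2 j (mem_univ j)
  rcases mul_eq_zero.1 this with h3 | h3
  · exact h3
  · exact absurd (by exact_mod_cast h3) hi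

/-- the `d j`, `j ∈ B`, are independent -/
def Ind (d : J → ι → ℤ) (B : Set J) : Prop :=
  ∀ a : J → ℚ, (∀ j ∉ B, a j = 0) → deg ℚ d a = 0 → a = 0

/-- the `d j`, `j ∈ B`, are a basis of the span -/
def IsB (d : J → ι → ℤ) (B : Set J) : Prop :=
  Ind d B ∧ ∀ j, ∃ a : J → ℚ, (∀ j ∉ B, a j = 0) ∧ deg ℚ d a = fun i => (d j i : ℚ)

/-- the bases -/
def Bs (d : J → ι → ℤ) : Type _ := {B : Set J // IsB d B}

instance : Finite (Bs d) := by unfold Bs; infer_instance

instance : Fintype (Bs d) := Fintype.ofFinite _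

theorem Ind.exists_isB {A : Set J} (h : Ind d A) : ∃ B : Bs d, A ⊆ B.1 := by
  classical
  obtain ⟨B, hAB, hB⟩ := Finite.exists_le_maximal (p := Ind d) h
  refine ⟨⟨B, hB.1, fun j => ?_⟩, hAB⟩
  by_cases hj : j ∈ B
  · refine ⟨Pi.single j 1, fun b hb => Pi.single_eq_of_ne (fun e : b = j => hb (e ▸ hj)) _, ?_⟩
    ext i
    rw [deg_single, one_mul]
  · have hn : ¬ Ind d (insert j B) := fun hi =>
      hj (hB.2 hi (Set.subset_insert _ _) (Set.mem_insert _ _))
    simp only [Ind, not_forall] at hn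
    obtain ⟨a, ha, ha0, hne⟩ := hn
    have haj : a j ≠ 0 := fun e => hne (hB.1 a (fun b hb => by
      by_cases hbj : b = j
      · rw [hbj, e]
      · exact ha b (by simp [hbj, hb])) ha0)
    refine ⟨Pi.single j 1 - (a j)⁻¹ • a, fun b hb => ?_, ?_⟩
    · by_cases hbj : b = j
      · subst hbj
        simp [haj]
      · simp [hbj, ha b (by simp [hbj, hb])]
    · ext i
      rw [map_sub, map_smul, ha0, smul_zero, sub_zero, deg_single, one_mul]

theorem IsB.exists_supp {B : Set J} (h : IsB d B) (b : J → ℚ) :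
    ∃ a : J → ℚ, (∀ j ∉ B, a j = 0) ∧ deg ℚ d a = deg ℚ d b := by
  choose s h1 h2 using h.2
  refine ⟨∑ j, b j • s j, fun j hj => by simp [Finset.sum_apply, h1 _ j hj], ?_⟩
  ext i
  simp [h2, Finset.sum_apply, deg_apply (a := b)]

theorem exists_den {κ : Type*} [Finite κ] (q : κ → ℚ) :
    ∃ D : ℕ, 0 < D ∧ ∀ k, ∃ n : ℤ, (n : ℚ) = D * q k := by
  classical
  have := Fintype.ofFinite κ
  refine ⟨∏ k, (q k).den, prod_pos fun k _ => (q k).den_pos, fun k => ?_⟩
  refine ⟨(∏ l ∈ univ.erase k, (q l).den : ℕ) * (q k).num, ?_⟩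
  rw [← prod_erase_mul _ _ (mem_univ k)]
  push_cast
  rw [mul_assoc, Rat.den_mul_eq_num]

/-- coordinates in all bases, with a common denominator -/
structure Dat (d : J → ι → ℤ) where
  N : ℕ
  N_pos : 0 < N
  T : Bs d → J → ι → ℤ
  Q : ι → ι → ℤ
  supp : ∀ B, ∀ j ∉ B.1, T B j = 0
  deg_T : ∀ B i i', ∑ j, T B j i * d j i' = Q i i'
  fix : ∀ j i', ∑ i, d j i * Q i i' = N * d j i'

theorem nonempty_dat (d : J → ι → ℤ) : Nonempty (Dat d) := by
  classical
  obtain ⟨π, hπ⟩ := (LinearMap.range (deg ℚ d)).subtype.exists_leftInverse_of_injective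
    (Submodule.ker_subtype _)
  have h1 : ∀ (B : Bs d) (i : ι), ∃ a : J → ℚ, (∀ j ∉ B.1, a j = 0) ∧
      deg ℚ d a = π (Pi.single i 1) := by
    intro B i
    obtain ⟨b, hb⟩ := (π (Pi.single i 1)).2
    rw [← hb]
    exact B.2.exists_supp b
  choose s hs1 hs2 using h1
  obtain ⟨N, hN, hT⟩ := exists_den (κ := Bs d × J × ι ⊕ ι × ι)
    (Sum.elim (fun p => s p.1 p.2.2 p.2.1) fun p => (π (Pi.single p.1 1) : ι → ℚ) p.2)
  choose n hn using hT
  have hN' : (N : ℚ) ≠ 0 := by positivity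
  refine ⟨⟨N, hN, fun B j i => n (.inl (B, j, i)), fun i i' => n (.inr (i, i')), ?_, ?_, ?_⟩⟩
  · intro B j hj
    ext i
    have := hn (.inl (B, j, i))
    simp only [Sum.elim_inl, hs1 B i j hj, mul_zero] at this
    exact_mod_cast this
  · intro B i i'
    have : ((∑ j, n (.inl (B, j, i)) * d j i' : ℤ) : ℚ) = n (.inr (i, i')) := by
      push_cast
      simp only [hn, Sum.elim_inl, Sum.elim_inr, ← hs2 B i, deg_apply, mul_sum, mul_assoc]
    exact_mod_cast this
  · intro j i'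
    have hm : (fun i => (d j i : ℚ)) ∈ LinearMap.range (deg ℚ d) :=
      ⟨Pi.single j 1, by ext i; rw [deg_single, one_mul]⟩
    have h2 : π (fun i => (d j i : ℚ)) = ⟨_, hm⟩ := LinearMap.congr_fun hπ ⟨_, hm⟩
    have h3 : (fun i => (d j i : ℚ)) = ∑ i, (d j i : ℚ) • (Pi.single i 1 : ι → ℚ) := by
      ext i
      simp [Finset.sum_apply, Pi.single_apply]
    have h4 : ∑ i, (d j i : ℚ) * (π (Pi.single i 1) : ι → ℚ) i' = d j i' := by
      have := congrArg (fun w : LinearMap.range (deg ℚ d) => (w : ι → ℚ) i') h2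
      simp only at this
      rw [← this]
      conv_rhs => rw [h3]
      simp [Finset.sum_apply]
    have : ((∑ i, d j i * n (.inr (i, i')) : ℤ) : ℚ) = (N * d j i' : ℤ) := by
      push_cast
      simp only [hn, Sum.elim_inr]
      rw [← h4, mul_sum]
      exact sum_congr rfl fun i _ => by ring
    exact_mod_cast this

namespace Dat

variable (D : Dat d)

/-- `N` times the coordinates of (the projection to the span of) `x` in the basis `B` -/
def crd (K : Type*) [CommRing K] (B : Bs d) : (ι → K) →ₗ[K] (J → K) where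
  toFun x j := ∑ i, D.T B j i * x i
  map_add' a b := by ext i; simp [mul_add, sum_add_distrib]
  map_smul' t a := by ext i; simp [mul_sum, mul_left_comm]

variable {K : Type*} [CommRing K]

theorem crd_apply (B : Bs d) (x : ι → K) (j : J) : D.crd K B x j = ∑ i, D.T B j i * x i := rfl

theorem cast_crd (B : Bs d) (x : ι → ℤ) (j : J) :
    ((D.crd ℤ B x j : ℤ) : K) = D.crd K B (fun i => x i) j := by
  simp [crd_apply]

theorem crd_off (B : Bs d) (x : ι → K) {j : J} (hj : j ∉ B.1) : D.crd K B x j = 0 := by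
  simp [crd_apply, D.supp B j hj]

theorem deg_crd' (B : Bs d) (x : ι → K) (i' : ι) :
    deg K d (D.crd K B x) i' = ∑ i, x i * D.Q i i' := by
  simp only [deg_apply, crd_apply, sum_mul, ← D.deg_T B]
  rw [sum_comm]
  refine sum_congr rfl fun i _ => ?_
  push_cast
  rw [mul_sum]
  exact sum_congr rfl fun j _ => by ring

theorem sum_deg_Q (a : J → K) (i' : ι) : ∑ i, deg K d a i * D.Q i i' = D.N * deg K d a i' := by
  simp only [deg_apply, sum_mul, mul_sum]
  rw [sum_comm]
  refine sum_congr rfl fun j _ => ?_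
  have := congrArg (fun z : ℤ => a j * (z : K)) (D.fix j i')
  simp only [Int.cast_sum, Int.cast_mul, Int.cast_natCast, mul_sum] at this
  simp only [mul_assoc]
  rw [this]
  ring

theorem deg_crd (B : Bs d) (a : J → K) :
    deg K d (D.crd K B (deg K d a)) = (D.N : K) • deg K d a := by
  ext i'
  rw [deg_crd', sum_deg_Q]
  rfl

theorem crd_deg_rat (B : Bs d) {a : J → ℚ} (ha : ∀ j ∉ B.1, a j = 0) :
    D.crd ℚ B (deg ℚ d a) = (D.N : ℚ) • a := by
  rw [← sub_eq_zero]
  refine B.2.1 _ (fun j hj => by simp [D.crd_off B _ hj, ha j hj]) ?_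
  rw [map_sub, map_smul, deg_crd, sub_self]

theorem T_d [DecidableEq J] (B : Bs d) {b : J} (hb : b ∈ B.1) (j : J) :
    ∑ i, D.T B j i * d b i = if j = b then (D.N : ℤ) else 0 := by
  have h := congrFun (D.crd_deg_rat B (a := Pi.single b 1)
    fun j hj => Pi.single_eq_of_ne (fun e : j = b => hj (e ▸ hb)) _) j
  simp only [crd_apply, deg_single, one_mul, Pi.smul_apply, Pi.single_apply, smul_eq_mul] at h
  have : ((∑ i, D.T B j i * d b i : ℤ) : ℚ) = (if j = b then (D.N : ℤ) else 0 : ℤ) := by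
    push_cast
    rw [h]
    split_ifs <;> simp
  exact_mod_cast this

theorem crd_deg (B : Bs d) {a : J → K} (ha : ∀ j ∉ B.1, a j = 0) :
    D.crd K B (deg K d a) = (D.N : K) • a := by
  classical
  ext j
  simp only [crd_apply, deg_apply, mul_sum, Pi.smul_apply, smul_eq_mul]
  rw [sum_comm, sum_eq_single j]
  · by_cases hj : j ∈ B.1
    · have := congrArg (fun z : ℤ => a j * (z : K)) (D.T_d B hj j)
      simp only [Int.cast_sum, Int.cast_mul, if_true, Int.cast_natCast, mul_sum] at this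
      rw [mul_comm, ← this]
      exact sum_congr rfl fun i _ => by ring
    · simp [ha j hj]
  · intro b _ hbj
    by_cases hb : b ∈ B.1
    · have := congrArg (fun z : ℤ => a b * (z : K)) (D.T_d B hb j)
      simp only [Int.cast_sum, Int.cast_mul, if_neg hbj.symm, Int.cast_zero, mul_zero,
        mul_sum] at this
      rw [← this]
      exact sum_congr rfl fun i _ => by ring
    · simp [ha b hb]
  · simp

/-- the rows of `Q` are `N` times the projections of the unit vectors -/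
theorem Q_eq (B : Bs d) (i : ι) :
    (fun i' => (D.Q i i' : K)) = deg K d fun j => (D.T B j i : K) := by
  ext i'
  simp [deg_apply, ← D.deg_T B]

/-! ### the linear programme -/

section LP

variable {G : Type*} [AddCommGroup G] [LinearOrder G] [IsOrderedAddMonoid G] [Module ℚ G]
  [PosSMulStrictMono ℚ G] [SMulPosMono ℚ G]

/-- the objective function -/
def val (c : J → G) : (J → ℚ) →ₗ[ℚ] G := Fintype.linearCombination ℚ c

theorem val_apply (c : J → G) (a : J → ℚ) : val c a = ∑ j, a j • c j := rfl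

/-- reduction to basic solutions -/
theorem red (hd : Pt d) (c : J → G) (a : J → ℚ) (ha : 0 ≤ a) :
    ∃ B : Bs d, 0 ≤ D.crd ℚ B (deg ℚ d a) ∧
      (D.N : ℚ) • val c a ≤ val c (D.crd ℚ B (deg ℚ d a)) := by
  classical
  induction hn : (univ.filter fun j => a j ≠ 0).card using Nat.strong_induction_on generalizing a with
  | _ n ih =>
  by_cases hi : Ind d {j | a j ≠ 0}
  · obtain ⟨B, hB⟩ := hi.exists_isB
    have h1 := D.crd_deg B (K := ℚ) (a := a) fun j hj => by
      by_contra h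
      exact hj (hB h)
    refine ⟨B, ?_, ?_⟩
    · rw [h1]
      exact smul_nonneg (Nat.cast_nonneg _) ha
    · rw [h1, map_smul]
  · simp only [Ind, not_forall] at hi
    obtain ⟨μ, hμ, hμ0, hne, hv⟩ : ∃ μ : J → ℚ, (∀ j, a j = 0 → μ j = 0) ∧ deg ℚ d μ = 0 ∧
        μ ≠ 0 ∧ 0 ≤ val c μ := by
      obtain ⟨μ, h1, h2, h3⟩ := hi
      rcases le_total 0 (val c μ) with h | h
      · exact ⟨μ, fun j hj => h1 j (by simpa using hj), h2, h3, h⟩
      · exact ⟨-μ, fun j hj => by simpa using h1 j (by simpa using hj), by simp [h2],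
          neg_ne_zero.2 h3, by simpa using h⟩
    have hneg : (univ.filter fun j => μ j < 0).Nonempty := by
      by_contra h
      refine hne (hd μ (fun j => ?_) hμ0)
      by_contra hj
      exact h ⟨j, mem_filter.2 ⟨mem_univ _, not_le.1 hj⟩⟩
    obtain ⟨j0, hj0, hmin⟩ := exists_min_image _ (fun j => a j / -μ j) hneg
    have hj0' : μ j0 < 0 := (mem_filter.1 hj0).2
    set t := a j0 / -μ j0 with ht
    have ht0 : 0 ≤ t := div_nonneg (ha j0) (by linarith)
    have h1 : 0 ≤ a + t • μ := by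
      intro j
      simp only [Pi.zero_apply, Pi.add_apply, Pi.smul_apply, smul_eq_mul]
      by_cases hj : μ j < 0
      · have := hmin j (mem_filter.2 ⟨mem_univ _, hj⟩)
        rw [le_div_iff₀ (by linarith)] at this
        linarith
      · have := mul_nonneg ht0 (not_lt.1 hj)
        have := ha j
        simp only [Pi.zero_apply] at this
        linarith
    have h2 : deg ℚ d (a + t • μ) = deg ℚ d a := by rw [map_add, map_smul, hμ0, smul_zero, add_zero]
    have h3 : (univ.filter fun j => (a + t • μ) j ≠ 0).card < n := by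
      rw [← hn]
      refine card_lt_card ⟨fun j hj => ?_, fun h => ?_⟩
      · simp only [mem_filter, mem_univ, true_and] at hj ⊢
        intro e
        exact hj (by simp [e, hμ j e])
      · have h4 : a j0 ≠ 0 := fun e => hj0'.ne (hμ j0 e)
        have h5 := (mem_filter.1 (h (mem_filter.2 ⟨mem_univ j0, h4⟩))).2
        refine h5 ?_
        simp only [Pi.add_apply, Pi.smul_apply, smul_eq_mul, ht]
        have := hj0'.ne
        field_simp
        ring
    obtain ⟨B, hB1, hB2⟩ := ih _ h3 _ h1 rfl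
    rw [h2] at hB1 hB2
    refine ⟨B, hB1, le_trans ?_ hB2⟩
    refine smul_le_smul_of_nonneg_left ?_ (Nat.cast_nonneg _)
    rw [map_add, map_smul]
    exact le_add_of_nonneg_right (smul_nonneg ht0 hv)

theorem exists_small (u w : J → ℚ) (h : ∀ j, 0 < u j ∨ 0 ≤ u j ∧ 0 ≤ w j) :
    ∃ t : ℚ, 0 < t ∧ 0 ≤ u + t • w := by
  have h1 : ∀ᶠ t : ℚ in 𝓝[>] 0, ∀ j, 0 ≤ u j + t * w j := by
    rw [eventually_all]
    intro j
    rcases h j with h | h
    · have : Tendsto (fun t : ℚ => u j + t * w j) (𝓝 0) (𝓝 (u j + 0 * w j)) :=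
        Continuous.tendsto (by fun_prop) _
      rw [zero_mul, add_zero] at this
      exact ((this.eventually (lt_mem_nhds h)).filter_mono nhdsWithin_le_nhds).mono
        fun _ h => h.le
    · filter_upwards [self_mem_nhdsWithin] with t ht
      exact add_nonneg h.1 (mul_nonneg (le_of_lt ht) h.2)
  obtain ⟨t, h2, h3⟩ := (h1.and self_mem_nhdsWithin).exists
  exact ⟨t, h3, h2⟩

/-- at a generic point the optimal basis is dual feasible -/
theorem lp (hd : Pt d) (c : J → G) {a : J → ℚ} (ha : 0 ≤ a)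
    (hg : ∀ B : Bs d, ∀ b ∈ B.1, D.crd ℚ B (deg ℚ d a) b ≠ 0) :
    ∃ B : Bs d, (∀ b ∈ B.1, 0 < D.crd ℚ B (deg ℚ d a) b) ∧
      ∀ j, (D.N : ℚ) • c j ≤ val c (D.crd ℚ B fun i => d j i) := by
  classical
  have hN : (0 : ℚ) < D.N := by exact_mod_cast D.N_pos
  obtain ⟨B0, hB0, -⟩ := D.red hd c a ha
  obtain ⟨B, hB, hmax⟩ := exists_max_image (univ.filter fun B => 0 ≤ D.crd ℚ B (deg ℚ d a))
    (fun B => val c (D.crd ℚ B (deg ℚ d a))) ⟨B0, mem_filter.2 ⟨mem_univ _, hB0⟩⟩
  have hB' := (mem_filter.1 hB).2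
  have hpos : ∀ b ∈ B.1, 0 < D.crd ℚ B (deg ℚ d a) b := fun b hb =>
    lt_of_le_of_ne (hB' b) (hg B b hb).symm
  refine ⟨B, hpos, fun j => ?_⟩
  set w : J → ℚ := Pi.single j (D.N : ℚ) - D.crd ℚ B fun i => d j i with hw
  obtain ⟨t, ht, h1⟩ := exists_small (D.crd ℚ B (deg ℚ d a)) w fun b => by
    by_cases hb : b ∈ B.1
    · exact .inl (hpos b hb)
    · refine .inr ⟨hB' b, ?_⟩
      simp only [hw, Pi.sub_apply, D.crd_off B _ hb, sub_zero, Pi.single_apply]
      split_ifs <;> positivity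
  have e1 : (fun i => (d j i : ℚ)) = deg ℚ d (Pi.single j 1) := by
    ext i
    rw [deg_single, one_mul]
  have h2 : deg ℚ d w = 0 := by
    rw [hw, map_sub, e1, deg_crd, sub_eq_zero]
    ext i
    simp [deg_single]
  obtain ⟨B', h3, h4⟩ := D.red hd c _ h1
  have h8 : deg ℚ d (D.crd ℚ B (deg ℚ d a) + t • w) = (D.N : ℚ) • deg ℚ d a := by
    rw [map_add, map_smul, h2, smul_zero, add_zero, deg_crd]
  rw [h8, map_smul] at h3 h4
  rw [map_smul] at h4
  have h5 := hmax B' (mem_filter.2 ⟨mem_univ _, fun b => by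
    have := h3 b
    simp only [Pi.zero_apply, Pi.smul_apply, smul_eq_mul] at this
    exact nonneg_of_mul_nonneg_right this hN⟩)
  have h6 := (le_of_smul_le_smul_left h4 hN).trans h5
  rw [map_add, map_smul, add_le_iff_nonpos_right, ← smul_zero t] at h6
  have h7 := le_of_smul_le_smul_left h6 ht
  rw [hw, map_sub, sub_nonpos] at h7
  convert h7
  rw [val_apply, sum_eq_single j] <;> simp +contextual

end LP

/-- `x₀` lies on none of the hyperplanes -/
def Gen (x₀ : ι → ℤ) : Prop := ∀ B : Bs d, ∀ b ∈ B.1, D.crd ℤ B x₀ b ≠ 0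

/-- `x₀` lies in the interior of the simplicial cone of `B` -/
def Good (x₀ : ι → ℤ) (B : Bs d) : Prop := ∀ b ∈ B.1, 0 < D.crd ℤ B x₀ b

/-- the linear programme with weights in any ordered group -/
theorem lp_int {A : Type*} [AddCommGroup A] [LinearOrder A] [IsOrderedAddMonoid A] (hd : Pt d)
    (c : J → A) {a₀ : J → ℤ} (ha : 0 ≤ a₀) (hg : D.Gen (deg ℤ d a₀)) :
    ∃ B : Bs d, D.Good (deg ℤ d a₀) B ∧
      ∀ a : J → ℤ, 0 ≤ a → D.N • ∑ j, a j • c j ≤ ∑ b, D.crd ℤ B (deg ℤ d a) b • c b := by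
  have e : ∀ B b, D.crd ℚ B (deg ℚ d fun j => a₀ j) b = D.crd ℤ B (deg ℤ d a₀) b := by
    intro B b
    rw [D.cast_crd]
    simp only [cast_deg]
  obtain ⟨B, h1, h2⟩ := D.lp hd (fun j => (c j : DivisibleHull A)) (a := fun j => a₀ j)
    (fun j => by simpa using ha j) fun B b hb => by
      rw [e]
      exact_mod_cast hg B b hb
  refine ⟨B, fun b hb => ?_, fun a h0 => ?_⟩
  · have := h1 b hb
    rw [e] at this
    exact_mod_cast this
  have h3 : ∀ j, D.N • c j ≤ ∑ b, D.crd ℤ B (d j) b • c b := by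
    intro j
    have h4 := h2 j
    rw [val_apply] at h4
    simp only [← D.cast_crd, Int.cast_smul_eq_zsmul, Nat.cast_smul_eq_nsmul] at h4
    let φ := DivisibleHull.coeAddMonoidHom A
    have h5 : φ (D.N • c j) ≤ φ (∑ b, D.crd ℤ B (d j) b • c b) := by
      simp only [map_nsmul, map_sum, map_zsmul]
      exact h4
    have h6 : DivisibleHull.mk (D.N • c j) 1 ≤
      DivisibleHull.mk (∑ b, D.crd ℤ B (d j) b • c b) 1 := h5
    simpa using h6
  calc D.N • ∑ j, a j • c j = ∑ j, a j • D.N • c j := by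
        rw [smul_sum]
        exact sum_congr rfl fun j _ => smul_comm _ _ _
    _ ≤ ∑ j, a j • ∑ b, D.crd ℤ B (d j) b • c b :=
        sum_le_sum fun j _ => zsmul_le_zsmul_right (h0 j) (h3 j)
    _ = _ := by
        simp only [smul_sum, smul_smul]
        rw [sum_comm]
        refine sum_congr rfl fun b _ => ?_
        rw [← sum_smul]
        congr 1
        simp only [crd_apply, deg_apply, mul_sum, Int.cast_id]
        rw [sum_comm]
        exact sum_congr rfl fun i _ => sum_congr rfl fun j _ => by ring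

/-! ### chambers -/

/-- the closed chamber of `x₀` -/
def Ch (x₀ : ι → ℤ) : Set (ι → ℝ) :=
  {x | x ∈ LinearMap.range (deg ℝ d) ∧ ∀ B b, 0 ≤ (D.crd ℤ B x₀ b : ℝ) * D.crd ℝ B x b}

variable {D}

theorem Good.nonneg {x₀ : ι → ℤ} {B : Bs d} (h : D.Good x₀ B) {x : ι → ℝ} (hx : x ∈ D.Ch x₀) :
    0 ≤ D.crd ℝ B x := by
  intro b
  by_cases hb : b ∈ B.1
  · exact nonneg_of_mul_nonneg_right (hx.2 B b) (Int.cast_pos.2 (h b hb))
  · simp [D.crd_off B _ hb]

theorem Good.nonneg_int {x₀ : ι → ℤ} {B : Bs d} (h : D.Good x₀ B) {x : ι → ℤ}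
    (hx : (fun i => (x i : ℝ)) ∈ D.Ch x₀) : 0 ≤ D.crd ℤ B x := by
  intro b
  have := h.nonneg hx b
  rw [← D.cast_crd] at this
  exact Int.cast_nonneg_iff.1 this

theorem deg_crd_of_mem (B : Bs d) {x : ι → K} (hx : x ∈ LinearMap.range (deg K d)) :
    deg K d (D.crd K B x) = (D.N : K) • x := by
  obtain ⟨a, rfl⟩ := hx
  exact D.deg_crd B a

theorem deg_crd_int (B : Bs d) {x : ι → ℤ} (hx : (fun i => (x i : ℝ)) ∈ LinearMap.range (deg ℝ d)) :
    deg ℤ d (D.crd ℤ B x) = (D.N : ℤ) • x := by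
  ext i
  have h := congrFun (deg_crd_of_mem (D := D) B hx) i
  have : ((deg ℤ d (D.crd ℤ B x) i : ℤ) : ℝ) = (((D.N : ℤ) • x) i : ℤ) := by
    rw [cast_deg]
    simp only [D.cast_crd]
    rw [h]
    simp
  exact_mod_cast this

theorem cast_deg_mem (a : J → ℤ) :
    (fun i => ((deg ℤ d a i : ℤ) : ℝ)) ∈ LinearMap.range (deg ℝ d) :=
  ⟨fun j => a j, funext fun i => (cast_deg a i).symm⟩

theorem self_mem_ch (a : J → ℤ) : (fun i => ((deg ℤ d a i : ℤ) : ℝ)) ∈ D.Ch (deg ℤ d a) :=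
  ⟨cast_deg_mem a, fun B b => by rw [← D.cast_crd]; exact mul_self_nonneg _⟩

theorem add_mem_ch {x₀ : ι → ℤ} {x y : ι → ℝ} (hx : x ∈ D.Ch x₀) (hy : y ∈ D.Ch x₀) :
    x + y ∈ D.Ch x₀ :=
  ⟨add_mem hx.1 hy.1, fun B b => by
    rw [map_add, Pi.add_apply, mul_add]; exact add_nonneg (hx.2 B b) (hy.2 B b)⟩

theorem smul_mem_ch {x₀ : ι → ℤ} {x : ι → ℝ} (hx : x ∈ D.Ch x₀) {t : ℝ} (ht : 0 ≤ t) :
    t • x ∈ D.Ch x₀ :=
  ⟨Submodule.smul_mem _ _ hx.1, fun B b => by
    rw [map_smul, Pi.smul_apply, smul_eq_mul, mul_left_comm]; exact mul_nonneg ht (hx.2 B b)⟩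

/-- a generic point is an interior point of its chamber -/
theorem Gen.exists_add {x₀ : ι → ℤ} (h : D.Gen x₀)
    (h0 : (fun i => (x₀ i : ℝ)) ∈ LinearMap.range (deg ℝ d)) {y : ι → ℝ}
    (hy : y ∈ LinearMap.range (deg ℝ d)) :
    ∃ m : ℕ, (m : ℝ) • (fun i => (x₀ i : ℝ)) + y ∈ D.Ch x₀ := by
  have h1 : ∀ᶠ m : ℕ in atTop, ∀ B b, 0 ≤ (D.crd ℤ B x₀ b : ℝ) *
      D.crd ℝ B ((m : ℝ) • (fun i => (x₀ i : ℝ)) + y) b := by
    simp only [eventually_all]
    intro B b
    by_cases hb : b ∈ B.1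
    · have h2 : (0 : ℝ) < (D.crd ℤ B x₀ b : ℝ) * (D.crd ℤ B x₀ b : ℝ) :=
        mul_self_pos.2 (by exact_mod_cast h B b hb)
      filter_upwards [(tendsto_natCast_atTop_atTop.atTop_mul_const h2).eventually_ge_atTop
        (-((D.crd ℤ B x₀ b : ℝ) * D.crd ℝ B y b))] with m hm
      rw [map_add, map_smul, Pi.add_apply, Pi.smul_apply, smul_eq_mul, ← D.cast_crd]
      nlinarith
    · simp [D.crd_off B _ hb]
  obtain ⟨m, hm⟩ := h1.exists
  exact ⟨m, add_mem (Submodule.smul_mem _ _ h0) hy, hm⟩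

variable (d) in
/-- the real cone spanned by the degrees -/
def _root_.Crest.Agent.X262.FG.Fan.Cone : Set (ι → ℝ) := {x | ∃ a : J → ℝ, 0 ≤ a ∧ deg ℝ d a = x}

theorem ch_subset (hd : Pt d) {a₀ : J → ℤ} (ha : 0 ≤ a₀) (hg : D.Gen (deg ℤ d a₀)) :
    D.Ch (deg ℤ d a₀) ⊆ Cone d := by
  obtain ⟨B, hB, -⟩ := D.lp_int hd (fun _ => (0 : ℤ)) ha hg
  intro x hx
  have hN : (0 : ℝ) < D.N := by exact_mod_cast D.N_pos
  refine ⟨(D.N : ℝ)⁻¹ • D.crd ℝ B x, smul_nonneg (by positivity) (hB.nonneg hx), ?_⟩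
  rw [map_smul, deg_crd_of_mem B hx.1, smul_smul, inv_mul_cancel₀ hN.ne', one_smul]

variable (D) in
/-- every point of the cone lies in the chamber of a generic lattice point -/
theorem cover {x : ι → ℝ} (hx : x ∈ Cone d) :
    ∃ a₀ : J → ℤ, 0 ≤ a₀ ∧ D.Gen (deg ℤ d a₀) ∧ x ∈ D.Ch (deg ℤ d a₀) := by
  classical
  obtain ⟨a, ha, rfl⟩ := hx
  have hN : (0 : ℝ) < D.N := by exact_mod_cast D.N_pos
  let φ : Bs d → J → (J → ℝ) →ₗ[ℝ] ℝ := fun B b =>
    LinearMap.proj b ∘ₗ D.crd ℝ B ∘ₗ deg ℝ d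
  have hφ : ∀ B b u, φ B b u = D.crd ℝ B (deg ℝ d u) b := fun _ _ _ => rfl
  have hc : ∀ B b, Continuous (φ B b) := fun B b => (φ B b).continuous_of_finiteDimensional
  let U : Set (J → ℝ) := (⋂ j, {u | 0 < u j}) ∩
    ⋂ p : {p : Bs d × J // φ p.1 p.2 a ≠ 0}, {u | 0 < φ p.1.1 p.1.2 u * φ p.1.1 p.1.2 a}
  let V : Set (J → ℝ) := ⋂ p : {p : Bs d × J // p.2 ∈ p.1.1}, {u | φ p.1.1 p.1.2 u ≠ 0}
  have hU : IsOpen U :=
    (isOpen_iInter_of_finite fun j => isOpen_lt continuous_const (continuous_apply j)).inter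
      (isOpen_iInter_of_finite fun p => isOpen_lt continuous_const ((hc _ _).mul continuous_const))
  have hV1 : ∀ p : {p : Bs d × J // p.2 ∈ p.1.1}, IsOpen {u | φ p.1.1 p.1.2 u ≠ 0} := fun p =>
    isOpen_ne_fun (hc _ _) continuous_const
  have hV : IsOpen V := isOpen_iInter_of_finite hV1
  have hVd : Dense V := by
    refine dense_iInter_of_isOpen hV1 fun p => ?_
    have h1 : interior (LinearMap.ker (φ p.1.1 p.1.2) : Set (J → ℝ)) = ∅ := by
      by_contra h
      have h2 := Submodule.eq_top_of_nonempty_interior' _ (Set.nonempty_iff_ne_empty.2 h)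
      have h3 : φ p.1.1 p.1.2 (Pi.single p.1.2 1) = 0 := by
        rw [← LinearMap.mem_ker, h2]
        trivial
      rw [hφ, D.crd_deg _ fun j hj => Pi.single_eq_of_ne (fun e : j = p.1.2 => hj (e ▸ p.2)) _]
        at h3
      simp [D.N_pos.ne'] at h3
    exact interior_eq_empty_iff_dense_compl.1 h1
  have hUn : U.Nonempty := by
    have h1 : Tendsto (fun t : ℝ => a + fun _ => t) (𝓝 0) (𝓝 (a + fun _ => 0)) :=
      Continuous.tendsto (by fun_prop) _
    have h2 : (a + fun _ => 0) = a := by ext; simp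
    rw [h2] at h1
    have h3 : ∀ᶠ t : ℝ in 𝓝[>] 0, (a + fun _ => t) ∈ U := by
      have h4 := h1.eventually ((isOpen_iInter_of_finite
        fun p : {p : Bs d × J // φ p.1 p.2 a ≠ 0} => isOpen_lt (continuous_const (y := (0 : ℝ)))
          ((hc p.1.1 p.1.2).mul (continuous_const (y := φ p.1.1 p.1.2 a)))).mem_nhds
            (Set.mem_iInter.2 fun p => mul_self_pos.2 p.2))
      filter_upwards [self_mem_nhdsWithin, h4.filter_mono nhdsWithin_le_nhds] with t ht h5
      exact ⟨Set.mem_iInter.2 fun j => add_pos_of_nonneg_of_pos (ha j) ht, h5⟩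
    exact ⟨_, h3.exists.choose_spec⟩
  have hq : DenseRange (Pi.map fun (_ : J) (q : ℚ) => (q : ℝ)) :=
    DenseRange.piMap fun _ => Rat.denseRange_cast
  obtain ⟨q, hq1, hq2⟩ := hq.exists_mem_open (hU.inter hV) (hVd.inter_open_nonempty U hU hUn)
  obtain ⟨m, hm, hn⟩ := exists_den q
  choose n hn using hn
  have hm' : (0 : ℝ) < m := by exact_mod_cast hm
  have e : (fun j => (n j : ℝ)) = (m : ℝ) • Pi.map (fun (_ : J) (q : ℚ) => (q : ℝ)) q := by
    ext j
    have := congrArg (fun r : ℚ => (r : ℝ)) (hn j)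
    simpa using this
  have e2 : ∀ B b, (D.crd ℤ B (deg ℤ d n) b : ℝ) =
      m * φ B b (Pi.map (fun (_ : J) (q : ℚ) => (q : ℝ)) q) := by
    intro B b
    rw [D.cast_crd]
    simp only [cast_deg]
    rw [← smul_eq_mul, ← map_smul, ← e]
    rfl
  refine ⟨n, fun j => ?_, fun B b hb h => ?_, ⟨a, rfl⟩, fun B b => ?_⟩
  · have h1 : (0 : ℝ) < q j := Set.mem_iInter.1 hq1.1 j
    have h2 : (n j : ℝ) = m * q j := congrFun e j
    have : (0 : ℝ) ≤ n j := by rw [h2]; positivity
    exact_mod_cast this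
  · have h1 := e2 B b
    rw [h, Int.cast_zero] at h1
    exact mul_ne_zero hm'.ne' (Set.mem_iInter.1 hq2 ⟨(B, b), hb⟩) h1.symm
  · rw [e2, ← hφ, mul_assoc]
    refine mul_nonneg hm'.le ?_
    by_cases h : φ B b a = 0
    · rw [h, mul_zero]
    · exact le_of_lt (Set.mem_iInter.1 hq1.2 ⟨(B, b), h⟩)

variable (D) in
/-- the chambers: sign vectors of generic lattice points of the cone -/
def C : Type _ := {σ : Bs d → J → SignType // ∃ a₀ : J → ℤ, 0 ≤ a₀ ∧ D.Gen (deg ℤ d a₀) ∧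
  ∀ B b, SignType.sign (D.crd ℤ B (deg ℤ d a₀) b) = σ B b}

instance : Finite D.C := by unfold C; infer_instance

/-- exponents of a generic lattice point of the chamber -/
def C.pt (c : D.C) : J → ℤ := c.2.choose

theorem C.pt_nonneg (c : D.C) : 0 ≤ c.pt := c.2.choose_spec.1

theorem C.gen (c : D.C) : D.Gen (deg ℤ d c.pt) := c.2.choose_spec.2.1

theorem C.sign (c : D.C) (B : Bs d) (b : J) :
    SignType.sign (D.crd ℤ B (deg ℤ d c.pt) b) = c.1 B b := c.2.choose_spec.2.2 B b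

theorem mul_nonneg_of_sign {u v : ℤ} (h : SignType.sign u = SignType.sign v) {r : ℝ}
    (hr : 0 ≤ (u : ℝ) * r) : 0 ≤ (v : ℝ) * r := by
  rcases lt_trichotomy u 0 with hu | hu | hu
  · rw [sign_neg hu, eq_comm, sign_eq_neg_one_iff] at h
    have h1 : (u : ℝ) < 0 := by exact_mod_cast hu
    have h2 : (v : ℝ) < 0 := by exact_mod_cast h
    exact mul_nonneg_of_nonpos_of_nonpos h2.le (by nlinarith)
  · rw [hu, sign_zero, eq_comm, sign_eq_zero_iff] at h
    simp [h]
  · rw [sign_pos hu, eq_comm, sign_eq_one_iff] at h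
    have h1 : (0 : ℝ) < u := by exact_mod_cast hu
    have h2 : (0 : ℝ) < v := by exact_mod_cast h
    exact mul_nonneg h2.le (by nlinarith)

variable (D) in
theorem cover' {x : ι → ℝ} (hx : x ∈ Cone d) : ∃ c : D.C, x ∈ D.Ch (deg ℤ d c.pt) := by
  obtain ⟨a₀, h1, h2, h3⟩ := D.cover hx
  let c : D.C := ⟨_, a₀, h1, h2, fun _ _ => rfl⟩
  exact ⟨c, h3.1, fun B b => mul_nonneg_of_sign (c.sign B b).symm (h3.2 B b)⟩

theorem C.eq_of_mem {c c' : D.C}
    (h : (fun i => ((deg ℤ d c'.pt i : ℤ) : ℝ)) ∈ D.Ch (deg ℤ d c.pt)) : c = c' := by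
  refine Subtype.ext (funext fun B => funext fun b => ?_)
  rw [← c.sign, ← c'.sign]
  by_cases hb : b ∈ B.1
  · have h1 := h.2 B b
    rw [← D.cast_crd] at h1
    have h2 : 0 ≤ D.crd ℤ B (deg ℤ d c.pt) b * D.crd ℤ B (deg ℤ d c'.pt) b := by exact_mod_cast h1
    have h3 := c.gen B b hb
    have h4 := c'.gen B b hb
    rcases lt_or_gt_of_ne h3 with h5 | h5 <;> rcases lt_or_gt_of_ne h4 with h6 | h6
    · rw [sign_neg h5, sign_neg h6]
    · nlinarith
    · nlinarith
    · rw [sign_pos h5, sign_pos h6]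
  · rw [D.crd_off B _ hb, D.crd_off B _ hb]

end Dat

end Crest.Agent.X262.FG.Fan
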