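import Crest.Agent.X277.BD.Defs
import Crest.Agent.X262.Cvx.Gr0
import Crest.Agent.X262.FG.Fan76

/-!
# X262/FG/FanB76 (helper76): chambers of a finitely generated ring of b-divisors

If `⊕ H⁰(∑ n i • D i)` is finitely generated, its support is a finitely generated cone which an
arrangement of rational hyperplanes cuts into finitely many chambers; on the chamber `c` the mobile
part of `N • ∑ n i • D i` is `∑ n i • P c i` (`Geo`, `nonempty_geo`).
-/

set_option autoImplicit false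
set_option linter.unusedSectionVars false

noncomputable section

open Finset

namespace Crest.Agent.X262.FG.Fan

open Crest.Agent.X277 Crest.Agent.X277.BD Crest.Agent.X262.Cvx

variable {k F : Type*} [Field k] [Field F] [Algebra k F] {I : Type} [Fintype I]

/-- the value of an integral linear form -/
def ev (h : I → ℤ) (x : I → ℝ) : ℝ := ∑ i, h i * x i

/-- a degree as a real point -/
def rl (n : I → ℕ) : I → ℝ := fun i => n i

theorem ev_add (h : I → ℤ) (x y : I → ℝ) : ev h (x + y) = ev h x + ev h y := by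
  simp [ev, mul_add, sum_add_distrib]

theorem ev_smul (h : I → ℤ) (t : ℝ) (x : I → ℝ) : ev h (t • x) = t * ev h x := by
  simp [ev, mul_sum, mul_left_comm]

theorem rl_add (n m : I → ℕ) : rl (n + m) = rl n + rl m := by ext; simp [rl]

theorem rl_smul (m : ℕ) (n : I → ℕ) : rl (m • n) = (m : ℝ) • rl n := by ext; simp [rl]

/-- a cone with an arrangement of hyperplanes and points in its chambers -/
structure Arr (I : Type) where
  /-- generators of the cone -/
  J : Type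
  [finJ : Fintype J]
  d : J → I → ℕ
  /-- the hyperplanes -/
  H : Type
  [finH : Fintype H]
  h : H → I → ℤ
  /-- the chambers -/
  C : Type
  [finC : Fintype C]
  a : C → J → ℕ

attribute [instance] Arr.finJ Arr.finH Arr.finC

namespace Arr

variable (A : Arr I)

/-- the cone -/
def Supp : Set (I → ℝ) := {x | ∃ t : A.J → ℝ, 0 ≤ t ∧ ∑ j, t j • rl (A.d j) = x}

/-- the linear span of the cone -/
def Sp : Submodule ℝ (I → ℝ) := Submodule.span ℝ (Set.range fun j => rl (A.d j))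

/-- the interior lattice point of a chamber -/
def pt (c : A.C) : I → ℕ := ∑ j, A.a c j • A.d j

/-- the closed chamber -/
def Ch (c : A.C) : Set (I → ℝ) :=
  {x | x ∈ A.Sp ∧ ∀ l, 0 ≤ ev (A.h l) (rl (A.pt c)) * ev (A.h l) x}

/-- the relative interior of the chamber -/
def Int (c : A.C) : Set (I → ℝ) :=
  {x | x ∈ A.Sp ∧ ∀ l, 0 < ev (A.h l) (rl (A.pt c)) * ev (A.h l) x}

variable {A}

theorem mem_sp {x : I → ℝ} : x ∈ A.Sp ↔ ∃ t : A.J → ℝ, ∑ j, t j • rl (A.d j) = x :=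
  Submodule.mem_span_range_iff_exists_fun ℝ

theorem supp_sp {x : I → ℝ} (h : x ∈ A.Supp) : x ∈ A.Sp := by
  obtain ⟨t, -, h⟩ := h
  exact mem_sp.2 ⟨t, h⟩

theorem rl_sum_mem (a : A.J → ℕ) : rl (∑ j, a j • A.d j) ∈ A.Supp :=
  ⟨fun j => a j, fun j => Nat.cast_nonneg _, by ext i; simp [rl, Finset.sum_apply]⟩

theorem supp_nonneg {x : I → ℝ} (h : x ∈ A.Supp) : 0 ≤ x := by
  obtain ⟨t, ht, rfl⟩ := h
  exact sum_nonneg fun j _ => smul_nonneg (ht j) fun i => Nat.cast_nonneg _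

theorem supp_add {x y : I → ℝ} (hx : x ∈ A.Supp) (hy : y ∈ A.Supp) : x + y ∈ A.Supp := by
  obtain ⟨t, ht, rfl⟩ := hx
  obtain ⟨s, hs, rfl⟩ := hy
  exact ⟨t + s, add_nonneg ht hs, by simp [add_smul, sum_add_distrib]⟩

theorem supp_smul {x : I → ℝ} (hx : x ∈ A.Supp) {r : ℝ} (hr : 0 ≤ r) : r • x ∈ A.Supp := by
  obtain ⟨t, ht, rfl⟩ := hx
  exact ⟨r • t, smul_nonneg hr ht, by simp [smul_sum, smul_smul]⟩

variable {c : A.C} {x y : I → ℝ}

theorem int_ch (h : x ∈ A.Int c) : x ∈ A.Ch c := ⟨h.1, fun l => (h.2 l).le⟩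

theorem zero_ch (c : A.C) : 0 ∈ A.Ch c := ⟨zero_mem _, fun l => by simp [ev]⟩

theorem ch_add (hx : x ∈ A.Ch c) (hy : y ∈ A.Ch c) : x + y ∈ A.Ch c :=
  ⟨add_mem hx.1 hy.1, fun l => by rw [ev_add, mul_add]; exact add_nonneg (hx.2 l) (hy.2 l)⟩

theorem ch_smul (hx : x ∈ A.Ch c) {r : ℝ} (hr : 0 ≤ r) : r • x ∈ A.Ch c :=
  ⟨Submodule.smul_mem _ _ hx.1, fun l => by
    rw [ev_smul, mul_left_comm]; exact mul_nonneg hr (hx.2 l)⟩

theorem int_add (hx : x ∈ A.Int c) (hy : y ∈ A.Ch c) : x + y ∈ A.Int c :=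
  ⟨add_mem hx.1 hy.1, fun l => by
    rw [ev_add, mul_add]; exact add_pos_of_pos_of_nonneg (hx.2 l) (hy.2 l)⟩

theorem int_smul (hx : x ∈ A.Int c) {r : ℝ} (hr : 0 < r) : r • x ∈ A.Int c :=
  ⟨Submodule.smul_mem _ _ hx.1, fun l => by
    rw [ev_smul, mul_left_comm]; exact mul_pos hr (hx.2 l)⟩

theorem pt_ch (c : A.C) : rl (A.pt c) ∈ A.Ch c :=
  ⟨supp_sp (rl_sum_mem _), fun _ => mul_self_nonneg _⟩

/-- interior points absorb every point of the span -/
theorem exists_add (hx : x ∈ A.Int c) (hy : y ∈ A.Sp) :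
    ∃ m₀ : ℕ, ∀ m : ℕ, m₀ ≤ m → (m : ℝ) • x + y ∈ A.Int c := by
  have h1 : ∀ᶠ m : ℕ in Filter.atTop, ∀ l,
      0 < ev (A.h l) (rl (A.pt c)) * ev (A.h l) ((m : ℝ) • x + y) := by
    rw [Filter.eventually_all]
    intro l
    filter_upwards [(tendsto_natCast_atTop_atTop.atTop_mul_const (hx.2 l)).eventually_gt_atTop
      (-(ev (A.h l) (rl (A.pt c)) * ev (A.h l) y))] with m hm
    rw [ev_add, ev_smul]
    linarith
  obtain ⟨m₀, h⟩ := Filter.eventually_atTop.1 h1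
  exact ⟨m₀, fun m hm => ⟨add_mem (Submodule.smul_mem _ _ hx.1) hy, h m hm⟩⟩

theorem continuous_ev (h : I → ℤ) : Continuous (ev h) := by
  unfold ev
  fun_prop

theorem isClosed_ch (c : A.C) : IsClosed (A.Ch c) := by
  have : A.Ch c = (A.Sp : Set (I → ℝ)) ∩
      ⋂ l, {x | 0 ≤ ev (A.h l) (rl (A.pt c)) * ev (A.h l) x} := by
    ext x
    simp [Ch]
  rw [this]
  exact A.Sp.closed_of_finiteDimensional.inter (isClosed_iInter fun l =>
    isClosed_le continuous_const (continuous_const.mul (continuous_ev _)))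

theorem isOpen_int (h : A.Sp = ⊤) (c : A.C) : IsOpen (A.Int c) := by
  have : A.Int c = ⋂ l, {x | 0 < ev (A.h l) (rl (A.pt c)) * ev (A.h l) x} := by
    ext x
    simp [Int, h]
  rw [this]
  exact isOpen_iInter_of_finite fun l =>
    isOpen_lt continuous_const (continuous_const.mul (continuous_ev _))

theorem convex_ch (c : A.C) : Convex ℝ (A.Ch c) := fun _ hx _ hy _ _ ha hb _ =>
  ch_add (ch_smul hx ha) (ch_smul hy hb)

end Arr

/-- the chamber decomposition of the ring of the family `D` -/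
structure Geo (D : I → BD k F) extends Arr I where
  /-- the index of the Veronese subring -/
  N : ℕ
  N_pos : 0 < N
  /-- the mobile part on a chamber -/
  P : C → I → BD k F
  d_ne : ∀ j, d j ≠ 0
  eff : ∀ j, ∃ f ∈ (∑ i, d j i • D i).Sec, f ≠ 0
  supp : ∀ n : I → ℕ, (∃ f ∈ (∑ i, n i • D i).Sec, f ≠ 0) → ∃ a : J → ℕ, ∑ j, a j • d j = n
  gen : ∀ c l, ev (h l) (rl (toArr.pt c)) ≠ 0
  cover : ∀ x ∈ toArr.Supp, ∃ c, x ∈ toArr.Ch c
  sub : ∀ c, toArr.Ch c ⊆ toArr.Supp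
  inj : ∀ c c', rl (toArr.pt c') ∈ toArr.Ch c → c = c'
  Sec_le : ∀ c (n : I → ℕ), (N • ∑ i, n i • D i).Sec ≤ (∑ i, n i • P c i).Sec
  free : ∀ c (n : I → ℕ), rl n ∈ toArr.Ch c → Free (∑ i, n i • P c i)
  le : ∀ c (n : I → ℕ), rl n ∈ toArr.Ch c → ∑ i, n i • P c i ≤ N • ∑ i, n i • D i

theorem sum_smul_sum {J : Type*} [Fintype J] (D : I → BD k F) (a : J → ℕ) (d : J → I → ℕ) :
    ∑ i, (∑ j, a j • d j) i • D i = ∑ j, a j • ∑ i, d j i • D i := by
  simp only [Finset.sum_apply, Pi.smul_apply, smul_eq_mul, sum_smul, smul_sum, smul_smul]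
  exact sum_comm

theorem sum_nsmul_smul (D : I → BD k F) (m : ℕ) (n : I → ℕ) :
    ∑ i, (m • n) i • D i = m • ∑ i, n i • D i := by
  simp only [Pi.smul_apply, smul_eq_mul, smul_sum, smul_smul]

/-- generators of non-zero degree -/
theorem exists_gen {D : I → BD k F} (hD : Gr.FG (fun n : I → ℕ => (∑ i, n i • D i).Sec) ⊤) :
    ∃ (J : Type) (_ : Fintype J) (d : J → I → ℕ) (f : J → F),
      (∀ j, d j ≠ 0 ∧ f j ≠ 0 ∧ f j ∈ (∑ i, d j i • D i).Sec) ∧
      ∀ (n : I → ℕ), ∀ g ∈ (∑ i, n i • D i).Sec, ∀ (V : RZ k F) (γ : V.1.ValueGroup),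
        (∀ a : J → ℕ, ∑ j, a j • d j = n → ∏ j, V.v (f j) ^ a j ≤ γ) → V.v g ≤ γ := by
  classical
  obtain ⟨r, d, f, h1, h2⟩ := hD
  let p : Fin r → Prop := fun j => d j ≠ 0 ∧ f j ≠ 0
  refine ⟨{j // p j}, inferInstance, fun j => d j, fun j => f j,
    fun j => ⟨j.2.1, j.2.2, (h1 j).2⟩, fun n g hg V γ h => ?_⟩
  refine RZ.v_le_of_span ?_ (h2 n trivial hg)
  rintro _ ⟨a, ha, rfl⟩
  by_cases h0 : ∃ j, f j = 0 ∧ a j ≠ 0
  · obtain ⟨j, hj, hj'⟩ := h0
    rw [prod_eq_zero (mem_univ j) (by rw [hj, zero_pow hj']), map_zero]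
    exact zero_le
  push Not at h0
  refine le_trans ?_ (h (fun j => a j) ?_)
  · rw [map_prod, ← Fintype.prod_subtype_mul_prod_subtype p]
    simp only [map_pow]
    refine mul_le_of_le_one_right' (prod_le_one' fun j _ => ?_)
    by_cases hf : f j = 0
    · rw [h0 j hf, pow_zero]
    · have hd : d j = 0 := by
        by_contra hd
        exact j.2 ⟨hd, hf⟩
      have := (h1 j).2 V
      rw [hd] at this
      exact pow_le_one' (by simpa using this) _
  · rw [← ha, ← Fintype.sum_subtype_add_sum_subtype p fun j => a j • d j, left_eq_add]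
    refine sum_eq_zero fun j _ => ?_
    by_cases hf : f j = 0
    · rw [h0 j hf, zero_smul]
    · have hd : d j = 0 := by
        by_contra hd
        exact j.2 ⟨hd, hf⟩
      rw [hd, smul_zero]

section Cons

variable {J : Type} [Fintype J] {d : J → I → ℤ} (T : Dat d) {f : J → F} (hf : ∀ j, f j ≠ 0)

/-- the values of the generators -/
def uv (V : RZ k F) (j : J) : (V.1.ValueGroup)ˣ := Units.mk0 (V.v (f j)) (RZ.ne_zero_iff.2 (hf j))

theorem exists_bs (hd : Pt d) (c : T.C) (V : RZ k F) : ∃ B : Bs d, T.Good (deg ℤ d c.pt) B ∧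
    ∀ a : J → ℤ, 0 ≤ a →
      (∏ j, uv hf V j ^ a j) ^ T.N ≤ ∏ b, uv hf V b ^ T.crd ℤ B (deg ℤ d a) b := by
  obtain ⟨B, h1, h2⟩ := T.lp_int hd (fun j => Additive.ofMul (uv hf V j)) c.pt_nonneg c.gen
  refine ⟨B, h1, fun a ha => ?_⟩
  have := Additive.toMul_le.2 (h2 a ha)
  simpa only [toMul_nsmul, toMul_sum, toMul_zsmul, toMul_ofMul] using this

variable (hd : Pt d) (c : T.C)

/-- the extremal value in degree `N x` -/
def del (x : I → ℤ) : Fm k F := fun V =>
  ∏ b, uv hf V b ^ T.crd ℤ (exists_bs T hf hd c V).choose x b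

theorem del_add (x y : I → ℤ) :
    del (k := k) T hf hd c (x + y) = del T hf hd c x * del T hf hd c y := by
  ext V
  simp only [del, map_add, Pi.add_apply, zpow_add, prod_mul_distrib, Pi.mul_apply]

/-- `del` as a homomorphism -/
def delH : (I → ℤ) →+ Additive (Fm k F) :=
  AddMonoidHom.mk' (fun x => Additive.ofMul (del T hf hd c x)) fun x y => by
    rw [del_add, ofMul_mul]

theorem del_nsmul (m : ℕ) (x : I → ℤ) :
    del (k := k) T hf hd c (m • x) = del T hf hd c x ^ m :=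
  congrArg Additive.toMul (map_nsmul (delH (k := k) T hf hd c) m x)

theorem le_del {a : J → ℤ} (ha : 0 ≤ a) {x : I → ℤ} (h : deg ℤ d a = T.N • x) (V : RZ k F) :
    ∏ j, uv hf V j ^ a j ≤ del T hf hd c x V := by
  have h1 : _ ≤ del T hf hd c (deg ℤ d a) V := (exists_bs T hf hd c V).choose_spec.2 a ha
  rw [h, del_nsmul, Pi.pow_apply] at h1
  exact le_of_pow_le_pow_left' T.N_pos.ne' h1

theorem v_mon (V : RZ k F) (a : J → ℕ) :
    V.v (∏ j, f j ^ a j) = (∏ j, uv hf V j ^ (a j : ℤ) : (V.1.ValueGroup)ˣ) := by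
  simp [uv]

/-- on the chamber `del` is generated by monomials -/
theorem exists_mon {x : I → ℤ} (hx : (fun i => (x i : ℝ)) ∈ T.Ch (deg ℤ d c.pt)) :
    ∃ s : Finset (J → ℕ), (∀ a ∈ s, deg ℤ d (fun j => a j) = T.N • x) ∧
      ∀ V : RZ k F, ∃ a ∈ s, V.v (∏ j, f j ^ a j) = del T hf hd c x V := by
  classical
  have e : ∀ B, T.Good (deg ℤ d c.pt) B → ∀ j, ((T.crd ℤ B x j).toNat : ℤ) = T.crd ℤ B x j :=
    fun B hB j => Int.toNat_of_nonneg (hB.nonneg_int hx j)
  refine ⟨(univ.filter (T.Good (deg ℤ d c.pt))).image fun B j => (T.crd ℤ B x j).toNat,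
    fun a ha => ?_, fun V => ?_⟩
  · obtain ⟨B, hB, rfl⟩ := mem_image.1 ha
    simp only [e B (mem_filter.1 hB).2]
    rw [← natCast_zsmul]
    exact Dat.deg_crd_int B hx.1
  · have hB := (exists_bs T hf hd c V).choose_spec.1
    refine ⟨_, mem_image_of_mem _ (mem_filter.2 ⟨mem_univ _, hB⟩), ?_⟩
    rw [v_mon hf]
    simp only [e _ hB]
    rfl

theorem freeF_del {x : I → ℤ} (hx : (fun i => (x i : ℝ)) ∈ T.Ch (deg ℤ d c.pt)) :
    FreeF (del (k := k) T hf hd c x) := by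
  classical
  obtain ⟨s, h1, h2⟩ := exists_mon (k := k) T hf hd c hx
  refine ⟨s.image fun a => ∏ j, f j ^ a j, fun g hg V => ?_, fun V => ?_⟩
  · obtain ⟨a, ha, rfl⟩ := mem_image.1 hg
    rw [v_mon hf]
    exact Units.val_le_val.2 (le_del T hf hd c (fun j => Int.natCast_nonneg _) (h1 a ha) V)
  · obtain ⟨a, ha, h⟩ := h2 V
    exact ⟨_, mem_image_of_mem _ ha, h⟩

theorem del_mem {x : I → ℤ} (hx : (fun i => (x i : ℝ)) ∈ LinearMap.range (deg ℝ d)) :
    del T hf hd c x ∈ Car k F := by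
  obtain ⟨m, hm⟩ := c.gen.exists_add (Dat.cast_deg_mem _) hx
  refine ⟨del T hf hd c (m • deg ℤ d c.pt + x), del T hf hd c (m • deg ℤ d c.pt),
    freeF_del T hf hd c ?_, freeF_del T hf hd c ?_, by rw [del_add, mul_comm]⟩
  · convert hm using 1
    ext i
    simp
  · convert Dat.smul_mem_ch (Dat.self_mem_ch (D := T) c.pt) (Nat.cast_nonneg m) using 1
    ext i
    simp

theorem Q_mem (B : Bs d) (i : I) : (fun i' => (T.Q i i' : ℝ)) ∈ LinearMap.range (deg ℝ d) :=
  ⟨_, (T.Q_eq B i).symm⟩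

/-- the mobile parts -/
def mob (i : I) : BD k F := Additive.ofMul (α := Car k F)
  ⟨del T hf hd c (T.Q i), del_mem T hf hd c (Q_mem T (exists_bs T hf hd c (RZ.top k F)).choose i)⟩

theorem val_mob {n : I → ℕ} (hn : (fun i => (n i : ℝ)) ∈ LinearMap.range (deg ℝ d)) (V : RZ k F) :
    (∑ i, n i • mob T hf hd c i).val V = del T hf hd c (T.N • fun i => (n i : ℤ)) V := by
  have e : (T.N • fun i => (n i : ℤ)) = ∑ i, n i • T.Q i := by
    ext i'
    obtain ⟨a, ha⟩ := hn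
    have h := T.sum_deg_Q a i'
    rw [ha] at h
    have : (((T.N • fun i => (n i : ℤ)) i' : ℤ) : ℝ) = ((∑ i, n i • T.Q i) i' : ℤ) := by
      simp [Finset.sum_apply, h]
    exact_mod_cast this
  have h := congrArg Additive.toMul (map_sum (delH (k := k) T hf hd c) (fun i => n i • T.Q i) univ)
  simp only [map_nsmul, toMul_sum, toMul_nsmul] at h
  rw [e, val_sum]
  have h' : del T hf hd c (∑ i, n i • T.Q i) = ∏ i, del (k := k) T hf hd c (T.Q i) ^ n i := h
  rw [h', Finset.prod_apply, Units.coe_prod]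
  refine prod_congr rfl fun i _ => ?_
  rw [val_nsmul, Pi.pow_apply, Units.val_pow_eq_pow_val]
  rfl

end Cons

/-- **the fan lemma** -/
theorem nonempty_geo {D : I → BD k F} (hD : Gr.FG (fun n : I → ℕ => (∑ i, n i • D i).Sec) ⊤) :
    Nonempty (Geo D) := by
  classical
  obtain ⟨J, _, d, f, h1, h2⟩ := exists_gen hD
  let z : J → I → ℤ := fun j i => d j i
  have hd : Pt z := pt_of_nonneg (fun j i => Int.natCast_nonneg _) fun j h => (h1 j).1 (by
    ext i
    exact Int.natCast_eq_zero.1 (congrFun h i))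
  have hf : ∀ j, f j ≠ 0 := fun j => (h1 j).2.1
  obtain ⟨T⟩ := nonempty_dat z
  have := Fintype.ofFinite T.C
  let A : Arr I :=
    { J := J, d := d, H := {p : Bs z × J // p.2 ∈ p.1.1}, h := fun p => T.T p.1.1 p.1.2,
      C := T.C, a := fun c j => (c.pt j).toNat }
  have e0 : ∀ t : J → ℝ, ∑ j, t j • rl (d j) = deg ℝ z t := fun t => by
    ext i
    simp [deg_apply, rl, z, Finset.sum_apply]
  have e1 : ∀ a : J → ℕ, deg ℤ z (fun j => a j) = fun i => ((∑ j, a j • d j) i : ℤ) := fun a => by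
    ext i
    simp [deg_apply, z, Finset.sum_apply]
  have e2 : ∀ c : T.C, rl (A.pt c) = fun i => ((deg ℤ z c.pt i : ℤ) : ℝ) := fun c => by
    have : c.pt = fun j => ((c.pt j).toNat : ℤ) :=
      funext fun j => (Int.toNat_of_nonneg (c.pt_nonneg j)).symm
    rw [this, e1]
    ext i
    rw [Int.cast_natCast]
    rfl
  have e3 : ∀ x, x ∈ A.Sp ↔ x ∈ LinearMap.range (deg ℝ z) := fun x => by
    rw [Arr.mem_sp]
    exact exists_congr fun t => by rw [← e0]
  have e4 : ∀ x, x ∈ A.Supp ↔ x ∈ Cone z := fun x =>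
    exists_congr fun t => and_congr_right fun _ => by rw [← e0]
  have e5 : ∀ (c : T.C) (l : A.H),
      ev (A.h l) (rl (A.pt c)) = T.crd ℤ l.1.1 (deg ℤ z c.pt) l.1.2 := fun c l => by
    rw [e2, T.cast_crd]
    rfl
  have e6 : ∀ c x, x ∈ A.Ch c ↔ x ∈ T.Ch (deg ℤ z c.pt) := fun c x => by
    refine and_congr (e3 x) ⟨fun h B b => ?_, fun h l => ?_⟩
    · by_cases hb : b ∈ B.1
      · have := h ⟨(B, b), hb⟩
        rwa [e5] at this
      · simp [T.crd_off B _ hb]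
    · rw [e5]
      exact h l.1.1 l.1.2
  have hs : ∀ n : I → ℕ, (∃ g ∈ (∑ i, n i • D i).Sec, g ≠ 0) →
      ∃ a : J → ℕ, ∑ j, a j • d j = n := by
    rintro n ⟨g, hg, hg0⟩
    by_contra h
    exact (RZ.pos (V := RZ.top k F) hg0).not_ge (h2 n g hg _ 0 fun a ha => absurd ⟨a, ha⟩ h)
  have e7 : ∀ c (n : I → ℕ), rl n ∈ A.Ch c →
      (fun i => (((T.N • fun i => (n i : ℤ)) i : ℤ) : ℝ)) ∈ T.Ch (deg ℤ z c.pt) := fun c n hn => by
    convert Dat.smul_mem_ch ((e6 c _).1 hn) (Nat.cast_nonneg T.N) using 1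
    ext i
    simp [rl]
  refine ⟨{
    toArr := A
    N := T.N * T.N
    N_pos := Nat.mul_pos T.N_pos T.N_pos
    P := fun c => mob T hf hd c
    d_ne := fun j => (h1 j).1
    eff := fun j => ⟨f j, (h1 j).2.2, hf j⟩
    supp := hs
    gen := fun c l => by
      rw [e5]
      exact_mod_cast c.gen l.1.1 l.1.2 l.2
    cover := fun x hx => (T.cover' ((e4 x).1 hx)).imp fun c h => (e6 c x).2 h
    sub := fun c x hx => (e4 x).2 (Dat.ch_subset hd c.pt_nonneg c.gen ((e6 c x).1 hx))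
    inj := fun c c' h => Dat.C.eq_of_mem (by rwa [e6, e2] at h)
    Sec_le := fun c n g hg V => ?_
    free := fun c n hn => ?_
    le := fun c n hn V => ?_ }⟩
  · by_cases hg0 : g = 0
    · simp [hg0]
    rw [← sum_nsmul_smul] at hg
    have hn : rl n ∈ A.Sp := by
      obtain ⟨a, ha⟩ := hs _ ⟨g, hg, hg0⟩
      have h3 : rl (∑ j, a j • d j) ∈ A.Sp := Arr.supp_sp (Arr.rl_sum_mem (A := A) a)
      rw [ha, rl_smul] at h3
      exact (Submodule.smul_mem_iff _ (by exact_mod_cast (Nat.mul_pos T.N_pos T.N_pos).ne')).1 h3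
    rw [val_mob T hf hd c ((e3 _).1 hn)]
    refine h2 _ g hg V _ fun a ha => ?_
    have h3 := v_mon hf V a
    simp only [map_prod, map_pow] at h3
    rw [h3]
    refine Units.val_le_val.2 (le_del T hf hd c (fun j => Int.natCast_nonneg _) ?_ V)
    rw [e1, ha]
    ext i
    simp [mul_assoc]
  · obtain ⟨s, h3, h4⟩ := freeF_del (k := k) T hf hd c (e7 c n hn)
    exact ⟨s, fun g hg V => val_mob T hf hd c ((e3 _).1 hn.1) V ▸ h3 g hg V,
      fun V => val_mob T hf hd c ((e3 _).1 hn.1) V ▸ h4 V⟩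
  · obtain ⟨s, h3, h4⟩ := exists_mon (k := k) T hf hd c (e7 c n hn)
    obtain ⟨a, ha, h5⟩ := h4 V
    rw [val_mob T hf hd c ((e3 _).1 hn.1), ← h5, ← sum_nsmul_smul]
    have h6 : (T.N * T.N) • n = ∑ j, a j • d j := by
      have := h3 a ha
      rw [e1] at this
      ext i
      have h7 : (((∑ j, a j • d j) i : ℕ) : ℤ) = _ := congrFun this i
      have : ((((T.N * T.N) • n) i : ℕ) : ℤ) = ((∑ j, a j • d j) i : ℕ) := by
        rw [h7]
        simp [mul_assoc]
      exact_mod_cast this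
    rw [h6, sum_smul_sum]
    exact prod_mem_Sec univ (fun j _ => pow_mem_Sec (h1 j).2.2 (a j)) V

namespace Geo

variable {D : I → BD k F} (G : Geo D) {c : G.C} {n : I → ℕ}

theorem pt_int (c : G.C) : rl (G.pt c) ∈ G.Int c :=
  ⟨(Arr.pt_ch c).1, fun l => mul_self_pos.2 (G.gen c l)⟩

/-- on the chamber `∑ n i • P c i` is the mobile part -/
theorem Sec_eq (h : rl n ∈ G.Ch c) : (∑ i, n i • G.P c i).Sec = (G.N • ∑ i, n i • D i).Sec :=
  le_antisymm (Sec_mono (G.le c n h)) (G.Sec_le c n)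

/-- the same for all multiples -/
theorem Sec_nsmul (h : rl n ∈ G.Ch c) (m : ℕ) :
    (m • ∑ i, n i • G.P c i).Sec = (m • G.N • ∑ i, n i • D i).Sec := by
  have := G.Sec_eq (n := m • n) (c := c) (rl_smul m n ▸ Arr.ch_smul h (Nat.cast_nonneg m))
  rwa [sum_nsmul_smul, sum_nsmul_smul, smul_comm] at this

/-- concavity: the mobile part is the minimum of the linear functions -/
theorem P_le (h : rl n ∈ G.Ch c) (c' : G.C) : ∑ i, n i • G.P c i ≤ ∑ i, n i • G.P c' i :=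
  (G.free c n h).le_iff.2 (G.Sec_eq h ▸ G.Sec_le c' n)

theorem P_eq {c' : G.C} (h : rl n ∈ G.Ch c) (h' : rl n ∈ G.Ch c') :
    ∑ i, n i • G.P c i = ∑ i, n i • G.P c' i :=
  le_antisymm (G.P_le h c') (G.P_le h' c)

/-- a free divisor below a multiple of `D n` lies below every `P c` -/
theorem free_le {M : BD k F} (hM : Free M) {m : ℕ} (h : M ≤ m • ∑ i, n i • D i) (c : G.C) :
    G.N • M ≤ m • ∑ i, n i • G.P c i := by
  rw [(hM.nsmul _).le_iff, ← sum_nsmul_smul]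
  refine le_trans (Sec_mono ?_) (G.Sec_le c (m • n))
  rw [sum_nsmul_smul]
  exact nsmul_le_nsmul_right h _

/-- the lattice points of the cone are the `ℚ`-effective degrees -/
theorem mem_supp_iff :
    rl n ∈ G.Supp ↔ ∃ m : ℕ, 0 < m ∧ ∃ f ∈ (m • ∑ i, n i • D i).Sec, f ≠ 0 := by
  constructor
  · intro h
    obtain ⟨c, hc⟩ := G.cover _ h
    obtain ⟨f, hf, h0⟩ := (G.free c n hc).exists_ne
    exact ⟨G.N, G.N_pos, f, G.Sec_eq hc ▸ hf, h0⟩
  · rintro ⟨m, hm, hf⟩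
    rw [← sum_nsmul_smul] at hf
    obtain ⟨a, ha⟩ := G.supp _ hf
    have h := Arr.supp_smul (Arr.rl_sum_mem a) (r := (m : ℝ)⁻¹) (by positivity)
    rwa [ha, rl_smul, smul_smul, inv_mul_cancel₀ (by positivity), one_smul] at h

theorem exists_sec (h : rl n ∈ G.Supp) : ∃ f ∈ (G.N • ∑ i, n i • D i).Sec, f ≠ 0 := by
  obtain ⟨c, hc⟩ := G.cover _ h
  obtain ⟨f, hf, h0⟩ := (G.free c n hc).exists_ne
  exact ⟨f, G.Sec_eq hc ▸ hf, h0⟩

theorem nonempty_C : Nonempty G.C :=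
  (G.cover 0 ⟨0, le_rfl, by simp⟩).elim fun c _ => ⟨c⟩

theorem supp_eq : G.Supp = ⋃ c, G.Ch c :=
  Set.Subset.antisymm (fun x hx => Set.mem_iUnion.2 (G.cover x hx)) (Set.iUnion_subset G.sub)

theorem isClosed_supp : IsClosed G.Supp :=
  G.supp_eq ▸ isClosed_iUnion_of_finite Arr.isClosed_ch

/-- the interior of a chamber meets no other chamber -/
theorem eq_of_int {c' : G.C} {x : I → ℝ} (h : x ∈ G.Int c) (h' : x ∈ G.Ch c') : c = c' := by
  refine G.inj c c' ⟨(Arr.pt_ch c').1, fun l => ?_⟩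
  have h1 := h.2 l
  have h2 := h'.2 l
  by_contra h3
  nlinarith [mul_nonneg h1.le h2, sq_nonneg (ev (G.h l) x),
    mul_self_pos.2 (right_ne_zero_of_mul h1.ne')]

/-- two points, the first in the interior: a multiple of the first mobile part minus the second
is free -/
theorem free_sub {n' : I → ℕ} (h : rl n ∈ G.Int c) (h' : rl n' ∈ G.Sp) :
    ∃ m₀ : ℕ, ∀ m, m₀ ≤ m → Free (m • ∑ i, n i • G.P c i - ∑ i, n' i • G.P c i) := by
  obtain ⟨m₀, h1⟩ := Arr.exists_add h (neg_mem h')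
  refine ⟨m₀, fun m hm => ?_⟩
  have h2 := Arr.int_ch (h1 m hm)
  have h3 : ∀ i, n' i ≤ (m • n) i := fun i => by
    have := Arr.supp_nonneg (G.sub c h2) i
    simp only [rl, Pi.zero_apply, Pi.add_apply, Pi.smul_apply, Pi.neg_apply, smul_eq_mul] at this ⊢
    have h4 : (n' i : ℝ) ≤ m * n i := by linarith
    exact_mod_cast h4
  have h4 : rl (m • n - n') = (m : ℝ) • rl n + -rl n' := by
    ext i
    rw [rl, Pi.sub_apply, Nat.cast_sub (h3 i)]
    simp [sub_eq_add_neg, rl]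
  have h5 := G.free c (m • n - n') (h4 ▸ h2)
  convert h5 using 1
  rw [← sum_nsmul_smul, ← sum_sub_distrib]
  refine sum_congr rfl fun i _ => ?_
  rw [Pi.sub_apply, sub_nsmul _ (h3 i), sub_eq_add_neg]

end Geo

end Crest.Agent.X262.FG.Fan
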