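import Crest.Agent.X262.FG.Defs
import Crest.Agent.X262.FG.Fin0
import Crest.Agent.X262.Cvx.Gr1

/-!
# X262/FG/Fin1 (helper5): restricted rings through the residue field

* `Rs v hv π a` : the restrictions of the sections of `a` to the prime divisor `v`;
* `rfg_iff`     : `RFG` is finite generation of the family `Rs`;
* `rfg_of_lin`, `rfg_of_mul`, `fgr_of_lin`, `fgr_of_nsmul` : invariance.
-/

set_option autoImplicit false
set_option linter.unusedSectionVars false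

open WithZero Finset

noncomputable section

namespace Crest.Agent.X262.FG.Fin5

open Crest.Agent.X277 Crest.Agent.X277.BD Crest.Agent.X262.Cvx

variable {F : Type} [Field F] [Algebra ℂ F] {κ κ' : Type} [Fintype κ] [Fintype κ']

theorem lc_eq (D : κ → BD ℂ F) (x : κ → ℕ) : FG.lc D x = lc D x := rfl

theorem mult_Sec : Gr.Mult (fun a : BD ℂ F => a.Sec) ⊤ :=
  ⟨one_mem_Sec, fun _ _ _ _ _ hf _ hg => mul_mem_Sec hf hg⟩

theorem mult_lc (D : κ → BD ℂ F) : Gr.Mult (fun x => (lc D x).Sec) ⊤ :=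
  mult_Sec.comap (lc D) fun _ _ => trivial

theorem lc_lc {Λ : Type*} [AddCommMonoid Λ] (D : κ → Λ) (g : κ' → κ → ℕ) (a : κ' → ℕ) :
    lc D (lc g a) = lc (fun h => lc D (g h)) a := map_lc _ _ _

theorem lc_add {Λ : Type*} [AddCommMonoid Λ] (D D' : κ → Λ) (x : κ → ℕ) :
    lc (fun k => D k + D' k) x = lc D x + lc D' x := by
  simp [lc_apply, sum_add_distrib]

theorem lc_nsmul {Λ : Type*} [AddCommMonoid Λ] (m : ℕ) (D : κ → Λ) (x : κ → ℕ) :
    lc (fun k => m • D k) x = m • lc D x := by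
  simp only [lc_apply, smul_sum]
  exact sum_congr rfl fun k _ => smul_comm _ _ _

theorem lc_pr {f : κ → F} (hf : ∀ k, f k ≠ 0) (x : κ → ℕ) :
    lc (fun k => pr ℂ (f k)) x = pr ℂ (∏ k, f k ^ x k) := by
  rw [pr_prod _ fun k _ => pow_ne_zero _ (hf k), lc_apply]
  exact sum_congr rfl fun k _ => (pr_pow (hf k) _).symm

theorem fg_top_pi : (⊤ : AddSubmonoid (κ → ℕ)).FG :=
  AddSubmonoid.fg_of_subtractive fun _ _ _ _ => trivial

theorem fgr_of_lin {D D' : κ → BD ℂ F} {f : κ → F} (hf : ∀ k, f k ≠ 0)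
    (h : ∀ k, D k = D' k + pr ℂ (f k)) (hD : FGR D') : FGR D := by
  have h0 : ∀ x : κ → ℕ, ∏ k, f k ^ x k ≠ 0 := fun x =>
    prod_ne_zero_iff.2 fun k _ => pow_ne_zero _ (hf k)
  refine (Gr.FG.twist_iff (mult_lc D') (AlgHom.id ℂ F) Function.injective_id
    (fun x => ∏ k, f k ^ x k) (by simp) (fun s _ t _ => by simp [pow_add, prod_mul_distrib])
    (fun x _ => h0 x) fun x _ y => ?_).1 hD
  rw [funext h, lc_eq, lc_add, lc_pr hf, mem_Sec_add_pr (h0 x)]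
  refine ⟨fun hy => ⟨_, hy, mul_div_cancel₀ _ (h0 x)⟩, ?_⟩
  rintro ⟨s, hs, rfl⟩
  rwa [AlgHom.id_apply, mul_div_cancel_left₀ _ (h0 x)]

theorem fgr_of_nsmul {D : κ → BD ℂ F} {m : ℕ} (hm : 0 < m) (h : FGR fun k => m • D k) : FGR D :=
  Gr.FG.of_nsmul (mult_lc D) fg_top_pi hm (h.congr fun x _ => by
    rw [lc_eq, lc_nsmul, lc_eq, map_nsmul])

section Res

variable (v : Valuation F ℤᵐ⁰) (hv : ∀ c : ℂ, v (algebraMap ℂ F c) ≤ 1)

/-- the residue field -/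
def Kv : Type := IsLocalRing.ResidueField (rz v hv).1

instance : Field (Kv v hv) := inferInstanceAs (Field (IsLocalRing.ResidueField _))

/-- the residue map -/
def rv : (rz v hv).1 →+* Kv v hv := IsLocalRing.residue _

instance : Algebra ℂ (Kv v hv) :=
  ((rv v hv).comp ((algebraMap ℂ F).codRestrict (rz v hv).1 (rz v hv).2)).toAlgebra

/-- the place -/
def pv : Pl ℂ F ℂ (Kv v hv) where
  V := rz v hv
  φ := rv v hv
  ker x := by
    rw [← ValuationSubring.valuation_lt_one_iff]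
    exact IsLocalRing.residue_eq_zero_iff x
  ov c := ⟨c, rfl⟩

/-- restriction of a section of `a` -/
def rho (π : F) (a : BD ℂ F) (s : F) : Kv v hv := (pv v hv).r (s * π ^ ord v hv a)

variable {v hv} {π : F} (hπ : v π = exp (-1 : ℤ)) {a a' : BD ℂ F} {s s' : F}
include hπ

theorem v_tw (a : BD ℂ F) (s : F) : v (s * π ^ ord v hv a) = v s / vl v hv a := by
  rw [map_mul, map_zpow₀, hπ, ← exp_zsmul, ← exp_ord, div_eq_mul_inv, ← exp_neg]
  simp

theorem tw_mem (hs : s ∈ a.Sec) : s * π ^ ord v hv a ∈ (pv v hv).V.1 := by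
  change v _ ≤ 1
  rw [v_tw hπ, div_le_one₀ (zero_lt_iff.2 (vl_ne a))]
  exact le_vl hs

theorem rho_eq_zero (hs : s ∈ a.Sec) : rho v hv π a s = 0 ↔ v s < vl v hv a := by
  rw [rho, Pl.r_eq_zero (tw_mem hπ hs), ← div_lt_one₀ (zero_lt_iff.2 (vl_ne a)), ← v_tw hπ,
    ← map_one (pv v hv).V.v, ← map_one v]
  exact v_rz_lt_iff v hv

theorem hom_rho : Gr.Hom (fun a : BD ℂ F => a.Sec) ⊤ (rho v hv π) where
  one := by simp [rho]
  add a _ f hf g hg := by rw [rho, add_mul, Pl.r_add (tw_mem hπ hf) (tw_mem hπ hg), rho, rho]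
  smul a _ c f hf := by
    rw [rho, Algebra.smul_def, mul_assoc, Pl.r_mul ((pv v hv).V.2 c) (tw_mem hπ hf),
      Algebra.smul_def, rho, Pl.r_eq _ ((pv v hv).V.2 c)]
    rfl
  mul a _ a' _ f hf g hg := by
    have h0 : π ≠ 0 := fun h => exp_ne_zero (hπ.symm.trans (by rw [h, map_zero]))
    rw [rho, map_add, zpow_add₀ h0, mul_mul_mul_comm, Pl.r_mul (tw_mem hπ hf) (tw_mem hπ hg),
      rho, rho]

variable (hv) in
/-- the restricted sections -/
def Rs (a : BD ℂ F) : Submodule ℂ (Kv v hv) where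
  carrier := {y | ∃ s ∈ a.Sec, rho v hv π a s = y}
  add_mem' := by
    rintro _ _ ⟨s, hs, rfl⟩ ⟨s', hs', rfl⟩
    exact ⟨_, add_mem hs hs', (hom_rho hπ).add a trivial s hs s' hs'⟩
  zero_mem' := ⟨0, zero_mem _, (hom_rho hπ).zero (s := a) trivial⟩
  smul_mem' := by
    rintro c _ ⟨s, hs, rfl⟩
    exact ⟨_, Submodule.smul_mem _ c hs, (hom_rho hπ).smul a trivial c s hs⟩

theorem mult_Rs : Gr.Mult (Rs hv hπ) ⊤ where
  one := ⟨1, one_mem_Sec, (hom_rho hπ).one⟩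
  mul := by
    rintro a - a' - _ ⟨s, hs, rfl⟩ _ ⟨s', hs', rfl⟩
    exact ⟨_, mul_mem_Sec hs hs', (hom_rho hπ).mul a trivial a' trivial s hs s' hs'⟩

theorem mult_Rs_lc (D : κ → BD ℂ F) : Gr.Mult (fun x => Rs hv hπ (lc D x)) ⊤ :=
  (mult_Rs hπ).comap (lc D) fun _ _ => trivial

theorem hom_lc (D : κ → BD ℂ F) :
    Gr.Hom (fun x => (lc D x).Sec) ⊤ fun x => rho v hv π (lc D x) where
  one := by simpa using (hom_rho hπ).one
  add x _ := (hom_rho hπ).add _ trivial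
  smul x _ := (hom_rho hπ).smul _ trivial
  mul x _ x' _ f hf g hg := by rw [map_add]; exact (hom_rho hπ).mul _ trivial _ trivial f hf g hg

theorem rfg_iff (D : κ → BD ℂ F) : RFG v hv D ↔ Gr.FG (fun x => Rs hv hπ (lc D x)) ⊤ := by
  constructor
  · rintro ⟨N, d, f, hf, h⟩
    have hd : ∀ j, d j ∈ (⊤ : AddSubmonoid (κ → ℕ)) ∧ f j ∈ (lc D (d j)).Sec :=
      fun j => ⟨trivial, hf j⟩
    refine ⟨N, d, fun j => rho v hv π (lc D (d j)) (f j), fun j => ⟨trivial, _, hf j, rfl⟩, ?_⟩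
    rintro x - _ ⟨s, hs, rfl⟩
    obtain ⟨g, hg, h1⟩ := h x s hs
    have hg' : g ∈ (lc D x).Sec := (mult_lc D).Mon_le hd x hg
    have h2 := (rho_eq_zero (hv := hv) hπ (sub_mem hs hg')).2 h1
    rw [(hom_lc hπ D).sub (s := x) trivial hs hg', sub_eq_zero] at h2
    rw [h2]
    exact (hom_lc hπ D).map_Mon (mult_lc D) hd trivial hg
  · intro h
    obtain ⟨N, d, f, hd, h⟩ := h.lift (hom_lc hπ D) (mult_lc D) fun _ _ _ => Iff.rfl
    refine ⟨N, d, f, fun j => (hd j).2, fun x s hs => ?_⟩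
    obtain ⟨g, hg, h1, h2⟩ := h x trivial s hs
    exact ⟨g, hg, (rho_eq_zero hπ h1).1 h2⟩

theorem rfg_of_lin {D D' : κ → BD ℂ F} {f : κ → F} (hf : ∀ k, f k ≠ 0)
    (h : ∀ k, D k = D' k + pr ℂ (f k)) (hD : RFG v hv D) : RFG v hv D' := by
  have h0 : ∀ x : κ → ℕ, ∏ k, f k ^ x k ≠ 0 := fun x =>
    prod_ne_zero_iff.2 fun k _ => pow_ne_zero _ (hf k)
  have h1 : ∀ x : κ → ℕ, ∏ k, f k ^ x k ∈ (lc (fun k => pr ℂ (f k)) x).Sec := fun x => by
    rw [lc_pr hf]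
    exact mem_Sec_pr _
  have H := hom_lc (hv := hv) hπ fun k => pr ℂ (f k)
  rw [rfg_iff hπ] at hD ⊢
  refine (Gr.FG.twist_iff (mult_Rs_lc hπ D') (AlgHom.id ℂ _) Function.injective_id
    (fun x => rho v hv π (lc (fun k => pr ℂ (f k)) x) (∏ k, f k ^ x k)) (by simpa using H.one)
    (fun s _ t _ => ?_) (fun x _ => ?_) fun x _ y => ?_).2 hD
  · rw [← H.mul s trivial t trivial _ (h1 s) _ (h1 t)]
    simp [pow_add, prod_mul_distrib]
  · rw [Ne, rho_eq_zero hπ (h1 x), lc_pr hf, vl_pr (h0 x)]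
    exact lt_irrefl _
  · have h2 : ∀ s ∈ (lc D' x).Sec, rho v hv π (lc D x) ((∏ k, f k ^ x k) * s) =
        rho v hv π (lc (fun k => pr ℂ (f k)) x) (∏ k, f k ^ x k) * rho v hv π (lc D' x) s := by
      intro s hs
      rw [funext h, lc_add, add_comm]
      exact (hom_rho hπ).mul _ trivial _ trivial _ (h1 x) s hs
    have h3 : ∀ s, s ∈ (lc D x).Sec ↔ s / ∏ k, f k ^ x k ∈ (lc D' x).Sec := fun s => by
      rw [funext h, lc_add, lc_pr hf, mem_Sec_add_pr (h0 x)]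
    constructor
    · rintro ⟨s, hs, rfl⟩
      refine ⟨_, ⟨_, (h3 s).1 hs, rfl⟩, ?_⟩
      rw [AlgHom.id_apply, ← h2 _ ((h3 s).1 hs), mul_div_cancel₀ _ (h0 x)]
    · rintro ⟨_, ⟨s, hs, rfl⟩, rfl⟩
      exact ⟨_, (h3 _).2 (by rwa [mul_div_cancel_left₀ _ (h0 x)]), h2 s hs⟩

theorem rfg_of_mul {D : κ → BD ℂ F} {m : κ → ℕ} (hm : ∀ k, 0 < m k)
    (hD : RFG v hv fun k => m k • D k) : RFG v hv D := by
  classical
  rw [rfg_iff hπ] at hD ⊢
  refine Gr.FG.of_veronese_comap (mult_Rs_lc hπ D) fg_top_pi (lc fun k => Pi.single k (m k))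
    (T := ⊤) (fun _ _ => trivial) (fun x _ => ?_) (hD.congr fun x _ => ?_)
  · refine ⟨∏ k, m k, prod_pos fun k _ => hm k, fun k => (∏ l ∈ univ.erase k, m l) * x k, trivial,
      funext fun k => ?_⟩
    rw [lc_pi, sum_eq_single k, Pi.single_eq_same, Pi.smul_apply, smul_eq_mul,
      ← mul_prod_erase _ _ (mem_univ k)]
    · ring
    · intro l _ hl
      rw [Pi.single_eq_of_ne hl.symm, mul_zero]
    · simp
  · rw [lc_lc]
    refine congrArg (fun D' => Rs hv hπ (lc D' x)) (funext fun k => ?_)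
    rw [← lc_single D k, ← map_nsmul, ← Pi.single_smul', smul_eq_mul, mul_one]

end Res

end Crest.Agent.X262.FG.Fin5
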