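import Crest.Agent.X262.FG.Basic
import Crest.Agent.X262.FG.Fin1
import Crest.Agent.X277.BD.Mdl

/-!
# X262/FG/Fin2 (helper5): Cascini–Lazić, Theorem 6.3, step 1

`chop` : a klt system whose members have sections with divisors on the boundary has a finitely
generated ring, provided the restricted rings are finitely generated.
-/

set_option autoImplicit false
set_option linter.unusedSectionVars false

open WithZero Finset
open scoped KaehlerDifferential

noncomputable section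

namespace Crest.Agent.X262.FG.Fin5

open Crest.Agent.X277 Crest.Agent.X277.Lef Crest.Agent.X277.AN.G1 Crest.Agent.X277.BD
open Crest.Agent.X277.BD.Br (At oP kP)
open Crest.Agent.X277.Res.Log (Bd)
open Crest.Agent.X262.Cvx

variable {F : Type} [Field F] [Algebra ℂ F] {P : PModel ℂ F} {n : ℕ} {κ : Type} [Fintype κ]

/-- the boundary divisor with natural coefficients -/
def dN (B : Bd P n) : (B.ι → ℕ) →+ BD ℂ F where
  toFun s := dvs B fun e => s e
  map_zero' := dvs_zero B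
  map_add' s t := by
    rw [← dvs_add]
    congr 1

theorem dN_apply (B : Bd P n) (s : B.ι → ℕ) : dN B s = dvs B fun e => s e := rfl

variable {B : Bd P n} (b : Module.Basis (Fin n) F Ω[F⁄ℂ]) (S : Sys B κ)

/-- the boundaries with natural coefficients -/
def cN (k : κ) (e : B.ι) : ℕ := (S.c k e).toNat

theorem cast_cN (k : κ) (e : B.ι) : (cN S k e : ℤ) = S.c k e := Int.toNat_of_nonneg (S.c_nonneg k e)

theorem cast_lc (x : κ → ℕ) (e : B.ι) : (lc (cN S) x e : ℤ) = (∑ k, x k • S.c k) e := by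
  simp [lc_pi, cast_cN, Finset.sum_apply]

/-- the system of the points `t h` of the cone -/
def sysT {l N : ℕ} (hN : 0 < N) (t : Fin l → (κ → ℕ) × (B.ι → ℕ)) (ht : ∀ h, t h ∈ T S.r (cN S))
    (hs : ∀ h, ∑ k, (t h).1 k = N) : Sys B (Fin l) where
  r := N * S.r
  r_pos := Nat.mul_pos hN S.r_pos
  A h := FG.lc S.A (t h).1
  amp h := Amp.lc S.amp fun h0 => hN.ne (by rw [← hs h, h0]; simp)
  c h e := ((t h).2 e + lc (cN S) (t h).1 e : ℕ)
  c_nonneg _ _ := Int.natCast_nonneg _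
  c_le h e := by
    have h1 : (t h).2 e + lc (cN S) (t h).1 e ≤ S.r * ∑ k, (t h).1 k := ht h e
    rw [hs h, mul_comm] at h1
    exact_mod_cast h1

theorem sysT_D {l N : ℕ} (hN : 0 < N) (t : Fin l → (κ → ℕ) × (B.ι → ℕ))
    (ht : ∀ h, t h ∈ T S.r (cN S)) (hs : ∀ h, ∑ k, (t h).1 k = N) (h : Fin l) :
    (sysT S hN t ht hs).D b h = FG.lc (S.D b) (t h).1 + dN B (t h).2 := by
  rw [Sys.lc_D, hs h, add_assoc _ (dvs B _), dN_apply, ← dvs_add]
  change (N * S.r) • kP P b + FG.lc S.A (t h).1 + dvs B _ = _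
  congr 2
  funext e
  change (((t h).2 e + lc (cN S) (t h).1 e : ℕ) : ℤ) = _
  rw [Nat.cast_add, cast_lc, add_comm]
  rfl

variable {S} {φ : κ → B.ι → ℕ} {f : κ → F}

theorem res_gen (hR : RStmt n) (hf : ∀ k, f k ≠ 0) (h : ∀ k, S.D b k = dN B (φ k) + pr ℂ (f k))
    (j : B.ι) : ∃ (N : ℕ) (d : Fin N → B.ι → ℕ) (g : Fin N → F), (∀ i, g i ∈ (dN B (d i)).Sec) ∧
      ∀ s ∈ Cj S.r (cN S) φ j, ∀ x ∈ (dN B s).Sec, ∃ y ∈ Gr.Mon ℂ d g s,
        B.v j (x - y) < vl (B.v j) (triv B j) (dN B s) := by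
  obtain ⟨l, N, g, m, t, hN, h1, h2⟩ := exists_gen S.r (cN S) φ j
  obtain ⟨x₀, hx₀⟩ := B.ne j
  have hπ := B.unif j x₀ hx₀
  have h3 := hR F P B b (Fin l) (sysT S hN t (fun h => (h2 h).2.1.1) fun h => (h2 h).2.2.2) j
    fun h => by
      have h4 : (t h).2 j + lc (cN S) (t h).1 j = S.r * ∑ k, (t h).1 k := (h2 h).2.1.2
      change (((t h).2 j + lc (cN S) (t h).1 j : ℕ) : ℤ) = (N * S.r : ℕ)
      rw [h4, (h2 h).2.2.2, mul_comm]
  have h4 : RFG (B.v j) (triv B j) fun h => dN B (g h) := by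
    refine rfg_of_mul hπ (fun h => (h2 h).1) (rfg_of_lin hπ (f := fun h => ∏ k, f k ^ (t h).1 k)
      (fun h => prod_ne_zero_iff.2 fun k _ => pow_ne_zero _ (hf k)) (fun i => ?_) h3)
    rw [sysT_D, funext h, lc_eq, lc_add, lc_pr hf, ← map_lc, ← map_nsmul, ← (h2 i).2.2.1,
      prj_apply, map_add, add_right_comm]
  obtain ⟨M, d, y, h5, h6⟩ := h4
  refine ⟨M, fun i => lc g (d i), y, fun i => by rw [map_lc]; exact h5 i, fun s hs x hx => ?_⟩
  obtain ⟨a, rfl⟩ := h1 s hs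
  rw [map_lc] at hx ⊢
  obtain ⟨z, hz, h7⟩ := h6 a x hx
  refine ⟨z, Gr.Mon_le (fun u hu => Gr.mono_mem_Mon _ _ u ?_) hz, h7⟩
  rw [← hu, map_sum]
  simp only [map_nsmul]

/-- **step 1 of Theorem 6.3** -/
theorem chop (hR : RStmt n) (hk : ∀ k e, S.c k e < S.r) (hf : ∀ k, f k ≠ 0)
    (h : ∀ k, S.D b k = dN B (φ k) + pr ℂ (f k)) : FGR (S.D b) := by
  classical
  have := essFiniteType P
  have hb : ∀ k e, cN S k e < S.r := fun k e => by
    have h1 := hk k e
    rw [← cast_cN] at h1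
    exact_mod_cast h1
  have hM : Gr.Mult (fun s => (dN B s).Sec) ⊤ := mult_Sec.comap (dN B) fun _ _ => trivial
  choose N d g h1 h2 using res_gen b hR hf h
  obtain ⟨c, hc⟩ := exists_sub (φ := φ) hb
  let d' : B.ι ⊕ (Σ j, Fin (N j)) → B.ι → ℕ := Sum.elim (fun j => Pi.single j 1) fun p => d p.1 p.2
  let g' : B.ι ⊕ (Σ j, Fin (N j)) → F := Sum.elim (fun _ => 1) fun p => g p.1 p.2
  have hd' : ∀ p, d' p ∈ (⊤ : AddSubmonoid (B.ι → ℕ)) ∧ g' p ∈ (dN B (d' p)).Sec := by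
    rintro (j | ⟨j, i⟩)
    · exact ⟨trivial, nonneg_iff.1 (dvs_nonneg fun e => Int.natCast_nonneg _)⟩
    · exact ⟨trivial, h1 j i⟩
  have h3 : Gr.FG (fun s => (dN B s).Sec) (C S.r (cN S) φ) := by
    refine Gr.FG.of_filtration hM le_top (fg_C _ _ _) (fun s => ∑ e, s e) c ?_
      (fun s _ _ => (Submodule.fg_top _).1 (Module.finite_def.1 inferInstance)) d' g' hd' ?_
    · exact (Set.finite_Iic fun _ => c).subset fun s hs e =>
        (single_le_sum (fun _ _ => Nat.zero_le _) (mem_univ e)).trans hs.2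
    · intro s hs hlt x hx
      obtain ⟨j, hj⟩ := cover hb hs fun h0 => by simp [h0] at hlt
      obtain ⟨y, hy, h4⟩ := h2 j s hj x hx
      obtain ⟨s', hs', rfl⟩ := hc j s hj hlt.le
      have hy' : y ∈ Gr.Mon ℂ d' g' (s' + Pi.single j 1) :=
        Gr.Mon_le_Mon (fun i => Gr.gen_mem_Mon (k := ℂ) d' g' (.inr ⟨j, i⟩)) _ hy
      have h5 := mem_Sec_sub_single (dvs_mem B _) (sub_mem hx (hM.Mon_le hd' _ hy')) h4
      refine ⟨y, hy', Or.inr ⟨.inl j, s', hs', ?_, add_comm _ _, x - y, ?_, ?_⟩⟩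
      · simp [sum_add_distrib]
      · convert h5 using 2
        rw [dN_apply, ← dvs_sub]
        congr 1
        funext e
        rcases eq_or_ne e j with rfl | he
        · simp
        · simp [he]
      · simp [g']
  refine fgr_of_lin hf h ((h3.comap (hM.mono le_top) (lc φ) fg_top_pi
    fun x _ => lc_mem_C hb x).congr fun x _ => ?_)
  rw [map_lc, lc_eq]

end Crest.Agent.X262.FG.Fin5
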