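import Crest.Agent.X262.FG.Fin2

/-!
# X262/FG/Fin3 (helper5): Cascini–Lazić, Theorem 6.3, step 2

`fin_of_up` : `FinStmt` from the existence of log resolutions of klt systems (`Up5Stmt`).
-/

set_option autoImplicit false
set_option linter.unusedSectionVars false

open WithZero Finset
open scoped KaehlerDifferential

noncomputable section

namespace Crest.Agent.X262.FG.Fin5

open Crest.Agent.X277 Crest.Agent.X277.Lef Crest.Agent.X277.AN.G1 Crest.Agent.X277.BD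
open Crest.Agent.X277.BD.Br (At oP kP)
open Crest.Agent.X277.Res.Log (Bd)
open Crest.Agent.X262.Cvx

/-- a klt system on a log resolution of finitely many divisors -/
def Up5Stmt : Prop := ∀ (F : Type) [Field F] [Algebra ℂ F] (n : ℕ) (P : PModel ℂ F) (B : Bd P n)
  (b : Module.Basis (Fin n) F Ω[F⁄ℂ]) (κ : Type) [Fintype κ] (S : Sys B κ),
  (∀ k e, S.c k e < S.r) → ∀ a : κ → BD ℂ F, (∀ k, a k ∈ Br.On P) →
  ∃ (Q : PModel ℂ F) (C : Bd Q n) (S' : Sys C κ) (M : ℕ) (g : κ → C.ι → ℤ), 0 < M ∧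
    (∀ k e, S'.c k e < S'.r) ∧ (∀ k, S'.D b k = M • S.D b k + dvs C (g k)) ∧ (∀ k e, 0 ≤ g k e) ∧
    (∀ a ∈ Br.On P, ∀ x : κ → ℕ, (a + dvs C (∑ k, x k • g k)).Sec = a.Sec) ∧
    ∀ k, ∃ m, a k = dvs C m

variable {F : Type} [Field F] [Algebra ℂ F] {P : PModel ℂ F} {n : ℕ} {κ : Type} [Fintype κ]
  {B : Bd P n} (b : Module.Basis (Fin n) F Ω[F⁄ℂ])

/-- klt systems with effective members -/
theorem fgr_of_eff (hU : Up5Stmt) (hR : RStmt n) (S : Sys B κ) (hk : ∀ k e, S.c k e < S.r)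
    (he : ∀ k, Eff (S.D b k)) : FGR (S.D b) := by
  choose f hf hf0 using he
  obtain ⟨Q, C, S', M, g, hM, h1, h2, h3, h4, h5⟩ := hU F n P B b κ S hk
    (fun k => S.D b k - pr ℂ (f k)) fun k => sub_mem (S.D_mem b k) (Br.pr_mem _)
  choose m hm using h5
  have h6 : ∀ k e, 0 ≤ m k e := fun k e => by
    have h7 := od_sec (B := C) (e := e) (hf k) (hf0 k)
    rwa [hm, od_dvs] at h7
  have h7 : FGR (S'.D b) := by
    refine chop b (φ := fun k e => (M * m k e + g k e).toNat) hR h1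
      (fun k => pow_ne_zero M (hf0 k)) fun k => ?_
    have h8 : (fun e => ((M * m k e + g k e).toNat : ℤ)) = M • m k + g k := funext fun e => by
      rw [Int.toNat_of_nonneg (add_nonneg (mul_nonneg (Int.natCast_nonneg _) (h6 k e)) (h3 k e))]
      simp
    rw [dN_apply, h8, dvs_add, dvs_nsmul, ← hm, h2, pr_pow (hf0 k), smul_sub]
    abel
  refine fgr_of_nsmul hM (Gr.FG.congr h7 fun x _ => ?_)
  rw [funext h2, lc_add_fam, lc_dvs]
  exact h4 _ (lc_mem (fun k => nsmul_mem (S.D_mem b k) _) x) x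

/-- klt systems -/
theorem fgr_of_klt (hU : Up5Stmt) (hR : RStmt n) (hB : BStmt n) (S : Sys B κ)
    (hk : ∀ k e, S.c k e < S.r) : FGR (S.D b) := by
  classical
  obtain ⟨N, d, h1, h2⟩ := hB F P B b κ S
  obtain ⟨L, m, hL, h3⟩ := exists_norm (fun j : {j // d j ≠ 0} => d j) fun j => j.2
  have h4 : FGR ((S.comap (fun j : {j // d j ≠ 0} => m j • d j) hL fun j => (h3 j).2).D b) := by
    refine fgr_of_eff b hU hR _ (fun j e => ?_) fun j => ?_
    · change (∑ k, (m j • d j) k • S.c k) e < (L * S.r : ℕ)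
      have h5 : (∑ k, (m j • d j) k • S.c k) e + ∑ k, ((m j • d j.1) k : ℤ) ≤ (L * S.r : ℕ) := by
        rw [Finset.sum_apply, ← sum_add_distrib, ← (h3 j).2, sum_mul, Nat.cast_sum]
        refine sum_le_sum fun k _ => ?_
        rw [Pi.smul_apply ((m j • d j.1) k), nsmul_eq_mul, Nat.cast_mul, ← mul_add_one]
        exact mul_le_mul_of_nonneg_left (hk k e) (Int.natCast_nonneg _)
      rw [← Nat.cast_sum, (h3 j).2] at h5
      have h6 : (0 : ℤ) < L := by exact_mod_cast hL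
      linarith
    · rw [Sys.comap_D, FG.lc_nsmul]
      exact (h1 j).nsmul _
  let ψ := lc fun j : {j // d j ≠ 0} => m j • d j
  have h5 : Gr.FG (fun x => (lc (S.D b) x).Sec) (Sat (AddMonoidHom.mrange ψ)) := by
    refine Gr.FG.of_veronese_comap ((mult_lc _).mono le_top) (fg_sat ?_) ψ (T := ⊤)
      (fun t _ => le_Sat _ ⟨t, rfl⟩) ?_ (Gr.FG.congr h4 fun x _ => ?_)
    · rw [AddMonoidHom.mrange_eq_map]
      exact fg_top_pi.map _
    · rintro s ⟨r, hr, t, ht⟩
      exact ⟨r, hr, t, trivial, ht⟩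
    · rw [funext (S.comap_D b _ hL _), lc_lc]
      rfl
  refine Gr.FG.of_cover (fun _ : Unit => Sat (AddMonoidHom.mrange ψ)) (fun _ => le_top)
    (fun x _ => ?_) fun _ => h5
  by_cases h0 : (FG.lc (S.D b) x).Sec = ⊥
  · exact Or.inl h0
  obtain ⟨r, hr, a, ha⟩ := h2 x ((Submodule.ne_bot_iff _).1 h0)
  have h6 : r • x ∈ Sat (AddMonoidHom.mrange ψ) := by
    rw [← ha]
    refine sum_mem fun j _ => nsmul_mem ?_ _
    by_cases hj : d j = 0
    · rw [hj]
      exact zero_mem _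
    · exact ⟨m ⟨j, hj⟩, (h3 _).1, Pi.single ⟨j, hj⟩ 1, lc_single _ _⟩
  obtain ⟨r', hr', h7⟩ := h6
  exact Or.inr ⟨(), r' * r, Nat.mul_pos hr' hr, by rwa [mul_smul]⟩

theorem aStmt_of_up (hU : Up5Stmt) (hR : RStmt n) (hB : BStmt n) : AStmt n := by
  intro F _ _ P B b κ _ S
  obtain ⟨M, S', hM, -, h1, -, h2, -⟩ := S.exists_klt ∅
  refine fgr_of_nsmul hM ?_
  rw [← funext (h1 b)]
  exact fgr_of_klt b hU hR hB S' fun k e => h2 k e (Set.notMem_empty e)

theorem fin_of_up (hU : Up5Stmt) : FinStmt := fun _ => aStmt_of_up hU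

end Crest.Agent.X262.FG.Fin5
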