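import Crest.Agent.X262.FG.Fin3
import Crest.Agent.X262.FG.Up0

/-!
# X262/FG/Fin4 (helper5): `FinStmt`
-/

set_option autoImplicit false
set_option linter.unusedSectionVars false

open Finset
open scoped KaehlerDifferential

noncomputable section

namespace Crest.Agent.X262.FG.Fin5

open Crest.Agent.X277 Crest.Agent.X277.Lef Crest.Agent.X277.AN.G1 Crest.Agent.X277.BD
open Crest.Agent.X277.BD.Br (At oP kP)
open Crest.Agent.X277.Res.Log (Bd)

theorem up5Stmt : Up5Stmt := by
  intro F _ _ n P B b κ _ S hk a _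
  obtain ⟨Q, C, h, -, h1⟩ := exists_hi B ∅ a
  obtain ⟨M₀, g, hg, h2⟩ := exists_amp_fam h.iso S.amp
  obtain ⟨M₁, hM₁⟩ := (Set.finite_range fun e => (g e).toNat).bddAbove
  let M := max M₀ M₁ + 1
  have hM : ∀ e, g e < M := fun e => by
    have h3 : (g e).toNat ≤ M₁ := hM₁ ⟨e, rfl⟩
    have h4 := le_max_right M₀ M₁
    omega
  let cr : κ → C.ι → ℤ := fun k e => pbc B C (S.c k) e - S.r * kap b h.iso e
  have h3 : ∀ k e, cr k e ≤ S.r - 1 := fun k e => by
    have h4 : pbc B C (S.c k) e ≤ (S.r - 1) * ∑ d, mu B C d e := by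
      rw [pbc_eq_sum, mul_sum]
      exact sum_le_sum fun d _ =>
        mul_le_mul_of_nonneg_right (Int.le_sub_one_of_lt (hk k d)) (mu_nonneg d e)
    have h5 : (0 : ℤ) ≤ S.r - 1 := by have := S.r_pos; omega
    have h6 := mul_le_mul_of_nonneg_left (sum_mu_le b h.iso B e) h5
    have h7 := (exc_kap b h.iso).1 e
    change pbc B C (S.c k) e - S.r * kap b h.iso e ≤ _
    nlinarith
  have h4 : ∀ k e, M * max (cr k e) 0 + g e < (M * S.r : ℕ) := fun k e => by
    have h5 : max (cr k e) 0 ≤ S.r - 1 := max_le (h3 k e) (by have := S.r_pos; omega)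
    have h6 := mul_le_mul_of_nonneg_left h5 (Int.natCast_nonneg M)
    have h7 := hM e
    push_cast
    linarith
  have h5 : ∀ k, Exc P C (M • fun e => max (cr k e) 0 - cr k e) := fun k =>
    Exc.nsmul ⟨fun e => sub_nonneg.2 (le_max_left _ _), fun e he => by
      refine sub_eq_zero.2 (max_eq_left ?_)
      change 0 ≤ pbc B C (S.c k) e - S.r * kap b h.iso e
      rw [(exc_kap b h.iso).2 e he, mul_zero, sub_zero]
      exact pbc_nonneg (S.c_nonneg k) e⟩ M
  refine ⟨Q, C, ⟨M * S.r, Nat.mul_pos (Nat.succ_pos _) S.r_pos,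
    fun k => M • S.A k - dvs C g, h2 M ((le_max_left _ _).trans (Nat.le_succ _)),
    fun k e => M * max (cr k e) 0 + g e,
    fun k e => add_nonneg (mul_nonneg (Int.natCast_nonneg _) (le_max_right _ _)) (hg.1 e),
    fun k e => (h4 k e).le⟩, M, fun k => M • fun e => max (cr k e) 0 - cr k e, Nat.succ_pos _, h4,
    fun k => ?_, fun k => (h5 k).1, fun a ha x => sec_exc h.iso ha (Exc.sum _ fun k _ =>
      (h5 k).nsmul _), fun k => ⟨_, h1 k⟩⟩
  have h6 : (fun e => M * max (cr k e) 0 + g e) = M • pbc B C (S.c k) +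
      M • (fun e => max (cr k e) 0 - cr k e) + g - (M * S.r) • kap b h.iso := funext fun e => by
    rw [Pi.sub_apply, Pi.add_apply, Pi.add_apply, Pi.smul_apply, Pi.smul_apply, Pi.smul_apply]
    simp only [cr, nsmul_eq_mul, Nat.cast_mul]
    ring
  change (M * S.r) • kP Q b + (M • S.A k - dvs C g) + dvs C (fun e => M * max (cr k e) 0 + g e) = _
  rw [h6, dvs_sub, dvs_add, dvs_add, dvs_nsmul C M (pbc B C _), dvs_nsmul C (M * S.r),
    ← h.dvs_eq, kP_up b h.iso, Sys.D, smul_add, smul_add, smul_add, smul_smul]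
  abel

/-- **section 6** -/
theorem finStmt : FinStmt := fin_of_up up5Stmt

end Crest.Agent.X262.FG.Fin5
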