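import Crest.Agent.X262.FG.Up0
import Crest.Agent.X262.FG.Inv
import Crest.Agent.X262.FG.Dj0

/-!
# Row 262, FG-UP (helper14), part 1: adjoint systems on a higher model

* `crp` : crepant coefficients; `Hi.adj_eq`, `crp_add_le`, `crp_le`, `crp_lt`, `crp_lt_plt`;
* `Sys.Up` : a system upstairs; `Sys.exists_up`, `exists_up_klt`, `exists_up_plt`, `up5`;
* `Sys.Up.sec`, `Sys.Up.fgr`, `Sys.Up.effFG`, `Sys.Up.rfg`.
-/

set_option autoImplicit false
set_option linter.unusedSectionVars false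

open WithZero
open scoped KaehlerDifferential

noncomputable section

namespace Crest.Agent.X262.FG

open Crest.Agent.X277 Crest.Agent.X277.Lef Crest.Agent.X277.AN.G1 Crest.Agent.X277.BD
open Crest.Agent.X277.BD.Br (At oP kP)
open Crest.Agent.X277.Res.Out (Un)
open Crest.Agent.X277.Res.Log (Bd IsoOff LogRes un_iff)
open Crest.Agent.X277.Link (IsPD)

variable {F : Type} [Field F] [Algebra ℂ F] {P Q : PModel ℂ F} {n : ℕ} {B : Bd P n} {C : Bd Q n}
  (b : Module.Basis (Fin n) F Ω[F⁄ℂ]) {r : ℕ} {c c' : B.ι → ℤ} {e : B.ι} {e' : C.ι}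

theorem kap_indep (b' : Module.Basis (Fin n) F Ω[F⁄ℂ]) (h : IsoOff P C) : kap b h = kap b' h := by
  refine dvs_injective ?_
  have h1 := kP_up b h
  rw [Br.kP_change b b', Br.kP_change (P := P) b b', kP_up b' h, add_right_comm] at h1
  exact (add_left_cancel h1).symm

/-- a place other than the component `e` has discrepancy at least the multiplicity of `e` -/
theorem mu_le_kap (h : IsoOff P C) (hne : C.v e' ≠ B.v e) : mu B C e e' ≤ kap b h e' := by
  obtain ⟨x, hx⟩ := C.ne e'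
  obtain ⟨t, ht⟩ := exists_crd b x
  obtain ⟨z, hz⟩ := exists_crd b (h.mor.map x)
  rw [mu_eq_ord (h.on_map hx)]
  by_cases he : Res.Log.On (B.v e) (h.mor.map x)
  · rw [kap_eq_ord b h hx ht hz]
    exact Dj.ord_τ_le_jac b hx (h.on_map hx) he hne ht hz
  · rw [B.off e _ he, Res.Out.ord_one]
    exact (exc_kap b h).1 e'

variable (B) in
/-- the crepant coefficients: `r K_P + ∑ c e • D e = r K_Q + ∑ crp e' • D e'` -/
def crp (h : IsoOff P C) (r : ℕ) (c : B.ι → ℤ) : C.ι → ℤ := pbc B C c - r • kap b h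

theorem crp_apply (h : IsoOff P C) (r : ℕ) (c : B.ι → ℤ) (e' : C.ι) :
    crp B b h r c e' = pbc B C c e' - r * kap b h e' := by
  rw [crp, Pi.sub_apply, Pi.smul_apply, nsmul_eq_mul]

theorem crp_eq_od (h : IsoOff P C) (r : ℕ) (c : B.ι → ℤ) (e' : C.ι) :
    crp B b h r c e' = od C e' (r • kP P b + dvs B c - r • kP Q b) := by
  rw [crp_apply, map_sub, map_add, map_nsmul, map_nsmul, od_kP b h, pbc_apply, nsmul_eq_mul,
    nsmul_eq_mul]
  ring

theorem Hi.adj_eq (h : Hi B C) (r : ℕ) (c : B.ι → ℤ) :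
    r • kP P b + dvs B c = r • kP Q b + dvs C (crp B b h.iso r c) := by
  rw [crp, dvs_sub, dvs_nsmul, kP_up b h.iso, ← h.dvs_eq, smul_add]
  abel

theorem crp_eq_crep (h : IsoOff P C) {x : Pts Q} (hx : Res.Log.On (C.v e') x) {t z : Fin n → F}
    (ht : (lp x).Crd t) (hz : (lp (h.mor.map x)).Crd z) :
    crp B b h r c e' = B.crep b r c (C.v e') (h.mor.map x) t z := by
  rw [crp_apply, Bd.crep_eq b _ ht hz, pbc_eq_ord (h.on_map hx), Bd.ord_mon',
    kap_eq_ord b h hx ht hz]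

theorem crp_add (h : IsoOff P C) (r r' : ℕ) (c c' : B.ι → ℤ) :
    crp B b h (r + r') (c + c') = crp B b h r c + crp B b h r' c' := by
  rw [crp, crp, crp, map_add, add_smul]
  abel

theorem crp_nsmul (h : IsoOff P C) (m r : ℕ) (c : B.ι → ℤ) :
    crp B b h (m * r) (m • c) = m • crp B b h r c := by
  rw [crp, crp, map_nsmul, mul_smul, smul_sub]

theorem crp_mono (h : IsoOff P C) (hc : ∀ e, c e ≤ c' e) (e' : C.ι) :
    crp B b h r c e' ≤ crp B b h r c' e' := by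
  rw [crp_apply, crp_apply]
  exact sub_le_sub_right (pbc_mono hc e') _

theorem crp_pd (h : IsoOff P C) (hv : IsPD P (C.v e')) : crp B b h r c e' = pbc B C c e' := by
  rw [crp_apply, (exc_kap b h).2 e' hv, mul_zero, sub_zero]

theorem crp_lab (h : IsoOff P C) (he : C.v e' = B.v e) : crp B b h r c e' = c e := by
  rw [crp_pd b h (he ▸ B.isPD e), pbc_lab he]

theorem crp_of_ne (h : IsoOff P C) (hv : IsPD P (C.v e')) (hne : ∀ e, B.v e ≠ C.v e') :
    crp B b h r c e' = 0 := by rw [crp_pd b h hv, pbc_of_ne hv hne]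

theorem crp_add_le (h : IsoOff P C) (r : ℕ) (c : B.ι → ℤ) (e' : C.ι) :
    crp B b h r c e' + ∑ e, (r - c e) * mu B C e e' ≤ r := by
  have h1 := mul_le_mul_of_nonneg_left (sum_mu_le b h B e') (Int.natCast_nonneg r)
  rw [Finset.mul_sum] at h1
  simp only [crp_apply, pbc_eq_sum, sub_mul, Finset.sum_sub_distrib]
  linarith

theorem crp_le (h : IsoOff P C) (hc : ∀ e, c e ≤ r) (e' : C.ι) : crp B b h r c e' ≤ r :=
  le_trans (le_add_of_nonneg_right (Finset.sum_nonneg fun e _ =>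
    mul_nonneg (sub_nonneg.2 (hc e)) (mu_nonneg e e'))) (crp_add_le b h r c e')

/-- an lc place only lies over components with coefficient one -/
theorem crp_lt_of_mu (h : IsoOff P C) (hc : ∀ e, c e ≤ r) (h1 : c e < r) (h2 : 0 < mu B C e e') :
    crp B b h r c e' < r := by
  have h3 := crp_add_le b h r c e'
  have h4 := Finset.single_le_sum (f := fun e => (r - c e) * mu B C e e')
    (fun e _ => mul_nonneg (sub_nonneg.2 (hc e)) (mu_nonneg e e')) (Finset.mem_univ e)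
  have h5 := mul_pos (sub_pos.2 h1) h2
  linarith

/-- klt goes up -/
theorem crp_lt (h : IsoOff P C) (hr : 0 < r) (hc : ∀ e, c e < r) (e' : C.ι) :
    crp B b h r c e' < r := by
  by_cases h1 : ∃ e, 0 < mu B C e e'
  · exact crp_lt_of_mu b h (fun e => (hc e).le) (hc _) h1.choose_spec
  · have h2 := mul_nonneg (Int.natCast_nonneg r) ((exc_kap b h).1 e')
    rw [crp_apply, pbc_eq_sum, Finset.sum_eq_zero fun e _ => by
      rw [le_antisymm (not_lt.1 fun h => h1 ⟨e, h⟩) (mu_nonneg e e'), mul_zero]]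
    omega

/-- plt goes up -/
theorem crp_lt_plt (h : IsoOff P C) (hr : 0 < r) (hc₀ : c e ≤ r) (hc : ∀ e₁, e₁ ≠ e → c e₁ < r)
    (hne : C.v e' ≠ B.v e) : crp B b h r c e' < r := by
  by_cases h1 : ∃ e₁, e₁ ≠ e ∧ 0 < mu B C e₁ e'
  · obtain ⟨e₁, h2, h3⟩ := h1
    exact crp_lt_of_mu b h (fun e₂ => (eq_or_ne e₂ e).elim (fun h => h ▸ hc₀) fun h => (hc e₂ h).le)
      (hc e₁ h2) h3
  · have h2 := mul_le_mul_of_nonneg_left (mu_le_kap b h hne) (Int.natCast_nonneg r)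
    have h3 := mul_le_mul_of_nonneg_right hc₀ (mu_nonneg (C := C) e e')
    rw [crp_apply, pbc_eq_sum, Finset.sum_eq_single e (fun e₁ _ h4 => by
      rw [le_antisymm (not_lt.1 fun h => h1 ⟨e₁, h4, h⟩) (mu_nonneg e₁ e'), mul_zero]) (by simp)]
    omega

namespace Sys

variable {κ : Type}

/-- `S₁` is the system on the higher model attached to `M • S`; `g₀` corrects the ample part -/
structure Up (h : Hi B C) (S : Sys B κ) (S₁ : Sys C κ) (M : ℕ) (g₀ : C.ι → ℤ)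
    (g : κ → C.ι → ℤ) : Prop where
  pos : 0 < M
  exc₀ : Exc P C g₀
  lt₀ : ∀ e', g₀ e' < M
  exc : ∀ k, Exc P C (g k)
  r_eq : S₁.r = M * S.r
  A_eq : ∀ k, S₁.A k = M • S.A k - dvs C g₀
  c_eq : ∀ b k e', S₁.c k e' = max (M * crp B b h.iso S.r (S.c k) e' + g₀ e') 0
  D_eq : ∀ b k, S₁.D b k = M • S.D b k + dvs C (g k)

/-- **systems without exceptional lc places go up** -/
theorem exists_up [Finite κ] (h : Hi B C) (S : Sys B κ)
    (hx : ∀ k e', ¬ IsPD P (C.v e') → crp B b h.iso S.r (S.c k) e' < S.r) :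
    ∃ (M₀ : ℕ) (g₀ : C.ι → ℤ), ∀ M, M₀ ≤ M → ∃ (S₁ : Sys C κ) (g : κ → C.ι → ℤ),
      Up h S S₁ M g₀ g := by
  obtain ⟨M₁, g₀, h1, h2⟩ := exists_amp_fam h.iso S.amp
  obtain ⟨M₂, h3⟩ := (Set.finite_range fun e' => (g₀ e').toNat).bddAbove
  refine ⟨max M₁ M₂ + 1, g₀, fun M hM => ?_⟩
  have h4 : ∀ e', g₀ e' < M := fun e' => by
    have h5 : (g₀ e').toNat ≤ M₂ := h3 ⟨e', rfl⟩
    omega
  have hM0 : 0 < M := by omega
  have h5 : ∀ b' : Module.Basis (Fin n) F Ω[F⁄ℂ], crp B b' h.iso = crp B b h.iso := fun b' => by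
    funext r c
    rw [crp, crp, kap_indep b' b]
  let u : κ → C.ι → ℤ := fun k => M • crp B b h.iso S.r (S.c k) + g₀
  have hu : ∀ k e', u k e' = M * crp B b h.iso S.r (S.c k) e' + g₀ e' := fun k e' => by
    simp [u]
  refine ⟨⟨M * S.r, Nat.mul_pos hM0 S.r_pos, fun k => M • S.A k - dvs C g₀,
    h2 M (by omega), fun k e' => max (u k e') 0, fun k e' => le_max_right _ _, fun k e' =>
      max_le ?_ (Int.natCast_nonneg _)⟩, fun k e' => max (u k e') 0 - u k e', hM0, h1, h4,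
    fun k => ⟨fun e' => sub_nonneg.2 (le_max_left _ _), fun e' he => ?_⟩, rfl, fun _ => rfl,
    fun b' k e' => by rw [h5, ← hu], fun b' k => ?_⟩
  · rw [hu, Nat.cast_mul]
    by_cases he : IsPD P (C.v e')
    · rw [h1.2 e' he, add_zero]
      exact mul_le_mul_of_nonneg_left (crp_le b h.iso (S.c_le k) e') (Int.natCast_nonneg M)
    · have h6 := mul_le_mul_of_nonneg_left (Int.add_one_le_of_lt (hx k e' he))
        (Int.natCast_nonneg M)
      have h7 := h4 e'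
      linarith
  · refine sub_eq_zero.2 (max_eq_left ?_)
    rw [hu, h1.2 e' he, add_zero, crp_pd b h.iso he]
    exact mul_nonneg (Int.natCast_nonneg M) (pbc_nonneg (S.c_nonneg k) e')
  · have h6 := h.adj_eq b' S.r (S.c k)
    rw [h5] at h6
    change (M * S.r) • kP Q b' + (M • S.A k - dvs C g₀) + dvs C (fun e' => max (u k e') 0) =
      M • (S.r • kP P b' + S.A k + dvs B (S.c k)) + dvs C ((fun e' => max (u k e') 0) - u k)
    rw [add_right_comm (S.r • kP P b'), h6, dvs_sub, dvs_add, dvs_nsmul, mul_smul, smul_add,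
      smul_add]
    abel

theorem exists_up_klt [Finite κ] (h : Hi B C) (S : Sys B κ) (hk : ∀ k e, S.c k e < S.r) :
    ∃ (M₀ : ℕ) (g₀ : C.ι → ℤ), ∀ M, M₀ ≤ M → ∃ (S₁ : Sys C κ) (g : κ → C.ι → ℤ),
      Up h S S₁ M g₀ g :=
  B.exists_basis.elim fun b => exists_up b h S fun k e' _ => crp_lt b h.iso S.r_pos (hk k) e'

theorem exists_up_plt [Finite κ] (h : Hi B C) (S : Sys B κ) (e : B.ι)
    (hk : ∀ k e₁, e₁ ≠ e → S.c k e₁ < S.r) :
    ∃ (M₀ : ℕ) (g₀ : C.ι → ℤ), ∀ M, M₀ ≤ M → ∃ (S₁ : Sys C κ) (g : κ → C.ι → ℤ),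
      Up h S S₁ M g₀ g :=
  B.exists_basis.elim fun b => exists_up b h S fun k _ he =>
    crp_lt_plt b h.iso S.r_pos (S.c_le k e) (hk k) fun h1 => he (h1 ▸ B.isPD e)

namespace Up

variable {h : Hi B C} {S : Sys B κ} {S₁ : Sys C κ} {M : ℕ} {g₀ : C.ι → ℤ} {g : κ → C.ι → ℤ}
  (U : Up h S S₁ M g₀ g) {k : κ}

include U

/-- strict transforms keep their coefficients -/
theorem c_lab (he : C.v e' = B.v e) (k : κ) : S₁.c k e' = M * S.c k e := by
  obtain ⟨b⟩ := B.exists_basis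
  rw [U.c_eq b, crp_lab b h.iso he, U.exc₀.2 e' (he ▸ B.isPD e), add_zero]
  exact max_eq_left (mul_nonneg (Int.natCast_nonneg M) (S.c_nonneg k e))

theorem c_of_ne (hv : IsPD P (C.v e')) (hne : ∀ e, B.v e ≠ C.v e') (k : κ) : S₁.c k e' = 0 := by
  obtain ⟨b⟩ := B.exists_basis
  rw [U.c_eq b, crp_of_ne b h.iso hv hne, U.exc₀.2 e' hv, mul_zero, add_zero, max_self]

theorem c_lt (h1 : crp B b h.iso S.r (S.c k) e' < S.r) : S₁.c k e' < S₁.r := by
  have h2 := mul_le_mul_of_nonneg_left (Int.add_one_le_of_lt h1) (Int.natCast_nonneg M)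
  have h3 := U.lt₀ e'
  rw [U.c_eq b]
  refine max_lt ?_ (Int.natCast_pos.2 S₁.r_pos)
  rw [U.r_eq, Nat.cast_mul]
  linarith

theorem klt (hk : ∀ e, S.c k e < S.r) (e' : C.ι) : S₁.c k e' < S₁.r :=
  B.exists_basis.elim fun b => U.c_lt b (crp_lt b h.iso S.r_pos hk e')

theorem plt (hk : ∀ e₁, e₁ ≠ e → S.c k e₁ < S.r) (hne : C.v e' ≠ B.v e) : S₁.c k e' < S₁.r :=
  B.exists_basis.elim fun b => U.c_lt b (crp_lt_plt b h.iso S.r_pos (S.c_le k e) hk hne)

theorem c_top (he : C.v e' = B.v e) (hk : S.c k e = S.r) : S₁.c k e' = S₁.r := by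
  rw [U.c_lab he, hk, U.r_eq, Nat.cast_mul]

theorem c_pos (h1 : 0 < S₁.c k e') : 0 < M * crp B b h.iso S.r (S.c k) e' + g₀ e' := by
  rw [U.c_eq b] at h1
  exact (lt_max_iff.1 h1).resolve_right (lt_irrefl _)

theorem od_A (hv : IsPD P (C.v e')) (k : κ) : od C e' (S₁.A k) = M * od C e' (S.A k) := by
  rw [U.A_eq, map_sub, od_dvs, U.exc₀.2 e' hv, sub_zero, map_nsmul, nsmul_eq_mul]

theorem od_D (hv : IsPD P (C.v e')) (k : κ) : od C e' (S₁.D b k) = M * od C e' (S.D b k) := by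
  rw [U.D_eq, map_add, od_dvs, (U.exc k).2 e' hv, add_zero, map_nsmul, nsmul_eq_mul]

variable [Fintype κ]

theorem sec (x : κ → ℕ) : (lc (S₁.D b) x).Sec = (lc (fun k => M • S.D b k) x).Sec :=
  sec_lc_exc h.iso (fun k => nsmul_mem (S.D_mem b k) M) U.exc (U.D_eq b) x

theorem ord_lc {v : Valuation F ℤᵐ⁰} (hv : IsPD P v) (x : κ → ℕ) :
    ord v hv.triv (lc (S₁.D b) x) = ord v hv.triv (lc (fun k => M • S.D b k) x) := by
  rw [funext (U.D_eq b), lc_add_fam, lc_dvs, map_add, ord_dvs_pd h.iso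
    (Exc.sum _ fun k _ => (U.exc k).nsmul _).2 hv, add_zero]

theorem vl_lc {v : Valuation F ℤᵐ⁰} (hv : IsPD P v) (x : κ → ℕ) :
    vl v hv.triv (lc (S₁.D b) x) = vl v hv.triv (lc (fun k => M • S.D b k) x) := by
  rw [← exp_ord, ← exp_ord, U.ord_lc b hv]

theorem fgr (h1 : FGR (S₁.D b)) : FGR (S.D b) := (h1.congr (U.sec b)).of_nsmul U.pos

theorem eff_iff (x : κ → ℕ) : Eff (lc (S₁.D b) x) ↔ Eff (lc (fun k => M • S.D b k) x) := by
  rw [eff_iff_ne_bot, eff_iff_ne_bot, U.sec b]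

theorem effFG (h1 : EffFG (S₁.D b)) : EffFG (S.D b) := (h1.congr (U.eff_iff b)).of_nsmul U.pos

theorem rfg {v : Valuation F ℤᵐ⁰} (hv : IsPD P v) (h1 : RFG v hv.triv (S₁.D b)) :
    RFG v hv.triv (S.D b) := by
  classical
  refine RFG.of_nsmul hv.nrm U.pos (h1.congr (U.sec b) fun k => ?_)
  simpa only [lc_single] using U.vl_lc b hv (Pi.single k 1)

theorem rfg_lab (he : C.v e' = B.v e) (h1 : RFG (C.v e') (triv C e') (S₁.D b)) :
    RFG (B.v e) (triv B e) (S.D b) := by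
  refine U.rfg b (B.isPD e) ?_
  convert h1 using 1
  exact he.symm

end Up

end Sys

/-- **a klt system on a log resolution of finitely many classes** -/
theorem up5 {κ : Type} [Finite κ] (S : Sys B κ) (hk : ∀ k e, S.c k e < S.r)
    (T : Finset (BD ℂ F)) : ∃ (Q : PModel ℂ F) (C : Bd Q n) (S₁ : Sys C κ) (M : ℕ)
      (g : κ → C.ι → ℤ), Hi B C ∧ 0 < M ∧ (∀ k e, S₁.c k e < S₁.r) ∧
      (∀ k, S₁.D b k = M • S.D b k + dvs C (g k)) ∧ (∀ k, Exc P C (g k)) ∧
      ∀ a ∈ T, ∃ m, a = dvs C m := by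
  obtain ⟨Q, C, h, -, h1⟩ := exists_hi B ∅ fun a : T => a.1
  obtain ⟨M, g₀, h2⟩ := S.exists_up_klt h hk
  obtain ⟨S₁, g, U⟩ := h2 M le_rfl
  exact ⟨Q, C, S₁, M, g, h, U.pos, fun k => U.klt (hk k), U.D_eq b, U.exc,
    fun a ha => ⟨_, h1 ⟨a, ha⟩⟩⟩

end Crest.Agent.X262.FG
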