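import Crest.Agent.X262.FG.N51a
import Crest.Agent.X262.FG.NvDefs
import Crest.Agent.X262.FG.Up1
import Crest.Agent.X277.BD.Cyc

/-!
# Row 262, FG (helper80): numerically effective adjoint divisors are effective

* `va_oP`, `sn_of_nef`, `amp_add_nef` : ample plus nef is ample;
* `eff_klt` : the case of an snc divisor and a klt boundary;
* `l51`, `l51Stmt` : Lemma 5.1 of Cascini-Lazić.
-/

set_option autoImplicit false
set_option linter.unusedSectionVars false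

open WithZero
open scoped KaehlerDifferential

noncomputable section

namespace Crest.Agent.X262.FG.N51

open Crest.Agent.X277 Crest.Agent.X277.Lef Crest.Agent.X277.AN.G1 Crest.Agent.X277.BD
open Crest.Agent.X277.BD.Br (At oP kP)
open Crest.Agent.X277.Res.Log (Bd)
open Crest.Agent.X262.KV (KVL)

variable {F : Type} [Field F] [Algebra ℂ F] {P : PModel ℂ F} {n : ℕ} {a y : BD ℂ F}

theorem va_oP (P : PModel ℂ F) : VA (oP P) := by
  have := essFiniteType P
  have h1 : chart ℂ P.y 0 ≤ (qf ℂ P.y).toSubalgebra :=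
    Algebra.adjoin_le (by rintro _ ⟨j, rfl⟩; exact div_mem_qf P.y 0 j)
  refine va_mxf ⟨fun x => ?_⟩
  obtain ⟨f, hf, g, hg, -, rfl⟩ := P.frac x
  exact isAlgebraic_algebraMap (⟨f / g, div_mem (h1 hf) (h1 hg)⟩ : qf ℂ P.y)

/-- a nef class plus the hyperplane class is semiample -/
theorem semi_of_nef (ha : a ∈ Br.On P) (h : Nef a) (m : ℕ) :
    ∃ r : ℕ, 0 < r ∧ Free (r • (m • a + oP P)) := by
  obtain ⟨M, hM⟩ := va_oP P
  obtain ⟨N, h1⟩ := Br.serre ha
  obtain ⟨N', h2⟩ := Br.serre (neg_mem ha)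
  rw [← hM] at h1 h2 ⊢
  exact Cyc.semi_of_nef h
    (Mdl.mem_On_of_free (h1 _ (le_max_left N N')) (h2 _ (le_max_right N N'))) m

theorem sn_of_nef (ha : a ∈ Br.On P) (h : Nef a) : SN P a := ⟨ha, fun k => by
  obtain ⟨r, hr, h1⟩ := semi_of_nef ha h (2 * k)
  refine Amp.of_nsmul two_pos (add_mem Br.oP_mem (nsmul_mem ha k)) ?_
  convert (amp_oP P).add_semi (add_mem (nsmul_mem ha _) Br.oP_mem) hr h1 using 1
  module⟩

/-- **ample plus nef is ample** -/
theorem amp_add_nef (h : Amp P a) (hy : y ∈ Br.On P) (h' : Nef y) : Amp P (a + y) := by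
  simpa using (sn_of_nef hy h').amp h 1

variable (hF : FacStmt) (hB : BertStmt) (hK : ∀ n, KVL n) {B : Bd P n}
  (b : Module.Basis (Fin n) F Ω[F⁄ℂ])

include hF hB hK

/-- the case of a klt boundary and an snc divisor -/
theorem eff_klt {r : ℕ} (hr : 0 < r) (ha : Amp P a) {c c' : B.ι → ℤ} (h0 : ∀ e, 0 ≤ c e)
    (h1 : ∀ e, c e < r) (h2 : ∀ e, 0 ≤ c' e) (h3 : Nef (r • kP P b + a + dvs B c - dvs B c'))
    (h4 : Nef (-(r • kP P b + a + dvs B c - dvs B c'))) :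
    ∃ q : ℕ, 0 < q ∧ Eff (q • (r • kP P b + a + dvs B c)) := by
  have hr' : (0 : ℤ) < r := by exact_mod_cast hr
  have hT : r • kP P b + a + dvs B c - dvs B c' ∈ Br.On P :=
    sub_mem (add_mem (add_mem (nsmul_mem (Br.kP_mem b) r) ha.1) (dvs_mem B c)) (dvs_mem B c')
  have h5 : r • (fun e => -((c e - c' e) / r)) = (fun e => (c e - c' e) % r) - (c - c') := by
    funext e
    have := Int.mul_ediv_add_emod (c e - c' e) r
    simp only [Pi.smul_apply, Pi.sub_apply, nsmul_eq_mul]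
    linarith
  have h6 : Adj B ∅ (dvs B fun e => -((c e - c' e) / r)) := by
    refine ⟨b, r, fun e => (c e - c' e) % r, _, dvs_mem B _, hr,
      fun e => ⟨Int.emod_nonneg _ hr'.ne', Int.emod_lt_of_pos _ hr'⟩, by simp,
      amp_add_nef ha (neg_mem hT) h4, ?_⟩
    rw [← dvs_nsmul, h5, dvs_sub, dvs_sub]
    abel
  obtain ⟨k, hk⟩ := exists_eff hF hB hK h6 (sn_of_nef hT h3)
    (eff_of_nonneg (dvs_nonneg fun e => neg_nonneg.2 (Int.lt_add_one_iff.1
      (Int.ediv_lt_of_lt_mul hr' (by have := h1 e; have := h2 e; linarith)))))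
  refine ⟨k + 1, k.succ_pos, hk.mono ?_⟩
  rw [smul_sub, add_comm, sub_add, sub_le_self_iff, sub_nonneg, ← dvs_nsmul]
  refine dvs_mono fun e => ?_
  have h7 : -c' e ≤ (c e - c' e) / r :=
    Int.le_ediv_of_mul_le hr' (by have := h0 e; have := h2 e; nlinarith)
  have h8 := h2 e
  have h9 : (0 : ℤ) ≤ k := Nat.cast_nonneg k
  rw [Pi.smul_apply, nsmul_eq_mul]
  push_cast
  nlinarith

/-- **an adjoint divisor which is numerically effective has an effective multiple** -/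
theorem l51 {r : ℕ} (hr : 0 < r) (ha : Amp P a) {c : B.ι → ℤ} (h0 : ∀ e, 0 ≤ c e)
    (h1 : ∀ e, c e ≤ r) (hy : y ∈ Br.On P) (h2 : 0 ≤ y) (h3 : Nef (r • kP P b + a + dvs B c - y))
    (h4 : Nef (-(r • kP P b + a + dvs B c - y))) :
    ∃ q : ℕ, 0 < q ∧ Eff (q • (r • kP P b + a + dvs B c)) := by
  let S : Sys B Unit := ⟨r, hr, fun _ => a, fun _ => ha, fun _ => c, fun _ => h0, fun _ => h1⟩
  obtain ⟨M, S', hM, -, h5, -, h6, -⟩ := S.exists_klt ∅
  obtain ⟨Q, C, h, -, h7⟩ := exists_hi B ∅ fun _ : Unit => y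
  obtain ⟨M₀, g₀, h8⟩ := Sys.exists_up_klt h S' fun k e => h6 k e (Set.notMem_empty e)
  obtain ⟨S₁, g, U⟩ := h8 M₀ le_rfl
  have h9 : S₁.D b () = (M₀ * M) • (r • kP P b + a + dvs B c) + dvs C (g ()) := by
    rw [U.D_eq, h5, mul_smul]
    rfl
  have h10 : S₁.D b () - dvs C ((M₀ * M) • (fun e' => od C e' y) + g ()) =
      (M₀ * M) • (r • kP P b + a + dvs B c - y) := by
    rw [h9, dvs_add, dvs_nsmul, ← h7 (), smul_sub]
    abel
  obtain ⟨q, hq, s, hs, hs0⟩ := eff_klt hF hB hK b S₁.r_pos (S₁.amp ()) (S₁.c_nonneg ())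
    (U.klt fun e => h6 () e (Set.notMem_empty e))
    (c' := (M₀ * M) • (fun e' => od C e' y) + g ())
    (fun e => add_nonneg (nsmul_nonneg (od_nonneg h2) _) ((U.exc ()).1 e))
    (h10 ▸ h3.nsmul _ : Nef (S₁.D b () - _))
    (by rw [← Sys.D, h10, ← smul_neg]; exact h4.nsmul _)
  refine ⟨q * (M₀ * M), Nat.mul_pos hq (Nat.mul_pos U.pos hM), s, ?_, hs0⟩
  have hm : r • kP P b + a + dvs B c ∈ Br.On P := S.D_mem b ()
  rwa [← Sys.D, h9, smul_add, ← dvs_nsmul, sec_exc h.iso (nsmul_mem (nsmul_mem hm _) _)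
    ((U.exc ()).nsmul q), ← mul_smul] at hs

theorem l51Stmt (n : ℕ) : L51Stmt n := fun _ _ _ _ _ _ b _ _ _ _ hr ha hc hy h2 h3 h4 =>
  l51 hF hB hK b hr ha (fun e => (hc e).1) (fun e => (hc e).2) hy h2 h3 h4

end Crest.Agent.X262.FG.N51
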