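import Crest.Agent.X262.FG.Lift2
import Crest.Agent.X262.FG.Up0
import Crest.Agent.X262.FG.Fac
import Crest.Agent.X262.KV.Fc

/-!
# Row 262, FG (helper6): the lifting theorem, unconditional
-/

set_option autoImplicit false

noncomputable section

namespace Crest.Agent.X262.FG

open Crest.Agent.X277 Crest.Agent.X277.BD

theorem kvStmt (n : ℕ) : KVStmt n := by
  intro F _ _ P B b e E _ _ Φ D N q φ s' hD hN hB hq hφ hD0 hN0 hle hs0 hs
  have q1 : (1 : ℤ) ≤ q := by exact_mod_cast hq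
  refine KV.kvl n F P B b e E Φ D N q (((q : ℤ) - 1) • Lf.oth e) hD hN hB hq (fun e₁ => ?_)
    (by simp [Lf.oth_self]) hD0 hN0 hle s' ((pr_le_iff (pow_ne_zero q hs0)).1 ?_)
  · by_cases h : e₁ = e
    · simpa [h, Lf.oth_self] using hq
    · simpa [Lf.oth_ne h] using q1
  · rw [pr_pow hs0, ← Φ.R_eq hN0]
    refine hs.trans (add_le_add_right (dvs_mono fun w => ?_) _)
    have := hφ w
    rw [Pi.smul_apply, Lf.oth_ne (Φ.l_ne w), smul_eq_mul]
    omega

theorem excStmt : ExcStmt := fun _ _ _ _ _ _ _ h =>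
  let ⟨N, g, _, h1, h2⟩ := exists_amp h
  ⟨N, g, h1.1, h1.2, h2⟩

/-- **the lifting theorem of Hacon and McKernan** -/
theorem liftStmt (n : ℕ) : LiftStmt n := liftStmt_of (kvStmt n) facUpStmt excStmt

end Crest.Agent.X262.FG
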