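import Crest.Agent.X262.FG.Basic

/-!
# Row 262, FG (helper6): the tower of Hacon and McKernan

* `Fc.R` : the restriction as a homomorphism; `Fc.KS = K + S`;
* `Fc.KV` : the lifting theorem of Kawamata, Viehweg and Nadel for the component;
* `Fc.Mob a y` : the moving part of `a` restricts to at least `y`;
* `Fc.step`, `Fc.tower`.
-/

set_option autoImplicit false
set_option linter.unusedSectionVars false

open WithZero
open scoped KaehlerDifferential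

noncomputable section

namespace Crest.Agent.X262.FG

open Crest.Agent.X277 Crest.Agent.X277.Lef Crest.Agent.X277.AN.G1 Crest.Agent.X277.BD
open Crest.Agent.X277.BD.Br (At oP kP)
open Crest.Agent.X277.Res.Log (Bd)
open Crest.Agent.X277.Link (Plc)

variable {F : Type} [Field F] [Algebra ℂ F] {P : PModel ℂ F} {n : ℕ} {E : Type} [Field E]
  [Algebra ℂ E]

theorem Lf.pl_r (p : Plc ℂ F E) (x : F) : (pl p).r x = p.r x := by
  by_cases h : p.v x ≤ 1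
  · rw [p.r_eq h, (pl p).r_eq h]
    rfl
  · rw [Plc.r, dif_neg h]
    exact dif_neg h

theorem Lf.exists_u (p : Plc ℂ F E) : ∃ u : BD ℂ F, ord p.v p.triv u = 1 := by
  obtain ⟨x, hx⟩ := p.unif
  refine ⟨-pr ℂ x, ?_⟩
  rw [map_neg, ord_pr (Link.ne_zero_of_v hx), hx, log_exp, neg_neg]

theorem Lf.val_cor (p : Plc ℂ F E) (a : BD ℂ F) :
    (a - ord p.v p.triv a • (Lf.exists_u p).choose).val (pl p).V = 1 := by
  refine (ord_eq_zero (v := p.v) (hv := p.triv)).1 ?_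
  rw [map_sub, map_zsmul, (Lf.exists_u p).choose_spec, smul_eq_mul, mul_one, sub_self]

/-- the restriction as a homomorphism -/
def Lf.rsH (p : Plc ℂ F E) : BD ℂ F →+ BD ℂ E := AddMonoidHom.mk'
  (fun a => (pl p).res (a - ord p.v p.triv a • (Lf.exists_u p).choose)) fun a a' => by
    rw [← Pl.res_add (Lf.val_cor p a) (Lf.val_cor p a'), map_add, add_smul]
    congr 1
    abel

theorem Lf.od_congr {P' : PModel ℂ F} {B : Bd P n} {C : Bd P' n} {e : B.ι} {e' : C.ι}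
    (h : C.v e' = B.v e) : od C e' = od B e := by
  unfold od
  congr 1

namespace Fc

variable {B : Bd P (n + 1)} {b : Module.Basis (Fin (n + 1)) F Ω[F⁄ℂ]} {e : B.ι} (Φ : Fc B b e E)
  {a a' : BD ℂ F} {s : F}

theorem V_eq : (pl Φ.p).V = rz (B.v e) (triv B e) := by
  have h := Φ.v_eq
  refine Subtype.ext ?_
  change Φ.p.v.valuationSubring = (B.v e).valuationSubring
  rw [h]

theorem val_one (h : od B e a = 0) : a.val (pl Φ.p).V = 1 := Φ.V_eq ▸ od_eq_zero.1 h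

theorem ord_eq (a : BD ℂ F) : ord Φ.p.v Φ.p.triv a = od B e a := by
  have h := Φ.v_eq
  unfold od
  congr 2

/-- the restriction as a homomorphism -/
def R : BD ℂ F →+ BD ℂ E := Lf.rsH Φ.p

theorem R_eq (h : od B e a = 0) : Φ.R a = (pl Φ.p).res a := by
  change (pl Φ.p).res (a - ord Φ.p.v Φ.p.triv a • _) = _
  rw [Φ.ord_eq a, h, zero_smul, sub_zero]

theorem R_mono (h : od B e a = od B e a') (hle : a ≤ a') : Φ.R a ≤ Φ.R a' :=
  Pl.res_mono (Lf.val_cor _ a) (Lf.val_cor _ a') (by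
    rw [Φ.ord_eq a, Φ.ord_eq a', h]; exact sub_le_sub_right hle _)

theorem R_nonneg (h : od B e a = 0) (hle : 0 ≤ a) : 0 ≤ Φ.R a :=
  map_zero Φ.R ▸ Φ.R_mono (by rw [h, map_zero]) hle

theorem free_R (hf : Free a) (h : od B e a = 0) : Free (Φ.R a) :=
  Φ.R_eq h ▸ Pl.free_res hf (Φ.val_one h)

theorem r_mem (h : od B e a = 0) (hs : s ∈ a.Sec) : Φ.p.r s ∈ (Φ.R a).Sec := by
  rw [Φ.R_eq h, ← Lf.pl_r]
  exact Pl.r_mem_Sec (Φ.val_one h) hs

theorem R_dvs {c : B.ι → ℤ} (h : c e = 0) : Φ.R (dvs B c) = dvs Φ.B' fun w => c (Φ.l w) := by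
  rw [Φ.R_eq (by rw [od_dvs, h]), Φ.res_dvs c h]

theorem od_pr_of_r (h : Φ.p.r s ≠ 0) : s ≠ 0 ∧ od B e (pr ℂ s) = 0 := by
  rw [← Lf.pl_r, Pl.r_ne_zero_iff] at h
  have h0 : s ≠ 0 := RZ.ne_zero_iff.1 (h ▸ one_ne_zero)
  refine ⟨h0, od_eq_zero.2 ?_⟩
  rw [← Φ.V_eq, val_pr h0, h]

open Classical in
/-- `K + S` -/
def KS (_ : Fc B b e E) : BD ℂ F := kP P b + dvs B (Pi.single e 1)

theorem od_KS : od B e Φ.KS = 0 := by
  simp [KS, Φ.od_K]

theorem R_KS : Φ.R Φ.KS = kP Φ.P' Φ.b' := by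
  rw [Φ.R_eq Φ.od_KS]
  exact Φ.res_K

theorem KS_mem : Φ.KS ∈ Br.On P := add_mem (Br.kP_mem b) (dvs_mem B _)

/-- `s'` is the restriction of a section of `a` -/
def Lf (a : BD ℂ F) (s' : E) : Prop := ∃ s ∈ a.Sec, Φ.p.r s = s'

/-- the lifting theorem of Kawamata, Viehweg and Nadel -/
def KV : Prop := ∀ (D N : BD ℂ F) (q : ℕ) (φ : Φ.B'.ι → ℤ) (s' : E), D ∈ Br.On P → Free N →
  Big N → 0 < q → (∀ w, φ w < q) → od B e D = 0 → od B e N = 0 → q • Φ.KS + N ≤ q • D →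
  s' ≠ 0 → q • pr ℂ s' ≤ q • kP Φ.P' Φ.b' + Φ.R N + dvs Φ.B' φ → Φ.Lf D s'

/-- the moving part of `a` restricts to at least `y` -/
def Mob (a : BD ℂ F) (y : BD ℂ E) : Prop :=
  ∃ Θ, Free Θ ∧ Θ ≤ a ∧ od B e Θ = 0 ∧ y ≤ Φ.R Θ

variable {Φ}

theorem mob_of_lf {y : BD ℂ E} (hy : Free y) (ha : od B e a = 0)
    (h : ∀ g ∈ y.Sec, g ≠ 0 → Φ.Lf a g) : Φ.Mob a y := by
  obtain ⟨r, s, h0, h1, h2⟩ := hy.exists_fam
  choose t ht hr using fun i => h (s i) (h1 i) (h0 i)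
  have h3 := fun i => Φ.od_pr_of_r (s := t i) (hr i ▸ h0 i)
  have h4 : mxf ℂ t ≤ a := fun V => by
    obtain ⟨i, hi⟩ := exists_val_mxf (k := ℂ) ⟨0, (h3 0).1⟩ V
    exact hi ▸ ht i V
  have h5 : od B e (mxf ℂ t) = 0 := le_antisymm (ha ▸ od_mono h4)
    ((h3 0).2 ▸ od_mono ((pr_le_iff (h3 0).1).2 (mem_Sec_mxf t 0)))
  refine ⟨mxf ℂ t, free_mxf t, h4, h5, fun W => ?_⟩
  obtain ⟨i, hi⟩ := h2 W
  rw [← hi, ← hr i]
  exact Φ.r_mem h5 (mem_Sec_mxf t i) W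

/-- one step of the tower -/
theorem step (hK : Φ.KV) {L M T T' Pm : BD ℂ F} {G : BD ℂ E} {δ β : B.ι → ℤ} {l i : ℕ}
    (hL : L = M + dvs B δ) (hM : Free M) (hM0 : od B e M = 0) (hδ : ∀ e₁, 0 ≤ δ e₁) (hδ0 : δ e = 0)
    (hβ : ∀ e₁, β e₁ = 0 ∨ β e₁ = 1 ∧ δ e₁ = 0) (hβ0 : β e = 0) (hT0 : od B e T = 0)
    (hf : Free (T + dvs B β)) (hb : Big (T + dvs B β)) (hP : Free Pm) (hP0 : od B e Pm = 0)
    (hT' : T' + i • L = T + Φ.KS + dvs B β + Pm) (hLm : L ∈ Br.On P) (hm : T' ∈ Br.On P)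
    (hf' : Free T') (hG : Free G) (hGL : G ≤ Φ.R L) (ih : Φ.Mob (l • L + T) (l • G + Φ.R T)) :
    Φ.Mob ((l + i) • L + T') ((l + i) • G + Φ.R T') := by
  obtain ⟨Θ, h1, h2, h3, h4⟩ := ih
  obtain ⟨d, hd⟩ : ∃ d : ℕ, ∀ e₁, δ e₁ ≤ d := by
    obtain ⟨d, hd⟩ := (Set.finite_range δ).bddAbove
    exact ⟨d.toNat, fun e₁ => (hd ⟨e₁, rfl⟩).trans (Int.self_le_toNat d)⟩
  have hL0 : od B e L = 0 := by rw [hL, map_add, hM0, od_dvs, hδ0, add_zero]
  have hT'0 : od B e T' = 0 := by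
    simpa [hL0, hT0, Φ.od_KS, hβ0, hP0] using congrArg (od B e) hT'
  have hD0 : od B e ((l + i) • L + T') = 0 := by simp [hL0, hT'0]
  have hβ' : ∀ e₁, 0 ≤ β e₁ := fun e₁ => by rcases hβ e₁ with h | h <;> omega
  refine mob_of_lf ((hG.nsmul _).add (Φ.free_R hf' hT'0)) hD0 fun g hg g0 => ?_
  obtain ⟨q, hq⟩ : ∃ q, q = l * d := ⟨_, rfl⟩
  have e1 : T' = T + Φ.KS + dvs B β + Pm - i • L := eq_sub_of_add_eq hT'
  refine hK _ (q • Θ + (T + dvs B β) + l • M + (q + 1) • Pm) (q + 1)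
    (fun w => (q • β + l • δ) (Φ.l w)) g (add_mem (nsmul_mem hLm _) hm)
    ((((h1.nsmul _).add hf).add (hM.nsmul _)).add (hP.nsmul _)) ?_ q.succ_pos (fun w => ?_) hD0
    (by simp [h3, hT0, hβ0, hM0, hP0]) ?_ g0 ?_
  · have h5 := hb.add_eff (((h1.nsmul q).add (hM.nsmul l)).add (hP.nsmul (q + 1))).eff
    convert h5 using 1
    abel
  · have h5 : (l : ℤ) * δ (Φ.l w) ≤ q := by
      rw [hq, Nat.cast_mul]
      exact mul_le_mul_of_nonneg_left (hd _) (Nat.cast_nonneg l)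
    rw [Pi.add_apply, Pi.smul_apply, Pi.smul_apply, nsmul_eq_mul, nsmul_eq_mul]
    push_cast
    rcases hβ (Φ.l w) with h | h
    · rw [h]; omega
    · rw [h.1, h.2]; omega
  · have h5 := add_nonneg (add_nonneg (nsmul_nonneg (sub_nonneg.2 h2) q)
      (nsmul_nonneg (dvs_nonneg hβ') q)) (nsmul_nonneg (dvs_nonneg hδ) l)
    rw [← sub_nonneg]
    convert h5 using 1
    rw [e1, hL]
    module
  · have h5 := add_nonneg (add_nonneg (nsmul_nonneg (sub_nonneg.2 ((pr_le_iff g0).2 hg)) (q + 1))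
      (nsmul_nonneg (sub_nonneg.2 h4) q)) (nsmul_nonneg (sub_nonneg.2 hGL) (l + i + q * i))
    rw [← sub_nonneg, ← Φ.R_dvs (by simp [hβ0, hδ0]), ← Φ.R_KS]
    convert h5 using 1
    simp only [e1, hL, dvs_add, dvs_nsmul, map_add, map_sub, map_nsmul]
    module

theorem exists_H (e : B.ι) {α : Type} [Finite α] {y : α → BD ℂ F}
    (hy : ∀ i, y i ∈ Br.On P) :
    ∃ H ∈ Br.On P, od B e H = 0 ∧ ∀ i, Free (y i + H) ∧ Big (y i + H) := by
  obtain ⟨g, -, hg⟩ := exists_od_zero B e (oP P)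
  have hA := (amp_oP P).sub_pr g
  choose N hN using fun i => hA.exists_free (hy i)
  choose N' hN' using fun i => hA.exists_amp (hy i)
  obtain ⟨M, hM⟩ := ((Set.finite_range N).union (Set.finite_range N')).bddAbove
  refine ⟨M • (oP P - pr ℂ g), nsmul_mem hA.1 M, by rw [map_nsmul, hg, smul_zero], fun i => ?_⟩
  rw [add_comm]
  exact ⟨hN i M (hM (Or.inl ⟨i, rfl⟩)), (hN' i M (hM (Or.inr ⟨i, rfl⟩))).big⟩

/-- **the tower** -/
theorem tower (hK : Φ.KV) {L M Pk : BD ℂ F} {G : BD ℂ E} {δ c : B.ι → ℤ} {k : ℕ} (hk : 0 < k)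
    (hL : L = M + dvs B δ) (hM : Free M) (hM0 : od B e M = 0) (hδ : ∀ e₁, 0 ≤ δ e₁) (hδ0 : δ e = 0)
    (hL' : L = k • Φ.KS + dvs B c + Pk) (hc : ∀ e₁, 0 ≤ c e₁ ∧ c e₁ ≤ k) (hc0 : c e = 0)
    (hcδ : ∀ e₁, c e₁ = 0 ∨ δ e₁ = 0) (hP : Free Pk) (hPm : Pk ∈ Br.On P) (hG : Free G)
    (hGL : G ≤ Φ.R L) :
    ∃ H ∈ Br.On P, od B e H = 0 ∧ ∀ l : ℕ, Φ.Mob (l • L + H) (l • G + Φ.R H) := by
  let D : ℕ → BD ℂ F := fun r => r • Φ.KS + dvs B fun e₁ => min (c e₁) r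
  let β : ℕ → B.ι → ℤ := fun r e₁ => min (c e₁) (r + 1) - min (c e₁) r
  have hD : ∀ r, D r ∈ Br.On P := fun r => add_mem (nsmul_mem Φ.KS_mem r) (dvs_mem B _)
  have hD0 : ∀ r, od B e (D r) = 0 := fun r => by simp [D, Φ.od_KS, hc0]
  have hD1 : ∀ r, D (r + 1) = D r + Φ.KS + dvs B (β r) := fun r => by
    have h1 : (fun e₁ => min (c e₁) ((r + 1 : ℕ) : ℤ)) = (fun e₁ => min (c e₁) (r : ℤ)) + β r := by
      ext e₁
      simp [β]
    simp only [D, h1, dvs_add, succ_nsmul]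
    abel
  have hDz : D 0 = 0 := by
    have h1 : (fun e₁ => min (c e₁) ((0 : ℕ) : ℤ)) = 0 := by
      ext e₁
      simpa using (hc e₁).1
    simp only [D, h1, dvs_zero, zero_smul, add_zero]
  have hDk : D k + Pk = L := by
    have h1 : (fun e₁ => min (c e₁) (k : ℤ)) = c := funext fun e₁ => min_eq_left (hc e₁).2
    simp only [D, h1, hL']
  have hL0 : od B e L = 0 := by rw [hL, map_add, hM0, od_dvs, hδ0, add_zero]
  have hP0 : od B e Pk = 0 := by simpa [hD0, hL0] using congrArg (od B e) hDk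
  have hLm : L ∈ Br.On P := hDk ▸ add_mem (hD k) hPm
  have hβ : ∀ r e₁, β r e₁ = 0 ∨ β r e₁ = 1 ∧ δ e₁ = 0 := fun r e₁ => by
    have := hcδ e₁
    simp only [β]
    omega
  have hβ0 : ∀ r, β r e = 0 := fun r => by
    simp only [β, hc0]
    omega
  obtain ⟨H, h1, h2, h3⟩ := exists_H e (α := Fin k ⊕ Fin k)
    (y := Sum.elim (fun r => D r) fun r => D r + dvs B (β r)) (by
      rintro (r | r)
      exacts [hD r, add_mem (hD r) (dvs_mem B _)])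
  have h4 : ∀ r < k, Free (D r + H) := fun r hr => (h3 (.inl ⟨r, hr⟩)).1
  have h5 : ∀ r < k, Free (D r + H + dvs B (β r)) ∧ Big (D r + H + dvs B (β r)) := fun r hr => by
    rw [add_right_comm]
    exact h3 (.inr ⟨r, hr⟩)
  have h6 : ∀ r, od B e (D r + H) = 0 := fun r => by rw [map_add, hD0, h2, add_zero]
  have h7 : Free H := by simpa [hDz] using h4 0 hk
  have key : ∀ l : ℕ, Φ.Mob (l • L + H) (l • G + Φ.R H) → ∀ r < k,
      Φ.Mob (l • L + (D r + H)) (l • G + Φ.R (D r + H)) := by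
    intro l hl r
    induction r with
    | zero => intro _; rwa [hDz, zero_add]
    | succ r ih =>
      intro hr
      have hr' := r.lt_succ_self.trans hr
      exact step (i := 0) hK hL hM hM0 hδ hδ0 (hβ r) (hβ0 r) (h6 r) (h5 r hr').1 (h5 r hr').2
        Free.zero (map_zero _) (by rw [hD1]; module) hLm (add_mem (hD _) h1) (h4 _ hr) hG hGL
        (ih hr')
  refine ⟨H, h1, h2, fun l => ?_⟩
  induction l with
  | zero => exact ⟨H, h7, by simp, h2, by simp⟩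
  | succ l ih =>
    obtain ⟨k, rfl⟩ := Nat.exists_eq_succ_of_ne_zero hk.ne'
    have hr := k.lt_succ_self
    exact step (i := 1) hK hL hM hM0 hδ hδ0 (hβ k) (hβ0 k) (h6 k) (h5 k hr).1 (h5 k hr).2
      hP hP0 (by rw [← hDk, hD1]; module) hLm h1 h7 hG hGL (key l ih k hr)

end Fc

end Crest.Agent.X262.FG
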