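import Crest.Agent.X262.FG.Lift0
import Crest.Agent.X277.Up.B

/-!
# Row 262, FG (helper6): change of the model for the lifting theorem

* `ord_kP_le`, `isPD_of_dom`, `exists_lab_of_od`, `od_one_le`, `sec_le_of_exc`;
* `exists_lres` : a log resolution on which given classes are supported on the boundary.
-/

set_option autoImplicit false
set_option linter.unusedSectionVars false

open WithZero
open scoped KaehlerDifferential

noncomputable section

namespace Crest.Agent.X262.FG.Lf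

open Crest.Agent.X277 Crest.Agent.X277.Lef Crest.Agent.X277.AN.G1 Crest.Agent.X277.BD
open Crest.Agent.X277.BD.Br (At oP kP)
open Crest.Agent.X277.Res.Log (Bd On IsoOff)
open Crest.Agent.X277.Link (IsPD)

variable {F : Type} [Field F] [Algebra ℂ F] {P Q : PModel ℂ F} {n : ℕ} {B : Bd P n} {C : Bd Q n}
  {v : Valuation F ℤᵐ⁰} {a : BD ℂ F} {x : Pts P} {g : F}

variable (P) in
theorem exists_on (hv : ∀ c : ℂ, v (algebraMap ℂ F c) ≤ 1) : ∃ x : Pts P, On v x :=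
  Br.exists_ov' P (rz v hv)

theorem ord_of_at {hv : ∀ c : ℂ, v (algebraMap ℂ F c) ≤ 1} (h : At a x g) (hx : On v x) :
    ord v hv a = -Res.Out.ord v g := by
  rw [Res.Out.ord, neg_neg, ← vl_eq (hv := hv) (h (rz v hv) fun f hf => hx f hf)]
  rfl

variable (b : Module.Basis (Fin n) F Ω[F⁄ℂ])

theorem ord_kP_le (hv : IsPD P v) (Q : PModel ℂ F) :
    ord v hv.triv (kP Q b) ≤ ord v hv.triv (kP P b) := by
  obtain ⟨x, hx⟩ := exists_on P hv.triv
  obtain ⟨y, hy⟩ := exists_on Q hv.triv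
  obtain ⟨t, ht⟩ := exists_crd b x
  obtain ⟨s, hs⟩ := exists_crd b y
  rw [← exp_le_exp, exp_ord, exp_ord,
    vl_eq (hv := hv.triv) (Br.at_kP b ht _ fun f hf => hx f hf),
    vl_eq (hv := hv.triv) (Br.at_kP b hs _ fun f hf => hy f hf)]
  exact Res.Log.v_jac_le_of_loc b (hv.loc_lp hx) ht fun l => hy _ (hs.mem l)

theorem od_one_le (e : C.ι) : od C e (dvs B fun _ => 1) ≤ od C e (kP Q b - kP P b) + 1 := by
  obtain ⟨x, hx⟩ := exists_on P (triv C e)
  obtain ⟨y, hy⟩ := C.ne e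
  obtain ⟨t, ht⟩ := exists_crd b x
  obtain ⟨s, hs⟩ := exists_crd b y
  have h1 := Bd.ord_jac_ge (B₀ := B) b hy hx hs ht
  rw [Res.Out.ord_div (ht.jac_ne (lp_fin x) b) (hs.jac_ne (lp_fin y) b)] at h1
  rw [map_sub, od, ord_of_at (at_dvs B _ x) hx, ord_of_at (Br.at_kP b ht) hx,
    ord_of_at (Br.at_kP b hs) hy, Res.Out.ord_inv, neg_neg, Bd.ord_mon']
  simp only [one_mul]
  omega

variable {b}

theorem isPD_of_dom (h : oP P ∈ Br.On Q) (hv : IsPD P v) : IsPD Q v := by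
  obtain ⟨y, hy⟩ := exists_on Q hv.triv
  obtain ⟨i, hi⟩ := Br.gn_of_mem ⟨0, P.y_ne 0⟩ h y
  obtain ⟨x, -, h1⟩ := exists_dom (lp y) hi.2
  exact Link.isPD_of_loc hv.nrm ((hv.loc_lp fun f hf => hy f (h1.le hf)).mono h1.le hy)

theorem ord_dvs_of_ne (hv : IsPD Q v) (h : ∀ e, C.v e ≠ v) (c : C.ι → ℤ) :
    ord v hv.triv (dvs C c) = 0 := by
  obtain ⟨y, h1, h2⟩ := Up.exists_off hv h
  rw [ord_of_at (at_dvs C c y) h1, h2.mon_eq]
  simp [Res.Out.ord]

theorem exists_lab_of_od (h : oP P ∈ Br.On Q) {e : B.ι} {c : C.ι → ℤ} (hc : od B e (dvs C c) ≠ 0) :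
    ∃ e', C.v e' = B.v e := by
  by_contra h1
  push Not at h1
  exact hc (ord_dvs_of_ne (isPD_of_dom h (B.isPD e)) h1 c)

/-- exceptional divisors do not change the sections -/
theorem sec_le_of_exc (h : oP P ∈ Br.On Q) (ha : a ∈ Br.On P) {c : C.ι → ℤ}
    (hc : ∀ e, IsPD P (C.v e) → c e ≤ 0) : (a + dvs C c).Sec ≤ a.Sec := fun s hs => by
  refine Br.mem_Sec_of (P := P) fun x => (ha x).imp fun g hg => ⟨hg, Link.mem_lp_of_v ?_⟩
  intro v hv hx
  have h1 : ord v hv.triv (dvs C c) ≤ 0 := by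
    by_cases h2 : ∃ e, C.v e = v
    · obtain ⟨e, rfl⟩ := h2
      exact (od_dvs c).trans_le (hc e hv)
    · push Not at h2
      exact (ord_dvs_of_ne (isPD_of_dom h hv) h2 c).le
  rw [Link.v_div_le hg.ne, ← vl_eq (hv := hv.triv) (hg _ fun f hf => hx f hf), ← exp_ord]
  refine (le_exp_ord (hv := hv.triv) hs).trans (exp_le_exp.2 ?_)
  rw [map_add]
  omega

theorem mem_range_iff : a ∈ (dvsH C).range ↔ a = dvs C fun e => od C e a :=
  ⟨by rintro ⟨c, rfl⟩; exact congrArg (dvs C) (funext fun e => (od_dvs c).symm), fun h => ⟨_, h.symm⟩⟩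

theorem dvs_mem_range (c : C.ι → ℤ) : dvs C c ∈ (dvsH C).range := ⟨c, rfl⟩

theorem dvs_le_of_od (ha : a ∈ (dvsH C).range) {c : C.ι → ℤ} (h : ∀ e, c e ≤ od C e a) :
    dvs C c ≤ a := by
  rw [mem_range_iff.1 ha]
  exact dvs_mono h

/-- a log resolution adapted to the boundary and to one more class -/
theorem exists_lres (b : Module.Basis (Fin n) F Ω[F⁄ℂ]) (B : Bd P n) (a : BD ℂ F) :
    ∃ (Q : PModel ℂ F) (C : Bd Q n), IsoOff P C ∧ oP P ∈ Br.On Q ∧ (∀ e, ∃ e', C.v e' = B.v e) ∧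
      (∀ c, dvs B c ∈ (dvsH C).range) ∧ kP Q b - kP P b ∈ (dvsH C).range ∧
      a ∈ (dvsH C).range := by
  classical
  obtain ⟨Q, C, h1, h2, h3⟩ := Up.exists_res b B ∅ (ι := Option B.ι)
    fun o => o.elim a fun e => dvs B (Pi.single e 1)
  have h4 := fun o => mem_range_iff.2 (eq_dvs (B := C) (h3 o).1 (h3 o).2)
  have h5 : oP P ∈ Br.On Q := Br.mxf_mem fun x => (h1.dom x).imp fun i hi => ⟨P.y_ne i, hi⟩
  refine ⟨Q, C, h1.isoOff, h5, h2, fun c => ?_, mem_range_iff.2 (eq_dvs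
    (sub_mem (Br.kP_mem b) (Br.On_le_iff.2 h5 (Br.kP_mem b))) fun y hy => ?_), h4 none⟩
  · rw [dvs_eq_sum]
    exact sum_mem fun e _ => zsmul_mem (h4 (some e)) _
  · obtain ⟨x, hx⟩ := h1.isoOff.iso y hy
    obtain ⟨t, ht⟩ := exists_crd b y
    rw [← div_self (ht.jac_ne (lp_fin y) b)]
    exact (Br.at_kP b ht).sub fun V hV => Br.at_kP b (hx ▸ ht) V fun f hf => hV f (hx ▸ hf)

end Crest.Agent.X262.FG.Lf
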