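import Crest.Agent.X262.FG.Lift1

/-!
# Row 262, FG (helper6): the lifting theorem of Hacon and McKernan

* `KVStmt n`, `ExcStmt` : the two inputs besides `FacUpStmt`;
* `liftStmt_of`.
-/

set_option autoImplicit false
set_option linter.unusedSectionVars false

open WithZero
open scoped KaehlerDifferential

noncomputable section

namespace Crest.Agent.X262.FG

open Crest.Agent.X277 Crest.Agent.X277.Lef Crest.Agent.X277.AN.G1 Crest.Agent.X277.BD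
open Crest.Agent.X277.BD.Br (At oP kP)
open Crest.Agent.X277.Res.Log (Bd On IsoOff)
open Crest.Agent.X277.Link (IsPD)

/-- the lifting theorem of Kawamata, Viehweg and Nadel -/
def KVStmt (n : ℕ) : Prop := ∀ (F : Type) [Field F] [Algebra ℂ F] (P : PModel ℂ F)
  (B : Bd P (n + 1)) (b : Module.Basis (Fin (n + 1)) F Ω[F⁄ℂ]) (e : B.ι) (E : Type) [Field E]
  [Algebra ℂ E] (Φ : Fc B b e E), Φ.KV

/-- relatively ample exceptional divisors -/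
def ExcStmt : Prop := ∀ (F : Type) [Field F] [Algebra ℂ F] (n : ℕ) (P Q : PModel ℂ F) (C : Bd Q n),
  IsoOff P C → ∃ (N : ℕ) (g : C.ι → ℤ), (∀ e, 0 ≤ g e) ∧ (∀ e, IsPD P (C.v e) → g e = 0) ∧
    Amp Q (N • oP P - dvs C g)

namespace Lf

variable {F : Type} [Field F] [Algebra ℂ F] {P Q : PModel ℂ F} {n : ℕ} {E : Type} [Field E]
  [Algebra ℂ E] {B : Bd P (n + 1)} {C : Bd Q (n + 1)} {b : Module.Basis (Fin (n + 1)) F Ω[F⁄ℂ]}
  {e : B.ι} {e₁ : C.ι}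

theorem single_nn {α : Type} [DecidableEq α] (i j : α) : 0 ≤ (Pi.single i 1 : α → ℤ) j := by
  rw [Pi.single_apply]
  split_ifs <;> omega

/-- the component on two models -/
structure Two (Φ : Fc B b e E) (Ψ : Fc C b e₁ E) : Prop where
  dom : oP P ∈ Br.On Q
  v_eq : C.v e₁ = B.v e
  dv : ∀ c, dvs B c ∈ (dvsH C).range
  kp : kP Q b - kP P b ∈ (dvsH C).range
  p_eq : Ψ.p = Φ.p
  b_eq : Ψ.b' = Φ.b'
  dom' : oP Φ.P' ∈ Br.On Ψ.P'

namespace Two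

variable {Φ : Fc B b e E} {Ψ : Fc C b e₁ E} (h : Two Φ Ψ) {a : BD ℂ F}

include h

theorem R_eq : Ψ.R = Φ.R := by rw [Fc.R, h.p_eq, Fc.R]

theorem od_eq : od C e₁ = od B e := Lf.od_congr h.v_eq

theorem R_KS : Φ.R Ψ.KS = kP Ψ.P' Φ.b' := by rw [← h.R_eq, Ψ.R_KS, h.b_eq]

theorem od_KS : od B e Ψ.KS = 0 := h.od_eq ▸ Ψ.od_KS

theorem ks : Ψ.KS - Φ.KS ∈ (dvsH C).range := by
  convert sub_mem (add_mem h.kp (dvs_mem_range _)) (h.dv _) using 1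
  unfold Fc.KS
  rw [add_sub_add_comm, add_sub_assoc]

theorem R_range (ha : a ∈ (dvsH C).range) (h0 : od B e a = 0) :
    Φ.R a = dvs Ψ.B' fun w => od C (Ψ.l w) a := by
  rw [← Ψ.R_dvs (c := fun e' => od C e' a) (by rw [h.od_eq, h0]), ← mem_range_iff.1 ha, h.R_eq]

theorem od_R (ha : a ∈ (dvsH C).range) (h0 : od B e a = 0) (w : Ψ.B'.ι) :
    od Ψ.B' w (Φ.R a) = od C (Ψ.l w) a := by rw [h.R_range ha h0, od_dvs]

theorem exists_lab (w : Φ.B'.ι) : ∃ w', Ψ.B'.v w' = Φ.B'.v w := by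
  classical
  have h0 : (Pi.single (Φ.l w) 1 : B.ι → ℤ) e = 0 := Pi.single_eq_of_ne (Φ.l_ne w).symm _
  refine exists_lab_of_od h.dom' (c := fun w' => od C (Ψ.l w') (dvs B (Pi.single (Φ.l w) 1))) ?_
  rw [← h.R_range (h.dv _) (by rw [od_dvs, h0]), Φ.R_dvs h0, od_dvs, Pi.single_eq_same]
  exact one_ne_zero

theorem od_ks_nonneg (w : Ψ.B'.ι) : 0 ≤ od C (Ψ.l w) (Ψ.KS - Φ.KS) := by
  rw [← h.od_R h.ks (by rw [map_sub, h.od_KS, Φ.od_KS, sub_self]), map_sub, h.R_KS, Φ.R_KS]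
  exact od_nonneg (sub_nonneg.2 (Br.kP_le _ h.dom'))

open Classical in
theorem T_le : dvs C (Pi.single e₁ 1) ≤ dvs B (Pi.single e 1) := dvs_le_of_od (h.dv _) fun e' => by
  by_cases h1 : e' = e₁
  · rw [h1, h.od_eq, od_dvs, Pi.single_eq_same, Pi.single_eq_same]
  · rw [Pi.single_eq_of_ne h1]
    exact od_nonneg (dvs_nonneg (single_nn e))

end Two

open Classical in
/-- the other components -/
def oth (e : B.ι) : B.ι → ℤ := 1 - Pi.single e 1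

theorem oth_self (e : B.ι) : oth e e = 0 := by simp [oth]

theorem oth_ne {e' : B.ι} (h : e' ≠ e) : oth e e' = 1 := by simp [oth, h]

theorem oth_nonneg (e e' : B.ι) : 0 ≤ oth e e' := by
  by_cases h : e' = e
  · rw [h, oth_self]
  · rw [oth_ne h]; exact zero_le_one

theorem od_oth_le {Φ : Fc B b e E} {Ψ : Fc C b e₁ E} (e' : C.ι) :
    od C e' (dvs B (oth e)) ≤ od C e' (Ψ.KS - Φ.KS) + 1 := by
  classical
  have h1 := od_one_le (B := B) b e'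
  have h2 := single_nn e₁ e'
  change od C e' (dvs B 1) ≤ _ at h1
  simp only [oth, dvs_sub, Fc.KS, map_sub, map_add, od_dvs] at h1 ⊢
  omega

variable {Φ : Fc B b e E} {Ψ : Fc C b e₁ E} {m N q : ℕ} {a A L : BD ℂ F} {c : B.ι → ℤ}
  {γ : Φ.B'.ι → ℤ} {σ : F} {s' : E}

/-- the tower on the log resolution -/
theorem exists_tower (h : Two Φ Ψ) (hK : Ψ.KV) (ha : a ∈ Br.On P) (ha0 : od B e a = 0)
    (hc0 : c e = 0) (hc : ∀ e', 0 ≤ c e' ∧ c e' ≤ m) (hcan : Can Φ.B' Φ.b' (m + 1) γ)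
    (hL : L = (m + 1) • Φ.KS + a + dvs B c) (hA : A = (N + 1) • a - (m + 1) • dvs B (oth e))
    (hq : 0 < q) (hqa : Free (q • a)) (hqA : Free (q • A))
    (hσ : σ ∈ (q • ((m + 1) • L + a)).Sec) (hσ1 : B.v e σ = 1)
    (hZ : q • ((m + 1) • L + a) - pr ℂ σ ∈ (dvsH C).range)
    (hw : ∀ w, γ w ≠ 0 → (N + 1 : ℕ) * od Φ.B' w (Φ.R (q • ((m + 1) • L + a) - pr ℂ σ)) ≤
      q * (m + 1 : ℕ) * ((N + 1 : ℕ) * (c (Φ.l w) - γ w) + 1))
    (hs : pr ℂ s' ≤ (m + 1) • kP Φ.P' Φ.b' + Φ.R a + dvs Φ.B' γ) :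
    ∃ H ∈ Br.On Q, od B e H = 0 ∧ ∀ l : ℕ, Ψ.Mob
      (l • (((N + 1) * q * (m + 1)) • (L + (m + 1) • (kP Q b - kP P b)) + (q * (N + 1)) • a) + H)
      (l • (((N + 1) * q * (m + 1)) • pr ℂ s' + q • Φ.R A) + Φ.R H) := by
  classical
  have σ0 : σ ≠ 0 := by rintro rfl; simp at hσ1
  have hσ0 : od B e (pr ℂ σ) = 0 := by rw [od_pr σ0, Res.Out.ord, hσ1]; simp
  have hZ0 := sub_nonneg.2 ((pr_le_iff σ0).2 hσ)
  have hA0 : od B e A = 0 := by simp [hA, ha0, oth_self]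
  have hS0 := dvs_nonneg (oth_nonneg e)
  have hc1 : dvs B c ≤ m • dvs B (oth e) := by
    rw [← dvs_nsmul]
    refine dvs_mono fun e' => ?_
    by_cases h1 : e' = e
    · simp [h1, hc0, oth_self]
    · simpa [oth_ne h1] using (hc e').2
  have hZe : od B e (q • ((m + 1) • L + a) - pr ℂ σ) = 0 := by
    simp [hL, Φ.od_KS, ha0, hc0, hσ0]
  have e0 : pr ℂ σ = q • ((m + 1) • L + a) - (q • ((m + 1) • L + a) - pr ℂ σ) := by abel
  generalize q • ((m + 1) • L + a) - pr ℂ σ = Z at hZ hw hZ0 hZe e0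
  obtain ⟨n₀, hn⟩ : ∃ n₀, n₀ = (N + 1) * q * (m + 1) := ⟨_, rfl⟩
  have n0 : 0 < n₀ := by rw [hn]; positivity
  obtain ⟨X, hX⟩ : ∃ X, X = n₀ • dvs B c + (q * (m + 1)) • dvs B (oth e) -
    (n₀ * (m + 1)) • (Ψ.KS - Φ.KS) := ⟨_, rfl⟩
  have hXr : X ∈ (dvsH C).range := hX ▸ sub_mem (add_mem (nsmul_mem (h.dv _) _)
    (nsmul_mem (h.dv _) _)) (nsmul_mem h.ks _)
  have hX0 : od B e X = 0 := by simp [hX, hc0, oth_self, Φ.od_KS, h.od_KS]
  have hWr := sub_mem hXr (nsmul_mem hZ (N + 1))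
  have hW0 : od B e (X - (N + 1) • Z) = 0 := by simp [hX0, hZe]
  let ξ : C.ι → ℤ := fun e' => od C e' (X - (N + 1) • Z)
  have hξ : ∀ e', ξ e' ≤ od C e' X := fun e' => od_mono (sub_le_self _ (nsmul_nonneg hZ0 _))
  have ξ0 : ξ e₁ = 0 := by simp only [ξ, h.od_eq, hW0]
  have e1 : dvs C (fun e' => max (ξ e') 0) = X - (N + 1) • Z + dvs C fun e' => max (-ξ e') 0 := by
    rw [mem_range_iff.1 hWr, ← dvs_add]
    congr 1
    ext e'
    change max (ξ e') 0 = ξ e' + max (-ξ e') 0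
    omega
  have hAm : A ∈ Br.On P := hA ▸ sub_mem (nsmul_mem ha _) (nsmul_mem (dvs_mem B _) _)
  have hXk : ∀ e', od C e' X ≤ (n₀ * (m + 1) : ℕ) := fun e' => by
    have h1 : X ≤ (n₀ * (m + 1)) • (dvs B (oth e) - (Ψ.KS - Φ.KS)) := by
      rw [← sub_nonneg]
      convert add_nonneg (nsmul_nonneg (sub_nonneg.2 hc1) n₀)
        (nsmul_nonneg hS0 (N * q * (m + 1))) using 1
      rw [hX, hn]
      module
    refine (od_mono h1).trans ?_
    rw [map_nsmul, map_sub, nsmul_eq_mul]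
    have h2 := od_oth_le (Φ := Φ) (Ψ := Ψ) e'
    exact mul_le_of_le_one_right (Nat.cast_nonneg _) (by omega)
  have hG : n₀ • pr ℂ s' + q • Φ.R A ≤
      Ψ.R ((N + 1) • pr ℂ σ + dvs C fun e' => max (-ξ e') 0) := by
    have n1 : (0 : ℤ) < n₀ := by exact_mod_cast n0
    have h1 := hcan Ψ.P' Ψ.B' (fun w => max (ξ (Ψ.l w)) 0 / n₀) h.dom' (fun w h0 => ?_)
      fun w => Int.ediv_nonneg (le_max_right _ _) n1.le
    · have h2 : n₀ • dvs Ψ.B' (fun w => max (ξ (Ψ.l w)) 0 / n₀) ≤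
          Φ.R (dvs C fun e' => max (ξ e') 0) := by
        rw [← h.R_eq, Ψ.R_dvs (by simp [ξ0]), ← dvs_nsmul]
        refine dvs_mono fun w => ?_
        rw [Pi.smul_apply, nsmul_eq_mul]
        exact Int.mul_ediv_self_le n1.ne'
      rw [← sub_nonneg, h.R_eq]
      convert add_nonneg (add_nonneg (nsmul_nonneg (sub_nonneg.2 hs) n₀)
        (nsmul_nonneg (sub_nonneg.2 h1) n₀)) (sub_nonneg.2 h2) using 1
      rw [e1, e0, hX, hL, hA, hn, ← h.R_KS, ← Φ.R_KS]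
      simp only [map_add, map_sub, map_nsmul]
      module
    · obtain ⟨w', hw'⟩ := h.exists_lab w
      refine ⟨w', hw', Int.le_ediv_of_mul_le n1 (le_max_of_le_left ?_)⟩
      have h2 := ord_kP_le Φ.b' (Φ.B'.isPD w) Ψ.P'
      change od Φ.B' w _ ≤ od Φ.B' w _ at h2
      have h3 := hw w h0
      simp only [ξ]
      rw [← h.od_R hWr hW0, Lf.od_congr hw', hX]
      simp only [map_add, map_sub, map_nsmul, h.R_KS, Φ.R_KS, Φ.R_dvs hc0, Φ.R_dvs (oth_self e),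
        od_dvs, oth_ne (Φ.l_ne w), nsmul_eq_mul]
      have h4 := mul_nonneg (Nat.cast_nonneg (α := ℤ) (n₀ * (m + 1))) (sub_nonneg.2 h2)
      rw [hn] at h4 ⊢
      push_cast at h3 h4 ⊢
      linarith
  obtain ⟨H, h1, h2, h3⟩ := Fc.tower hK (M := (N + 1) • pr ℂ σ) (Pk := q • A + n₀ • a)
    (G := n₀ • pr ℂ s' + q • Φ.R A) (δ := fun e' => max (-ξ e') 0) (c := fun e' => max (ξ e') 0)
    (k := n₀ * (m + 1)) (by positivity) rfl ((free_pr σ).nsmul _)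
    (by rw [map_nsmul, h.od_eq, hσ0, smul_zero]) (fun _ => le_max_right _ _) (by simp [ξ0])
    (by rw [e1, e0, hX, hL, hA, hn]; module)
    (fun e' => ⟨le_max_right _ _, max_le ((hξ e').trans (hXk e')) (Nat.cast_nonneg _)⟩) (by simp [ξ0])
    (fun e' => by omega)
    (hqA.add (by convert hqa.nsmul ((N + 1) * (m + 1)) using 1; rw [hn]; module))
    (Br.On_le_iff.2 h.dom (add_mem (nsmul_mem hAm _) (nsmul_mem ha _)))
    (((free_pr s').nsmul _).add (by rw [← map_nsmul]; exact Φ.free_R hqA (by simp [hA0]))) hG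
  refine ⟨H, h1, h.od_eq ▸ h2, fun l => ?_⟩
  obtain ⟨Θ, h4, h5, h6, h7⟩ := h3 l
  refine ⟨Θ, h4, h5.trans (add_le_add_left (nsmul_le_nsmul_right ?_ l) H), h6, by
    rw [← hn]; rwa [h.R_eq] at h7 ⊢⟩
  have h8 : dvs C (fun e' => max (ξ e') 0) ≤ X + (n₀ * (m + 1)) • (kP Q b - kP P b) := by
    refine dvs_le_of_od (add_mem hXr (nsmul_mem h.kp _)) fun e' => max_le ((hξ e').trans
      (od_mono (le_add_of_nonneg_right (nsmul_nonneg (sub_nonneg.2 (Br.kP_le b h.dom)) _))))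
      (od_nonneg ?_)
    convert add_nonneg (add_nonneg (nsmul_nonneg (dvs_nonneg fun e' => (hc e').1) n₀)
      (nsmul_nonneg hS0 (q * (m + 1)))) (nsmul_nonneg (sub_nonneg.2 h.T_le) (n₀ * (m + 1)))
      using 1
    rw [hX, Fc.KS, Fc.KS]
    module
  rw [← sub_nonneg] at h8 ⊢
  convert h8 using 1
  rw [e1, e0, hX, hL, hn]
  module

/-- the last step -/
theorem lf_of_tower (h : Two Φ Ψ) (hK : Ψ.KV) (ha : a ∈ Br.On P) (ha0 : od B e a = 0)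
    (hc0 : c e = 0) (hc : ∀ e', 0 ≤ c e' ∧ c e' ≤ m) (hN : m + 1 < N)
    (hL : L = (m + 1) • Φ.KS + a + dvs B c) (hA : A = N • a - (m + 1) • dvs B (oth e))
    (hq : 0 < q) (hqA : Free (q • A)) {u₀ : ℕ} {g : C.ι → ℤ} (hg : ∀ e', 0 ≤ g e') (hg0 : g e₁ = 0)
    (hu : Amp Q (u₀ • q • A - dvs C g)) (hs0 : s' ≠ 0)
    (hs : pr ℂ s' ≤ (m + 1) • kP Φ.P' Φ.b' + Φ.R a + Φ.R (dvs B c)) {H : BD ℂ F} (hH : H ∈ Br.On Q)
    (hH0 : od B e H = 0) (hT : ∀ l : ℕ, Ψ.Mob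
      (l • ((N * q * (m + 1)) • (L + (m + 1) • (kP Q b - kP P b)) + (q * N) • a) + H)
      (l • ((N * q * (m + 1)) • pr ℂ s' + q • Φ.R A) + Φ.R H)) : Φ.Lf L s' := by
  classical
  obtain ⟨d, hd⟩ : ∃ d : ℕ, ∀ e', g e' ≤ d := by
    obtain ⟨d, hd⟩ := (Set.finite_range g).bddAbove
    exact ⟨d.toNat, fun e' => (hd ⟨e', rfl⟩).trans (Int.self_le_toNat d)⟩
  have up := Br.On_le_iff.2 h.dom
  have hAm : A ∈ Br.On P := hA ▸ sub_mem (nsmul_mem ha _) (nsmul_mem (dvs_mem B _) _)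
  have hLm : L ∈ Br.On P := hL ▸ add_mem (add_mem (nsmul_mem Φ.KS_mem _) ha) (dvs_mem B _)
  have hA0 : od B e A = 0 := by simp [hA, ha0, oth_self]
  have hκ : ∀ e', IsPD P (C.v e') → od C e' (kP Q b - kP P b) ≤ 0 := fun e' he' => by
    rw [map_sub, sub_nonpos]
    exact ord_kP_le b he' Q
  have hκ0 : od B e (kP Q b - kP P b) = 0 := h.od_eq ▸ le_antisymm (hκ e₁ (h.v_eq ▸ B.isPD e))
    (od_nonneg (sub_nonneg.2 (Br.kP_le b h.dom)))
  have hg1 : od B e (dvs C g) = 0 := by rw [← h.od_eq, od_dvs, hg0]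
  have h1 := hu.add_free (up (nsmul_mem (nsmul_mem hAm q) (d + 1))) (hqA.nsmul (d + 1))
  obtain ⟨l₁, h2⟩ := h1.exists_free (neg_mem (nsmul_mem hH m))
  obtain ⟨l₂, h3⟩ := h1.exists_amp (neg_mem (nsmul_mem hH m))
  obtain ⟨j, hj⟩ : ∃ j, j = l₁ + l₂ + 1 := ⟨_, rfl⟩
  have h4 := h2 j (by omega)
  have h5 := (h3 j (by omega)).big
  obtain ⟨l, hl⟩ : ∃ l, l = (u₀ + (d + 1)) * j := ⟨_, rfl⟩
  obtain ⟨Θ, t1, t2, t3, t4⟩ := hT l
  rw [h.od_eq] at t3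
  rw [h.R_eq] at t4
  obtain ⟨Y, hY⟩ : ∃ Y, Y = N • dvs B c + (m + 1) • dvs B (oth e) -
    (N * (m + 1)) • (Ψ.KS - Φ.KS) := ⟨_, rfl⟩
  have hYr : Y ∈ (dvsH C).range := hY ▸ sub_mem (add_mem (nsmul_mem (h.dv _) _)
    (nsmul_mem (h.dv _) _)) (nsmul_mem h.ks _)
  have hY0 : od B e Y = 0 := by simp [hY, hc0, oth_self, Φ.od_KS, h.od_KS]
  have hS0 := dvs_nonneg (oth_nonneg e)
  have hc1 : dvs B c ≤ m • dvs B (oth e) := by
    rw [← dvs_nsmul]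
    refine dvs_mono fun e' => ?_
    by_cases h1 : e' = e
    · simp [h1, hc0, oth_self]
    · simpa [oth_ne h1] using (hc e').2
  have j0 : 0 < j := by omega
  have l0 : 0 < l := by rw [hl]; positivity
  have N0 : 0 < N := by omega
  have key := hK (L + (m + 1) • (kP Q b - kP P b))
    (m • Θ + (j • (u₀ • q • A - dvs C g + (d + 1) • q • A) + -(m • H)))
    (l * (N * q * (m + 1) * (m + 1)))
    (fun w => od C (Ψ.l w) ((l * q * (m + 1)) • Y + j • dvs C g)) s'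
    (add_mem (up hLm) (nsmul_mem (sub_mem (Br.kP_mem b) (up (Br.kP_mem b))) _))
    ((t1.nsmul m).add h4) (by rw [add_comm]; exact h5.add_eff (t1.nsmul m).eff) (by positivity)
    (fun w => ?_) (by rw [h.od_eq, map_add, map_nsmul, hκ0]; simp [hL, Φ.od_KS, ha0, hc0])
    (by simp [h.od_eq, t3, hA0, hg1, hH0]) ?_ hs0 ?_
  · obtain ⟨s, h6, h7⟩ := key
    rw [mem_range_iff.1 h.kp, ← dvs_nsmul] at h6
    refine ⟨s, sec_le_of_exc h.dom hLm (fun e' he' => ?_) h6, h.p_eq ▸ h7⟩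
    exact nsmul_nonpos (hκ e' he') _
  · have a1 := h.od_ks_nonneg w
    have a2 := od_oth_le (Φ := Φ) (Ψ := Ψ) (Ψ.l w)
    have a3 : 0 ≤ od C (Ψ.l w) (dvs B (oth e)) := od_nonneg hS0
    have a4 : od C (Ψ.l w) (dvs B c) ≤ _ := od_mono hc1
    have a5 := hd (Ψ.l w)
    have a6 : od C (Ψ.l w) Y ≤ N * (m + 1) - 1 := by
      rw [hY]
      rw [map_nsmul, nsmul_eq_mul] at a4
      rw [map_sub, map_add, map_nsmul, map_nsmul, map_nsmul]
      simp only [nsmul_eq_mul]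
      push_cast
      have b1 : (m : ℤ) + 2 ≤ N := by exact_mod_cast hN
      have b2 : (0 : ℤ) ≤ m := Nat.cast_nonneg m
      generalize od C (Ψ.l w) (Ψ.KS - Φ.KS) = α at *
      generalize od C (Ψ.l w) (dvs B (oth e)) = t at *
      generalize od C (Ψ.l w) (dvs B c) = z at *
      have b3 := mul_le_mul_of_nonneg_left a4 (by omega : (0 : ℤ) ≤ N)
      have b4 := mul_le_mul_of_nonneg_left a2 (by nlinarith : (0 : ℤ) ≤ N * (m + 1) - 1)
      have b5 := mul_nonneg a3 (by omega : (0 : ℤ) ≤ N - m - 2)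
      linarith
    rw [map_add, map_nsmul, map_nsmul, od_dvs, nsmul_eq_mul, nsmul_eq_mul]
    have b1 := mul_le_mul_of_nonneg_left a6 (Nat.cast_nonneg (α := ℤ) (l * q * (m + 1)))
    have b2 := mul_le_mul_of_nonneg_left a5 (Nat.cast_nonneg (α := ℤ) j)
    have b3 : j * d < l * q * (m + 1) := by
      rw [mul_assoc]
      refine lt_of_lt_of_le ?_ (Nat.le_mul_of_pos_right l (by positivity))
      rw [hl, mul_comm j]
      exact Nat.mul_lt_mul_of_lt_of_le (by omega) le_rfl j0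
    have b4 : (j : ℤ) * d < (l * q * (m + 1) : ℕ) := by exact_mod_cast b3
    push_cast at b1 b4 ⊢
    linarith
  · rw [← sub_nonneg]
    convert add_nonneg (add_nonneg (add_nonneg (add_nonneg (nsmul_nonneg (sub_nonneg.2 t2) m)
      (nsmul_nonneg hS0 (l * q * (m + 1)))) (nsmul_nonneg (dvs_nonneg hg) j))
      (nsmul_nonneg (dvs_nonneg fun e' => (hc e').1) (l * (N * q * (m + 1)))))
      (nsmul_nonneg (sub_nonneg.2 h.T_le) (l * (N * q * (m + 1) * (m + 1)))) using 1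
    rw [hL, hA, hl, Fc.KS, Fc.KS]
    module
  · rw [← h.R_range (add_mem (nsmul_mem hYr _) (nsmul_mem (dvs_mem_range g) _))
      (by simp [hY0, hg1]), h.R_eq, h.b_eq, ← sub_nonneg]
    convert add_nonneg (nsmul_nonneg (sub_nonneg.2 t4) m)
      (nsmul_nonneg (sub_nonneg.2 hs) (l * (N * q * (m + 1)))) using 1
    rw [hY, hA, hl, ← h.R_KS, ← Φ.R_KS]
    simp only [map_add, map_sub, map_nsmul, map_neg]
    module

end Lf

open Lf in
/-- **the lifting theorem of Hacon and McKernan** -/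
theorem liftStmt_of {n : ℕ} (hK : KVStmt n) (hU : FacUpStmt) (hX : ExcStmt) : LiftStmt n := by
  classical
  intro F _ _ P B b e E _ _ Φ m a c γ ha ha0 hce hc hm hγ hcan hσ s' hs'
  rcases eq_or_ne s' 0 with rfl | hs0
  · exact ⟨0, zero_mem _, by rw [← Lf.pl_r, Pl.r_zero]⟩
  obtain ⟨m, rfl⟩ := Nat.exists_eq_succ_of_ne_zero hm.ne'
  obtain ⟨c₀, hc₀⟩ : ∃ c₀ : B.ι → ℤ, c₀ = c - (m + 1) • Pi.single e 1 := ⟨_, rfl⟩
  have c1 : c₀ e = 0 := by simp [hc₀, hce]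
  have c2 : ∀ e', e' ≠ e → c₀ e' = c e' := fun e' h => by simp [hc₀, h]
  have c3 : ∀ e', 0 ≤ c₀ e' ∧ c₀ e' ≤ m := fun e' => by
    by_cases h : e' = e
    · simp [h, c1]
    · have := hc e' h
      rw [c2 e' h]
      push_cast at this
      omega
  have hL : (m + 1) • kP P b + a + dvs B c = (m + 1) • Φ.KS + a + dvs B c₀ := by
    rw [hc₀, dvs_sub, dvs_nsmul, Fc.KS]
    module
  rw [Nat.succ_eq_add_one] at *
  generalize (m + 1) • kP P b + a + dvs B c = L at hL hσ ⊢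
  have hL0 : od B e L = 0 := by simp [hL, Φ.od_KS, ha0, c1]
  obtain ⟨N₀, hN⟩ := ha.exists_amp (neg_mem (nsmul_mem (dvs_mem B (oth e)) (m + 1)))
  obtain ⟨N, hN'⟩ : ∃ N, N = N₀ + m + 1 := ⟨_, rfl⟩
  have hA := hN (N + 1) (by omega)
  rw [← sub_eq_add_neg] at hA
  obtain ⟨t₁, ht₁⟩ := ha.semi
  obtain ⟨t₂, ht₂⟩ := hA.semi
  obtain ⟨q₁, q0, σ₁, s1, s2, s3⟩ := hσ (N + 1)
  obtain ⟨t, ht⟩ : ∃ t, t = t₁ + t₂ + 1 := ⟨_, rfl⟩
  have t0 : 0 < t := by omega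
  have tq : t ≤ t * q₁ := Nat.le_mul_of_pos_right t q0
  have σ0 : σ₁ ≠ 0 := by rintro rfl; simp at s2
  have z0 : od B e (q₁ • ((m + 1) • L + a) - pr ℂ σ₁) = 0 := by
    rw [map_sub, od_pr σ0, Res.Out.ord, s2]
    simp [hL0, ha0]
  have z1 : (t * q₁) • ((m + 1) • L + a) - pr ℂ (σ₁ ^ t) =
      t • (q₁ • ((m + 1) • L + a) - pr ℂ σ₁) := by rw [pr_pow σ0, smul_sub, mul_smul]
  obtain ⟨Q, C, h1, h2, h3, h4, h5, h6⟩ := exists_lres b B (q₁ • ((m + 1) • L + a) - pr ℂ σ₁)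
  obtain ⟨e₁, he₁⟩ := h3 e
  obtain ⟨Ψ, p1, p2, p3⟩ := hU F n P B b e E Φ Q C e₁ h1 he₁
  have h : Two Φ Ψ := ⟨h2, he₁, h4, h5, p1, p2, p3⟩
  have hs := (pr_le_iff (k := ℂ) hs0).2 hs'
  rw [← Φ.R_eq ha0] at hs
  have f2 := ht₂ (t * q₁) (by omega)
  obtain ⟨H, k1, k2, k3⟩ := exists_tower h (hK _ _ _ _ _ _ Ψ) ha.1 ha0 c1 c3 hcan hL rfl
    (Nat.mul_pos t0 q0) (ht₁ _ (by omega)) f2 (σ := σ₁ ^ t)
    (by rw [mul_smul]; exact pow_mem_Sec s1 t) (by rw [map_pow, s2, one_pow])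
    (z1 ▸ nsmul_mem h6 t) (fun w hw => by
      have h7 := mul_le_mul_of_nonneg_left (s3 w hw) (Nat.cast_nonneg (α := ℤ) t)
      rw [z1, map_nsmul, map_nsmul, Φ.R_eq z0, c2 _ (Φ.l_ne w), nsmul_eq_mul]
      push_cast at h7 ⊢
      linarith) hs
  obtain ⟨M, g, g1, g2, g3⟩ := hX F _ P Q C h1
  obtain ⟨-, r, -, hr⟩ := hA.nsmul (Nat.mul_pos t0 q0)
  refine lf_of_tower h (hK _ _ _ _ _ _ Ψ) ha.1 ha0 c1 c3 (by omega) hL rfl (Nat.mul_pos t0 q0) f2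
    (u₀ := M * r) g1 (g2 e₁ (he₁ ▸ B.isPD e)) ?_ hs0 (hs.trans (add_le_add_right ?_ _)) k1 k2 k3
  · convert g3.add_free (Br.On_le_iff.2 h2 (nsmul_mem (sub_mem (nsmul_mem (nsmul_mem hA.1 _) r)
      Br.oP_mem) M)) (hr.nsmul M) using 1
    module
  · rw [Φ.R_dvs c1]
    exact dvs_mono fun w => c2 _ (Φ.l_ne w) ▸ (hγ w).2

end Crest.Agent.X262.FG
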