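import Crest.Agent.X262.FG.Main0
import Crest.Agent.X262.FG.L51
import Crest.Agent.X262.FG.Bert

/-!
# Row 262, FG (helper86): finite generation of adjoint rings

`aStmt` : the theorem of Cascini and Lazić, from the finiteness of the rank of numerical classes.
-/

set_option autoImplicit false

namespace Crest.Agent.X262.FG

theorem l51Stmt (n : ℕ) : L51Stmt n := N51.l51Stmt facStmt Bert.bertStmt KV.kvl n

/-- **finite generation of adjoint rings** -/
theorem aStmt (hNS : NSStmt) (n : ℕ) : AStmt n := aStmt_of_l51 hNS l51Stmt n

end Crest.Agent.X262.FG
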