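import Crest.Agent.X277.AN.G1AlgA
import Crest.Agent.X277.Jet.Tay
import Crest.Agent.X277.Jet.Fr

/-!
# Row 262, FG (helper59): the order of vanishing at a smooth closed point

* `ordV`     : the order of a power series as a valuation;
* `tayP`     : the Taylor map of a local ring with coordinates;
* `exists_ord` : the order at the point is a valuation of the function field.
-/

set_option autoImplicit false

open WithZero
open scoped KaehlerDifferential

noncomputable section

namespace Crest.Agent.X262.FG.Pt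

open Crest.Agent.X277 Crest.Agent.X277.Lef Crest.Agent.X277.AN.G1 Module

/-- `exp (-a)` -/
def eo (a : ℕ∞) : ℤᵐ⁰ := a.recTopCoe 0 fun n => exp (-(n : ℤ))

theorem eo_top : eo ⊤ = 0 := rfl

theorem eo_coe (n : ℕ) : eo n = exp (-(n : ℤ)) := rfl

theorem eo_add (a b : ℕ∞) : eo (a + b) = eo a * eo b := by
  induction a using ENat.recTopCoe with
  | top => simp [eo_top]
  | coe a =>
    induction b using ENat.recTopCoe with
    | top => simp [eo_top]
    | coe b =>
      rw [← Nat.cast_add, eo_coe, eo_coe, eo_coe, ← exp_add]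
      congr 1
      push_cast
      ring

theorem eo_le_iff {a b : ℕ∞} : eo a ≤ eo b ↔ b ≤ a := by
  induction a using ENat.recTopCoe with
  | top => simp [eo_top]
  | coe a =>
    induction b using ENat.recTopCoe with
    | top => simp [eo_top, eo_coe]
    | coe b => rw [eo_coe, eo_coe, exp_le_exp, neg_le_neg_iff, Nat.cast_le, Nat.cast_le]

section Ser

variable (ι κ : Type*) [Field κ]

/-- the order of a power series as a valuation -/
def ordV : Valuation (MvPowerSeries ι κ) ℤᵐ⁰ where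
  toFun f := eo f.order
  map_zero' := by simp [eo_top]
  map_one' := by
    have : (1 : MvPowerSeries ι κ).order = 0 := by
      by_contra h
      have h1 := MvPowerSeries.one_le_order_iff_constCoeff_eq_zero.1 (Order.one_le_iff_ne_zero.2 h)
      simp at h1
    rw [this]
    exact eo_coe 0
  map_mul' f g := by rw [MvPowerSeries.order_mul, eo_add]
  map_add_le_max' f g := by
    rcases le_total f.order g.order with h | h
    · exact le_max_of_le_left (eo_le_iff.2 (min_eq_left h ▸ MvPowerSeries.min_order_le_add))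
    · exact le_max_of_le_right (eo_le_iff.2 (min_eq_right h ▸ MvPowerSeries.min_order_le_add))

variable {ι κ}

theorem ordV_apply (f : MvPowerSeries ι κ) : ordV ι κ f = eo f.order := rfl

theorem ordV_le_iff {f : MvPowerSeries ι κ} {d : ℕ} :
    ordV ι κ f ≤ exp (-(d : ℤ)) ↔ (d : ℕ∞) ≤ f.order := by
  rw [← eo_coe, ordV_apply, eo_le_iff]

theorem ordV_eq_zero {f : MvPowerSeries ι κ} (h : ordV ι κ f = 0) : f = 0 := by
  rw [← MvPowerSeries.order_eq_top_iff, eq_top_iff, ← eo_le_iff, eo_top]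
  exact h.le

theorem ordV_pderiv (i : ι) (f : MvPowerSeries ι κ) :
    ordV ι κ (MvPowerSeries.pderiv κ i f) ≤ ordV ι κ f * exp (1 : ℤ) := by
  have h : f.order ≤ (MvPowerSeries.pderiv κ i f).order + 1 := by
    induction h1 : (MvPowerSeries.pderiv κ i f).order using ENat.recTopCoe with
    | top => simp
    | coe m =>
      obtain ⟨⟨β, h2, h3⟩, -⟩ := MvPowerSeries.order_eq_nat.1 h1
      rw [MvPowerSeries.coeff_pderiv] at h2
      refine (MvPowerSeries.order_le (left_ne_zero_of_mul h2)).trans ?_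
      rw [map_add, Finsupp.degree_single, h3]
      simp
  have h2 := eo_le_iff.2 h
  rw [eo_add, show (1 : ℕ∞) = (1 : ℕ) from rfl, eo_coe] at h2
  have h3 := mul_le_mul_left h2 (exp (1 : ℤ))
  rwa [mul_assoc, ← exp_add, show -((1 : ℕ) : ℤ) + 1 = 0 by simp, exp_zero, mul_one] at h3

end Ser

variable {F : Type} [Field F] [Algebra ℂ F] {n : ℕ} {L : LP F}

section Tay

variable (hL : L.Fin') (b : Basis (Fin n) F Ω[F⁄ℂ]) {z : Fin n → F} (hz : L.Crd z)

/-- the frame of the coordinates -/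
def frm : Jet.Fr ℂ F (Fin n) :=
  Jet.Fr.ofBasis (dBasis (hz.jac_ne hL b)) z (dBasis_apply (hz.jac_ne hL b))

theorem frm_D (l : Fin n) (f : F) : (frm hL b hz).D l f = pd b z l f :=
  pdD_apply (hz.jac_ne hL b) l f

/-- the frame on the local ring -/
def frO : Ts.CD ℂ L.O (Fin n) :=
  Jet.resCD (frm hL b hz).toCD L.O fun l f hf => frm_D hL b hz l f ▸ hz.pd_mem hL b l hf

theorem coe_frO (l : Fin n) (f : L.O) : ((frO hL b hz).D l f : F) = pd b z l f :=
  frm_D hL b hz l f

/-- the Taylor map -/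
def tayP : L.O →ₐ[ℂ] MvPowerSeries (Fin n) ℂ := Jet.tay (frO hL b hz) L.hom

theorem ordI_one : Jet.ordI (tayP hL b hz) 1 = L.mx := by
  ext f
  rw [Jet.mem_ordI_one, tayP, Jet.const_tay]
  rfl

theorem tayP_injective : Function.Injective (tayP hL b hz) := by
  let t : Fin n → L.O := fun l => ⟨z l, hz.mem l⟩ - algebraMap ℂ L.O (L.v (z l))
  have h1 : ∀ l, Jet.Init (tayP hL b hz (t l)) (Finsupp.single l 1) := fun l => by
    have h2 := Jet.tay_coord (frO hL b hz) L.hom (y := ⟨z l, hz.mem l⟩) (j := l) fun i =>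
      Subtype.ext (by
        rw [coe_frO, pd_self (hz.jac_ne hL b)]
        split_ifs <;> rfl)
    have h3 : tayP hL b hz (t l) = MvPowerSeries.X l := by
      rw [map_sub, AlgHom.commutes, tayP, h2]
      exact add_sub_cancel_left _ _
    rw [h3]
    exact Jet.init_X l
  have h2 : Jet.ordI (tayP hL b hz) 1 ≤
      Ideal.span (Set.range t) ⊔ Jet.ordI (tayP hL b hz) 1 ^ 2 := by
    refine le_sup_of_le_left fun f hf => ?_
    rw [ordI_one, LP.mem_mx] at hf
    obtain ⟨c, hc, h⟩ := hz.gen f f.2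
    refine Ideal.mem_span_range_iff_exists_fun.2 ⟨fun l => ⟨c l, hc l⟩, Subtype.ext ?_⟩
    rw [h, hf, map_zero, zero_add]
    push_cast
    rfl
  rw [injective_iff_map_eq_zero]
  intro f hf
  have := hL.noeth
  have h3 := Ideal.iInf_pow_eq_bot_of_isLocalRing L.mx (by
    rw [← L.maximalIdeal_eq]
    exact Ideal.IsPrime.ne_top')
  rw [← Ideal.mem_bot, ← h3, Ideal.mem_iInf]
  intro a
  rw [← ordI_one hL b hz, ← Jet.ordI_eq_pow h1 h2, Jet.mem_ordI, hf]
  simp

end Tay

/-- **the order at a smooth point** -/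
theorem exists_ord (hL : L.Fin') (b : Basis (Fin n) F Ω[F⁄ℂ]) {z : Fin n → F} (hz : L.Crd z) :
    ∃ v : Valuation F ℤᵐ⁰, (∀ f ∈ L.O, v f ≤ 1) ∧ (∀ f ∈ L.O, v f = 1 → L.v f ≠ 0) ∧
      (∀ l f, v (pd b z l f) ≤ v f * exp (1 : ℤ)) ∧
      ∀ d : ℕ, ∃ Φ : L.O →ₗ[ℂ] (Fin n → Fin d) → ℂ, ∀ f, Φ f = 0 → v f ≤ exp (-(d : ℤ)) := by
  have := hL.frac
  let w : Valuation L.O ℤᵐ⁰ := (ordV (Fin n) ℂ).comap (tayP hL b hz : L.O →+* _)
  have hw : nonZeroDivisors L.O ≤ w.supp.primeCompl := fun f hf h0 =>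
    nonZeroDivisors.ne_zero hf (tayP_injective hL b hz (by
      rw [map_zero]
      exact ordV_eq_zero h0))
  let v := w.extendToLocalization hw F
  have hv : ∀ f : L.O, v f = ordV (Fin n) ℂ (tayP hL b hz f) := fun f =>
    Valuation.extendToLocalization_apply_map_apply w hw F f
  have hj := hz.jac_ne hL b
  have h1 : ∀ l, ∀ f ∈ L.O, v (pd b z l f) ≤ v f * exp (1 : ℤ) := fun l f hf => by
    rw [← coe_frO hL b hz l ⟨f, hf⟩, hv, hv ⟨f, hf⟩, tayP, ← Jet.pderiv_tay]
    exact ordV_pderiv l _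
  refine ⟨v, fun f hf => ?_, fun f hf h h0 => ?_, fun l f => ?_, fun d => ?_⟩
  · rw [hv ⟨f, hf⟩]
    exact (ordV_le_iff (d := 0)).2 (by simp)
  · have h2 : (⟨f, hf⟩ : L.O) ∈ Jet.ordI (tayP hL b hz) 1 := by rwa [ordI_one]
    have h3 := (ordV_le_iff (d := 1)).2 h2
    rw [← hv, h, ← exp_zero, exp_le_exp] at h3
    simp at h3
  · obtain ⟨a, c, hc, rfl⟩ := IsFractionRing.div_surjective (A := L.O) f
    have hc0 : (c : F) ≠ 0 := fun h => nonZeroDivisors.ne_zero hc (Subtype.ext h)
    have hv0 : 0 < v c := zero_lt_iff.2 ((Valuation.ne_zero_iff _).2 hc0)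
    change v (pd b z l ((a : F) / c)) ≤ v ((a : F) / c) * _
    have h2 := pd_mul hj l ((a : F) / c) c
    rw [div_mul_cancel₀ _ hc0] at h2
    have h3 : pd b z l ((a : F) / c) = (pd b z l a - (a : F) / c * pd b z l c) / c := by
      rw [h2]
      field_simp
      ring
    rw [h3, map_div₀, div_le_iff₀ hv0]
    refine v.map_sub_le ?_ ?_
    · rw [mul_right_comm, ← map_mul, div_mul_cancel₀ _ hc0]
      exact h1 l a a.2
    · rw [map_mul, mul_right_comm, mul_assoc]
      exact mul_le_mul_right (h1 l c c.2) _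
  · refine ⟨LinearMap.pi fun β => (MvPowerSeries.coeff
      (Finsupp.equivFunOnFinite.symm fun l => (β l : ℕ))).comp (tayP hL b hz).toLinearMap,
      fun f hf => ?_⟩
    rw [hv, ordV_le_iff, Jet.le_order_iff]
    intro β hβ
    have h2 := congrFun hf fun l => ⟨β l, (Finsupp.le_degree l β).trans_lt hβ⟩
    simpa using h2

end Crest.Agent.X262.FG.Pt
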