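import Crest.Agent.X262.FG.NvDefs
import Crest.Agent.X262.FG.Pt0
import Crest.Agent.X277.AN.G1Gaga

/-!
# Row 262, FG (helper59): very general points and the order at a point

* `vgStmt : VGStmt`, `ptStmt n : PtStmt n`.
-/

set_option autoImplicit false

open WithZero
open scoped KaehlerDifferential

noncomputable section

namespace Crest.Agent.X262.FG

open Crest.Agent.X277 Crest.Agent.X277.Lef Crest.Agent.X277.AN.G1 Crest.Agent.X277.BD
open Crest.Agent.X277.BD.Br (At oP kP)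
open Crest.Agent.X277.Res.Log (Bd)
open Crest.Agent.X277.Cns (Ov)

/-- **very general points** -/
theorem vgStmt : VGStmt := fun _ _ _ P f hf => by
  obtain ⟨x, hx⟩ := (dense_iInter_of_isOpen (fun i => isOpen_ev_ne (P := P) (f i))
    fun i => dense_ne P (hf i)).nonempty
  exact ⟨x, Set.mem_iInter.1 hx⟩

namespace Pt

variable {F : Type} [Field F] [Algebra ℂ F] {n : ℕ} {v : Valuation F ℤᵐ⁰}
  {hv : ∀ c : ℂ, v (algebraMap ℂ F c) ≤ 1}

theorem exp_ord_at {P : PModel ℂ F} {x : Pts P} {a : BD ℂ F} {g : F} (h : At a x g)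
    (hx : Ov x (rz v hv).1) : exp (ord v hv a) = v g :=
  (exp_ord a).trans (vl_eq (h _ hx))

omit [Algebra ℂ F] in
theorem v_det_le {M : Matrix (Fin n) (Fin n) F} {γ : Fin n → ℤᵐ⁰} (h : ∀ l m, v (M l m) ≤ γ m) :
    v M.det ≤ ∏ m, γ m := by
  rw [Matrix.det_apply']
  refine v.map_sum_le fun σ _ => ?_
  rw [map_mul, map_prod]
  refine mul_le_of_le_one_of_le ?_ (Finset.prod_le_prod' fun m _ => h _ m)
  rcases Int.units_eq_one_or (Equiv.Perm.sign σ) with h1 | h1 <;> simp [h1]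

theorem prod_le_mon {Q : PModel ℂ F} (C : Bd Q n) {y : Pts Q} (hy : Ov y (rz v hv).1) :
    ∃ t : Fin n → F, (lp y).Crd t ∧ ∏ m, v (t m) ≤ v (C.mon y 1) := by
  classical
  obtain ⟨t, σ, h1, h2, h3⟩ := C.snc y
  refine ⟨t, Res.Log.crd_of_coords h1, ?_⟩
  have h4 : C.mon y 1 = ∏ m ∈ Finset.univ.image σ, t m := by
    rw [Finset.prod_image fun _ _ _ _ h => h2 h, Bd.mon,
      ← Finset.prod_filter_mul_prod_filter_not _ fun e => Res.Log.On (C.v e) y,
      Finset.prod_eq_one (s := Finset.univ.filter fun e => ¬ Res.Log.On (C.v e) y), mul_one,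
      Finset.prod_subtype (p := fun e => Res.Log.On (C.v e) y) _ (by simp)]
    · exact Finset.prod_congr rfl fun e _ => by rw [Pi.one_apply, zpow_one, h3]
    · intro e he
      rw [C.off e y (Finset.mem_filter.1 he).2, one_zpow]
  rw [h4, map_prod]
  exact Finset.prod_le_prod_of_subset_of_le_one' (Finset.subset_univ _)
    fun m _ _ => hy _ (h1.mem m)

end Pt

open Pt in
/-- **the order at a point** -/
theorem ptStmt (n : ℕ) : PtStmt n := by
  intro F _ _ _ P b x
  obtain ⟨z, hz⟩ := exists_crd b x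
  obtain ⟨v, h1, h2, h3, h4⟩ := exists_ord (lp_fin x) b hz
  have hv : ∀ c : ℂ, v (algebraMap ℂ F c) ≤ 1 := fun c => h1 _ (algebraMap_mem _ c)
  have hx : Ov x (rz v hv).1 := h1
  refine ⟨v, hv, fun a g d hg hd => ?_, fun Q C hQ => ?_⟩
  · obtain ⟨Φ, hΦ⟩ := h4 d
    let Ψ : a.Sec →ₗ[ℂ] (lp x).O :=
      { toFun := fun s => ⟨s / g, hg.div_mem s.2⟩
        map_add' := fun s t => Subtype.ext (add_div _ _ _)
        map_smul' := fun c s => Subtype.ext (smul_div_assoc c (s : F) g) }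
    have := Module.finite_of_finrank_pos (Nat.zero_lt_of_lt hd)
    obtain ⟨s, hs, hs0⟩ := (Submodule.ne_bot_iff _).1 (LinearMap.ker_ne_bot_of_finrank_lt
      (f := Φ.comp Ψ) (by simpa using hd))
    have h5 : (s : F) ≠ 0 := fun h => hs0 (Subtype.ext h)
    refine ⟨s, s.2, h5, ?_⟩
    have h6 : v (s / g) ≤ exp (-(d : ℤ)) := hΦ (Ψ s) hs
    have h7 := exp_ord_at (hg.neg.add (Br.at_pr x h5)) hx
    rw [inv_mul_eq_div] at h7
    rw [← h7, exp_le_exp, neg_add_eq_sub, ← neg_sub a, map_neg] at h6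
    exact neg_le_neg_iff.1 h6
  · obtain ⟨y, hy⟩ := Br.exists_ov' Q (rz v hv)
    refine ⟨?_, fun e c hc h0 f hf => ?_⟩
    · obtain ⟨t, ht, h5⟩ := prod_le_mon C hy
      have h6 := exp_ord_at ((Br.at_kP b ht).add (at_dvs C 1 y)) hy
      have h7 := exp_ord_at (Br.at_kP b hz) hx
      have h8 : 0 < v (C.mon y 1) := zero_lt_iff.2 ((Valuation.ne_zero_iff _).2 (C.mon_ne y 1))
      rw [← exp_le_exp, h6, exp_add, h7, map_mul, map_inv₀, mul_inv_le_iff₀ h8,
        jac_eq_det (hz.jac_ne (lp_fin x) b) t, map_mul, mul_assoc]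
      refine mul_le_mul_right ((v_det_le fun l m => h3 l (t m)).trans ?_) _
      rw [Finset.prod_mul_distrib, Finset.prod_const, mul_comm, ← exp_nsmul]
      have h9 : (Finset.univ : Finset (Fin n)).card • (1 : ℤ) = n := by simp
      rw [h9]
      exact mul_le_mul_right h5 _
    · have h5 : Res.Log.On (C.v e) y := by
        by_contra h5
        refine h0 ?_
        have h6 := exp_ord_at (at_dvs C c y) hy
        rwa [Bd.mon_congr (m' := 0) fun e' he' => hc e' fun h => h5 (h ▸ he'), Bd.mon_zero,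
          inv_one, map_one, ← exp_zero, exp_inj] at h6
      rw [← pb_id (oP P)] at hQ
      have h6 := Br.morOf_p _ hQ
      have h7 : (Br.morOf _ hQ).map y = x := Cns.eq_of_ov (hy.cm h6) hx fun g hg hu =>
        h2 g hg (((v_rz_eq_iff v hv (x := g) (y := 1)).1
          (by rw [map_one]; exact Cns.un_iff_val.1 hu)).trans (map_one v))
      rw [← h7] at hf
      refine h5.v_un (Res.Log.un_iff.2 ?_)
      rwa [← Cns.hom_ev h6 (LP.mem_of_ne hf)] at hf

end Crest.Agent.X262.FG
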