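import Crest.Agent.X262.FG.Sig2
import Crest.Agent.X262.FG.Inv

/-!
# Row 262, FG, section 5 (helper81): the classes with `σ = 0` near an adjoint class

* `cone_of_rfg` : the real degrees without fixed part along a prime lie in a closed cone;
* `qStmt_of : RStmt n → QStmt n`.
-/

set_option autoImplicit false

open Finset Filter Topology
open scoped KaehlerDifferential

noncomputable section

namespace Crest.Agent.X262.FG.Sg

open Crest.Agent.X277 Crest.Agent.X277.Lef Crest.Agent.X277.AN.G1 Crest.Agent.X277.BD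
open Crest.Agent.X277.BD.Br (oP kP)
open Crest.Agent.X277.Res.Log (Bd)
open Crest.Agent.X262.Cvx

variable {F : Type} [Field F] [Algebra ℂ F] {Q : PModel ℂ F} {n : ℕ}

/-- the real degrees without fixed part along `e` lie in the cone of the generators -/
theorem cone_of_rfg (C : Bd Q n) (e : C.ι) {κ : Type} [Fintype κ] {V : κ → BD ℂ F}
    (h : RFG (C.v e) (triv C e) V) : ∃ (N : ℕ) (d : Fin N → κ → ℕ), (∀ j, Eff (lc V (d j))) ∧
      ∀ y : κ → ℝ, (∀ k, 0 ≤ y k) → W (od C e) (lr V y) 0 →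
        ∃ t : Fin N → ℝ, (∀ j, 0 ≤ t j) ∧ y = ∑ j, t j • nc (d j) := by
  obtain ⟨N, d, h1, h2⟩ := h.supp (nrm C e)
  refine ⟨N, d, fun j => ?_, fun y hy ⟨z, hz, hz0⟩ => ?_⟩
  · obtain ⟨s, hs, hv⟩ := h1 j
    refine ⟨s, hs, fun h0 => vl_ne (v := C.v e) (hv := triv C e) (lc V (d j)) ?_⟩
    rw [← hv, h0, map_zero]
  obtain ⟨J, _, t, q, M, ht, hq, hs, hM, rfl⟩ := hz.exists_int
  have h3 : ∀ j, 0 ≤ od C e (∑ k, q j k • V k - M j) := fun j =>
    od_nonneg (sub_nonneg.2 (hM j).2)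
  have h4 : ∀ j, od C e (∑ k, q j k • V k - M j) = 0 := fun j => by
    rw [xt_lr] at hz0
    have h5 := (sum_eq_zero_iff_of_nonneg fun j _ =>
      mul_nonneg (ht j).le (Int.cast_nonneg (R := ℝ) (h3 j))).1
        (hz0.antisymm (sum_nonneg fun j _ => mul_nonneg (ht j).le (Int.cast_nonneg (h3 j)))) j
        (mem_univ j)
    exact_mod_cast (mul_eq_zero.1 h5).resolve_left (ht j).ne'
  have h5 : ∀ j k, ((q j k).toNat : ℤ) = q j k := fun j k => Int.toNat_of_nonneg (hq j k (hy k))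
  have h6 : ∀ j, lc V (fun k => (q j k).toNat) = ∑ k, q j k • V k := fun j =>
    sum_congr rfl fun k _ => by rw [← natCast_zsmul, h5]
  have h7 : ∀ j, Nv (C.v e) (triv C e) (lc V fun k => (q j k).toNat) := fun j => by
    obtain ⟨s, hs1, hs2⟩ := (hM j).1.exists_gen (rz (C.v e) (triv C e))
    rw [h6]
    refine ⟨s, Sec_mono (hM j).2 hs1, ?_⟩
    have h8 := h4 j
    rw [map_sub, sub_eq_zero] at h8
    rw [← vl_eq hs2, ← exp_od, ← exp_od, h8]
  choose a ha using fun j => h2 _ (h7 j)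
  refine ⟨fun i => ∑ j, t j * a j i, fun i => sum_nonneg fun j _ =>
    mul_nonneg (ht j).le (Nat.cast_nonneg _), funext fun k => ?_⟩
  rw [← hs k]
  simp only [Finset.sum_apply, Pi.smul_apply, nc_apply, smul_eq_mul, sum_mul]
  rw [sum_comm]
  refine sum_congr rfl fun j _ => ?_
  have h8 := congrFun (ha j) k
  simp only [Finset.sum_apply, Pi.smul_apply, smul_eq_mul] at h8
  rw [← h5, ← h8]
  push_cast
  rw [mul_sum]
  exact sum_congr rfl fun i _ => (mul_assoc _ _ _).symm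

/-- barycentric coordinates -/
def bary {I : Type} [Fintype I] (M : ℕ) (z : I → ℝ) : Option I → ℝ :=
  fun k => k.elim (1 - ∑ i, z i / M) fun i => z i / M

theorem bary_nonneg {I : Type} [Fintype I] {M : ℕ} (hM : 3 * Fintype.card I < M) {z : I → ℝ}
    (hz : ∀ i, 0 ≤ z i ∧ z i ≤ 3) (k : Option I) : 0 ≤ bary M z k := by
  have hM' : (0 : ℝ) < M := Nat.cast_pos.2 (by omega)
  cases k with
  | none =>
    have h1 : ∑ i, z i ≤ ∑ _i : I, (3 : ℝ) := sum_le_sum fun i _ => (hz i).2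
    rw [sum_const, card_univ, nsmul_eq_mul] at h1
    have h2 : (3 : ℝ) * Fintype.card I < M := by exact_mod_cast hM
    change 0 ≤ 1 - ∑ i, z i / M
    rw [← sum_div, sub_nonneg, div_le_one hM']
    linarith
  | some i => exact div_nonneg (hz i).1 hM'.le

theorem continuous_bary {I : Type} [Fintype I] (M : ℕ) : Continuous (bary (I := I) M) :=
  continuous_pi fun k => by
    cases k with
    | none => change Continuous fun z : I → ℝ => 1 - ∑ i, z i / M; fun_prop
    | some i => change Continuous fun z : I → ℝ => z i / M; fun_prop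

theorem lr_bary {I : Type} [Fintype I] {M : ℕ} (hM : 0 < M) (G : I → BD ℂ F) (a : BD ℂ F)
    {V : Option I → BD ℂ F} (h0 : V none = a) (h1 : ∀ i, V (some i) = a + M • G i) (z : I → ℝ) :
    lr V (bary M z) = em a + lr G z := by
  have hM' : (M : ℝ) ≠ 0 := Nat.cast_ne_zero.2 hM.ne'
  simp only [lr_apply, Fintype.sum_option, bary, Option.elim, h0, h1, map_add, em_nsmul, smul_add,
    smul_smul, div_mul_cancel₀ _ hM', sum_add_distrib, ← sum_smul, sub_smul, one_smul]
  abel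

/-- the simplex system: the real classes near `K + α + β` -/
theorem exists_cone (hR : RStmt n) (C : Bd Q n) (b : Module.Basis (Fin n) F Ω[F⁄ℂ]) (e₀ : C.ι)
    {I : Type} [Fintype I] {G : I → BD ℂ F} (hG : ∀ i, G i ∈ Br.On Q) {R : ℕ} (hR0 : 0 < R)
    {c : C.ι → ℤ} (hc : ∀ e, 0 ≤ c e ∧ c e ≤ R) (hc0 : c e₀ = R) (ξ : I → ℝ)
    (ha : ∀ v : I → ℝ, ‖v‖ ≤ 3 * Fintype.card I + 3 → FreeR (lr G ξ - em (oP Q) + lr G v)) :
    ∃ (N : ℕ) (a : Fin N → BD ℂ F), (∀ j, Eff (a j)) ∧ ∀ w w' : I → ℝ,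
      (∀ᶠ ε : ℝ in 𝓝[>] 0, ‖w + ε • w'‖ ≤ 1 ∧
        W (od C e₀) (em (R • kP Q b + dvs C c) + lr G ξ + lr G (w + ε • w')) 0) →
      ∃ t : Fin N → ℝ, (∀ j, 0 ≤ t j) ∧ em (R • kP Q b + dvs C c) + lr G ξ + lr G w = lr a t := by
  classical
  let M := 3 * Fintype.card I + 1
  let m : Option I → I → ℤ := fun k i => ⌊ξ i⌋ - 1 + if k = some i then (M : ℤ) else 0
  let A : Option I → BD ℂ F := fun k => ∑ i, m k i • G i
  have hA : ∀ k, A k ∈ Br.On Q := fun k => sum_mem fun i _ => zsmul_mem (hG i) _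
  have hamp : ∀ k, Amp Q (A k) := fun k => by
    have h1 := ha (fun i => m k i - ξ i) ((pi_norm_le_iff_of_nonneg (by positivity)).2 fun i => by
      have h2 := Int.floor_le (ξ i)
      have h3 := Int.lt_floor_add_one (ξ i)
      have h4 : (0 : ℝ) ≤ Fintype.card I := Nat.cast_nonneg _
      rw [Real.norm_eq_abs, abs_le]
      simp only [m, M]
      split_ifs <;> push_cast <;> constructor <;> linarith)
    have h2 : lr G ξ - em (oP Q) + lr G (fun i => m k i - ξ i) = em (A k - oP Q) := by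
      rw [map_sub, ← lr_zc, show (fun i => (m k i : ℝ) - ξ i) = (fun i => (m k i : ℝ)) - ξ from rfl,
        map_sub]
      abel
    obtain ⟨q, hq, h3⟩ := free_of_freeR (h2 ▸ h1)
    simpa using (amp_oP Q).add_semi (sub_mem (hA k) Br.oP_mem) hq h3
  let S : Sys C (Option I) := ⟨R, hR0, A, hamp, fun _ => c, fun _ e => (hc e).1, fun _ e => (hc e).2⟩
  obtain ⟨N, d, h1, h2⟩ := cone_of_rfg C e₀ (hR F Q C b _ S e₀ fun _ => hc0)
  have key : ∀ z : I → ℝ, lr (S.D b) (bary M fun i => ξ i - (⌊ξ i⌋ - 1) + z i) =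
      em (R • kP Q b + dvs C c) + lr G ξ + lr G z := fun z => by
    rw [lr_bary (Nat.succ_pos _) G (S.D b none) rfl fun i => ?_]
    · have h3 : em (A none) = lr G fun i => (⌊ξ i⌋ - 1 : ℝ) := by
        rw [← lr_zc]
        congr 1
        funext i
        simp [m]
      rw [show (fun i => ξ i - (⌊ξ i⌋ - 1) + z i) = ξ - (fun i => (⌊ξ i⌋ - 1 : ℝ)) + z from rfl,
        map_add, map_sub, ← h3]
      simp only [Sys.D, S, map_add]
      abel
    · have h3 : A (some i) = A none + M • G i := by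
        simp [A, m, add_smul, sum_add_distrib, ite_smul]
      simp only [Sys.D, S, h3, M]
      abel
  refine ⟨N, fun j => lc (S.D b) (d j), h1, fun w w' H => ?_⟩
  have hcl := (rCone_of_gen fun j => isRat_nc (d j)).isClosed
  have hlim : Tendsto (fun ε : ℝ => bary M fun i => ξ i - (⌊ξ i⌋ - 1) + (w + ε • w') i) (𝓝[>] 0)
      (𝓝 (bary M fun i => ξ i - (⌊ξ i⌋ - 1) + w i)) := by
    refine tendsto_nhdsWithin_of_tendsto_nhds (Continuous.tendsto' ?_ _ _ (by simp))
    exact (continuous_bary M).comp (by fun_prop)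
  obtain ⟨t, ht, h3⟩ := hcl.mem_of_tendsto hlim (H.mono fun ε ⟨hε, hW⟩ =>
    h2 _ (bary_nonneg (Nat.lt_succ_self _) fun i => by
      have h2 := Int.floor_le (ξ i)
      have h3 := Int.lt_floor_add_one (ξ i)
      have h4 := abs_le.1 ((norm_le_pi_norm _ i).trans hε)
      constructor <;> linarith [h4.1, h4.2]) (by rwa [key]))
  refine ⟨t, ht, ?_⟩
  rw [← key, h3, map_sum, lr_apply]
  exact sum_congr rfl fun j _ => by rw [map_smul, lr_nc]

/-- **the classes with `σ = 0` near an adjoint class** -/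
theorem qStmt_of (hR : RStmt n) : QStmt n := by
  intro F _ _ _ Q C b e₀ β α I _ g hβ hβ0 ⟨hα, θ, hθ, hf⟩ hg
  obtain ⟨I₀, _, g₀, r₀, hg₀, rfl⟩ := hα.exists_lr
  let G : Option (I ⊕ I₀ ⊕ C.ι) → BD ℂ F := fun i =>
    i.elim (oP Q) (Sum.elim g (Sum.elim g₀ (cp C)))
  have hG : ∀ i, G i ∈ Br.On Q := by
    rintro (_ | i | i | i)
    exacts [Br.oP_mem, hg i, hg₀ i, cp_mem C i]
  have hlr : ∀ (ε : ℝ) (u : I → ℝ) (r : I₀ → ℝ) (γ : C.ι → ℝ),
      lr G (fun i => i.elim ε (Sum.elim u (Sum.elim r γ))) =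
        ε • em (oP Q) + lr g u + lr g₀ r + lr (cp C) γ := fun ε u r γ => by
    simp [lr_apply, G, add_assoc]
  obtain ⟨N, hN, hN'⟩ := exists_freeR hG
  obtain ⟨R, hR1⟩ := exists_nat_gt
    ((1 + N * (3 * Fintype.card (Option (I ⊕ I₀ ⊕ C.ι)) + 4)) / θ)
  have hR0 : (0 : ℝ) < R := lt_trans (by positivity) hR1
  rw [div_lt_iff₀ hθ] at hR1
  let c : C.ι → ℤ := fun e => ⌊R * β e⌋
  let γ : C.ι → ℝ := fun e => R * β e - c e
  have hγ : ‖fun i : Option (I ⊕ I₀ ⊕ C.ι) => i.elim 0 (Sum.elim 0 (Sum.elim 0 γ))‖ ≤ 1 :=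
    (pi_norm_le_iff_of_nonneg zero_le_one).2 (by
      rintro (_ | i | i | i)
      · simp
      · simp
      · simp
      · have h2 := Int.floor_le (R * β i)
        have h3 := Int.lt_floor_add_one (R * β i)
        simp only [Option.elim, Sum.elim_inr, γ, c, Real.norm_eq_abs, abs_le]
        constructor <;> linarith)
  obtain ⟨N', a, h1, h2⟩ := exists_cone hR C b e₀ hG (Nat.cast_pos.1 hR0) (c := c)
    (fun e => ⟨Int.floor_nonneg.2 (mul_nonneg hR0.le (hβ e).1), by
      rw [← Int.floor_natCast (R := ℝ) R]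
      exact Int.floor_mono (mul_le_of_le_one_right hR0.le (hβ e).2)⟩)
    (by simp [c, hβ0]) (fun i => i.elim 0 (Sum.elim 0 (Sum.elim ((R : ℝ) • r₀) γ))) fun v hv => by
      have h3 := (hf.smul hR0.le).add (hN' (R * θ - 1) (_ + v)
        (le_trans (mul_le_mul_of_nonneg_left ((norm_add_le _ _).trans (add_le_add hγ hv)) hN.le)
          (by linarith)))
      convert h3 using 1
      rw [map_add, hlr, hlr, map_smul, map_zero, map_zero]
      module
  have key : ∀ (ε : ℝ) (u : I → ℝ), em (R • kP Q b + dvs C c) +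
      lr G (fun i => i.elim 0 (Sum.elim 0 (Sum.elim ((R : ℝ) • r₀) γ))) +
      lr G (fun i => i.elim (R * ε) (Sum.elim ((R : ℝ) • u) (Sum.elim 0 0))) =
      (R : ℝ) • (em (kP Q b) + lr g₀ r₀ + lr (cp C) β + lr g u + ε • em (oP Q)) := fun ε u => by
    rw [hlr, hlr, map_add, em_nsmul, dvs_eq_cp,
      show γ = (R : ℝ) • β - fun e => (c e : ℝ) from rfl]
    simp only [map_sub, map_smul, map_zero]
    module
  refine ⟨Fin N', inferInstance, a, 1 / R, h1, by positivity, fun u hu hZ => ?_⟩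
  have hon : OnR Q (em (kP Q b) + lr g₀ r₀ + lr (cp C) β + lr g u) :=
    (((Cn.of (Br.kP_mem b)).add (onR_lr hg₀ _)).add (onR_lr (cp_mem C) _)).add (onR_lr hg _)
  obtain ⟨t, ht, h3⟩ := h2 (fun i => i.elim (R * 0) (Sum.elim ((R : ℝ) • u) (Sum.elim 0 0)))
    (fun i => i.elim R 0) (by
      filter_upwards [Ioo_mem_nhdsGT (show (0 : ℝ) < 1 / R by positivity)] with ε hε
      have e : ((fun i : Option (I ⊕ I₀ ⊕ C.ι) => i.elim ((R : ℝ) * 0) (Sum.elim ((R : ℝ) • u)
          (Sum.elim 0 0))) + ε • fun i : Option (I ⊕ I₀ ⊕ C.ι) => i.elim (R : ℝ) 0) =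
          fun i : Option (I ⊕ I₀ ⊕ C.ι) =>
            i.elim ((R : ℝ) * ε) (Sum.elim ((R : ℝ) • u) (Sum.elim 0 0)) := by
        funext i
        rcases i with _ | i <;> simp [mul_comm]
      rw [e, key]
      refine ⟨(pi_norm_le_iff_of_nonneg zero_le_one).2 ?_, ?_⟩
      · rintro (_ | i | i | i)
        · have h4 := (lt_div_iff₀' hR0).1 hε.2
          simp only [Option.elim, Real.norm_eq_abs]
          rw [abs_of_pos (mul_pos hR0 hε.1)]
          exact h4.le
        · have h4 := (le_div_iff₀' hR0).1 ((norm_le_pi_norm u i).trans hu)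
          simpa using h4
        · simp
        · simp
      · simpa only [pfB_o, mul_zero] using ((pfB C).upg hon hZ hε.1).smul hR0.le)
  rw [key, zero_smul, add_zero] at h3
  refine ⟨(R : ℝ)⁻¹ • t, fun j => mul_nonneg (by positivity) (ht j), ?_⟩
  rw [map_smul, ← h3, smul_smul, inv_mul_cancel₀ hR0.ne', one_smul]

end Crest.Agent.X262.FG.Sg
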