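import Crest.Agent.X262.FG.S4b

/-!
# X262/FG/S4c (helper81): finite generation of a restricted family, abstract form

`R x` : restricted sections, `Ad (x, g)` : sections on the divisor vanishing to order `g j` along
`v j`.  If `Ad` is finitely generated on `{g ≤ b x}` and sections lift as soon as the asymptotic
fixed part is small enough, then `R` is finitely generated (`Dat.fg`).
-/

set_option autoImplicit false
set_option linter.unusedSectionVars false

open Finset Filter Topology WithZero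

namespace Crest.Agent.X262.FG.S4

open Crest.Agent.X262.Cvx

variable {κ J : Type} [Fintype κ] [Fintype J]

/-- the monoid `g ≤ b x` -/
def bm (b : J → (κ → ℕ) →+ ℕ) : AddSubmonoid ((κ → ℕ) × (J → ℕ)) where
  carrier := {p | ∀ j, p.2 j ≤ b j p.1}
  zero_mem' j := by simp
  add_mem' {p q} h h' j := by
    simp only [Prod.snd_add, Prod.fst_add, Pi.add_apply, map_add]
    exact add_le_add (h j) (h' j)

/-- the data -/
structure Dat (k E κ J : Type) [Field k] [Field E] [Algebra k E] [Fintype κ] [Fintype J] where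
  /-- restricted sections -/
  R : (κ → ℕ) → Submodule k E
  /-- sections on the divisor -/
  Ad : (κ → ℕ) × (J → ℕ) → Submodule k E
  /-- the primes -/
  v : J → Valuation E ℤᵐ⁰
  /-- the coefficients of the divisors -/
  t : J → (κ → ℕ) →+ ℤ
  /-- the boundary -/
  b : J → (κ → ℕ) →+ ℕ
  triv : ∀ j (c : k), v j (algebraMap k E c) ≤ 1
  mR : Gr.Mult R ⊤
  mA : Gr.Mult Ad (bm b)
  fgA : Gr.FG Ad (bm b)
  R_le : ∀ x, ∀ s ∈ R x, ∀ j, v j s ≤ exp (t j x)
  A_le : ∀ p, ∀ s ∈ Ad p, ∀ j, v j s ≤ exp (t j p.1 - p.2 j)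
  mem_A : ∀ p : (κ → ℕ) × (J → ℕ), ∀ s ∈ R p.1, (∀ j, v j s ≤ exp (t j p.1 - p.2 j)) → s ∈ Ad p
  lift : ∃ N : ℕ, ∀ p ∈ bm b, (∀ L : ℕ, ∃ (q : ℕ) (x : κ → ℕ), 0 < q ∧
    (∀ i, (N : ℤ) * |(q * p.1 i - x i : ℤ)| ≤ q) ∧ ∃ s ∈ R x, s ≠ 0 ∧ ∀ j, p.2 j < b j p.1 →
      L * (t j x - log (v j s)) ≤ q * (L * p.2 j + 1)) → Ad p ≤ R p.1

namespace Dat

variable {k E : Type} [Field k] [Field E] [Algebra k E] (D : Dat k E κ J)

/-- asymptotic fixed parts along `T` -/
def U (T : Finset J) : Set ((κ → ℝ) × (J → ℝ)) :=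
  {z | ∃ (q : ℕ) (x : κ → ℕ), 0 < q ∧ (∀ i, q * z.1 i = x i) ∧ ∃ s ∈ D.R x, s ≠ 0 ∧
    ∀ j ∈ T, ((D.t j x - log (D.v j s) : ℤ) : ℝ) ≤ q * z.2 j}

theorem U_rat {T : Finset J} {z : (κ → ℝ) × (J → ℝ)} (hz : z ∈ D.U T) {r : ℚ} (hr : 0 < r) :
    (r : ℝ) • z ∈ D.U T := by
  obtain ⟨q, x, hq, h1, s, hs, h0, h2⟩ := hz
  obtain ⟨a, ha⟩ := Int.eq_ofNat_of_zero_le (Rat.num_pos.2 hr).le
  have h3 : (r.den : ℝ) * r = a := by
    have h4 : (r.den : ℚ) * r = a := by rw [Rat.den_mul_eq_num, ha]; simp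
    exact_mod_cast h4
  refine ⟨q * r.den, a • x, Nat.mul_pos hq r.den_pos, fun i => ?_, s ^ a,
    D.mR.pow trivial hs a, pow_ne_zero _ h0, fun j hj => ?_⟩
  · simp only [Prod.smul_fst, Pi.smul_apply, smul_eq_mul]
    push_cast
    rw [← h1 i, ← h3]; ring
  · simp only [Prod.smul_snd, Pi.smul_apply, smul_eq_mul, map_nsmul, map_pow, log_pow]
    have h5 := mul_le_mul_of_nonneg_left (h2 j hj) (Nat.cast_nonneg (α := ℝ) a)
    push_cast at h5 ⊢
    calc _ = (a : ℝ) * ((D.t j x : ℝ) - (log (D.v j s) : ℤ)) := by simp [mul_sub]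
      _ ≤ _ := h5
      _ = _ := by rw [← h3]; ring

theorem U_smul {T : Finset J} {z : (κ → ℝ) × (J → ℝ)} (hz : z ∈ closure (D.U T)) {t : ℝ}
    (ht : 0 < t) : t • z ∈ closure (D.U T) := by
  obtain ⟨u, -, h1, h2⟩ := Real.exists_seq_rat_strictAnti_tendsto t
  refine isClosed_closure.mem_of_tendsto (h2.smul_const z) (Eventually.of_forall fun n => ?_)
  have h3 : (0 : ℚ) < u n := by exact_mod_cast ht.trans (h1 n)
  exact map_mem_closure (f := fun z => ((u n : ℚ) : ℝ) • z) (continuous_const_smul _) hz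
    fun z hz => D.U_rat hz h3

section Gens

variable {n : ℕ} (d : Fin n → (κ → ℕ) × (J → ℕ)) (f : Fin n → E)

/-- the degree of a monomial -/
def dg (o : Option J) : (Option J × Fin n → ℕ) →+ (κ → ℕ) × (J → ℕ) where
  toFun y := ∑ i, y (o, i) • d i
  map_zero' := by simp
  map_add' y y' := by simp [add_smul, sum_add_distrib]

/-- real degrees -/
def X1 (o : Option J) (c : κ) : (Option J × Fin n → ℝ) →ₗ[ℝ] ℝ :=
  ∑ i, ((d i).1 c : ℝ) • LinearMap.proj (o, i)

/-- real degrees -/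
def X2 (o : Option J) (c : J) : (Option J × Fin n → ℝ) →ₗ[ℝ] ℝ :=
  ∑ i, ((d i).2 c : ℝ) • LinearMap.proj (o, i)

theorem X1_apply (o : Option J) (c : κ) (a : Option J × Fin n → ℝ) :
    X1 d o c a = ∑ i, ((d i).1 c : ℝ) * a (o, i) := by simp [X1]

theorem X2_apply (o : Option J) (c : J) (a : Option J × Fin n → ℝ) :
    X2 d o c a = ∑ i, ((d i).2 c : ℝ) * a (o, i) := by simp [X2]

theorem X1_cst (o : Option J) (c : κ) (y : Option J × Fin n → ℕ) :
    X1 d o c (cst y) = ((dg d o y).1 c : ℝ) := by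
  simp [X1_apply, dg, cst, Prod.fst_sum, mul_comm]

theorem X2_cst (o : Option J) (c : J) (y : Option J × Fin n → ℕ) :
    X2 d o c (cst y) = ((dg d o y).2 c : ℝ) := by
  simp [X2_apply, dg, cst, Prod.snd_sum, mul_comm]

/-- the generators which may occur -/
def Ok (T : Finset J) : Option J × Fin n → Prop
  | (none, i) => f i ≠ 0 ∧ ∀ j ∉ T, (d i).2 j = D.b j (d i).1
  | (some j, i) => j ∈ T ∧ D.v j (f i) = exp (D.t j (d i).1 - (d i).2 j)

open Classical in
/-- the equations -/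
noncomputable def eqn (T : Finset J) :
    (Option J × Fin n) ⊕ (T × κ) ⊕ (T × J) → (Option J × Fin n → ℝ) →ₗ[ℝ] ℝ
  | .inl p => if D.Ok d f T p then 0 else LinearMap.proj p
  | .inr (.inl p) => X1 d (some p.1) p.2 - X1 d none p.2
  | .inr (.inr p) => X2 d (some p.1) p.2 - X2 d none p.2

theorem eqn_int (T : Finset J) (a) (y : Option J × Fin n → ℕ) :
    ∃ z : ℤ, D.eqn d f T a (cst y) = z := by
  rcases a with p | p | p
  · simp only [eqn]
    split_ifs
    · exact ⟨0, by simp⟩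
    · exact ⟨y p, by simp [cst]⟩
  · exact ⟨(dg d (some p.1) y).1 p.2 - (dg d none y).1 p.2, by simp [eqn, X1_cst]⟩
  · exact ⟨(dg d (some p.1) y).2 p.2 - (dg d none y).2 p.2, by simp [eqn, X2_cst]⟩

theorem eqn_iff (T : Finset J) (y : Option J × Fin n → ℕ) :
    (∀ a, D.eqn d f T a (cst y) = 0) ↔
      (∀ p, y p ≠ 0 → D.Ok d f T p) ∧ ∀ j ∈ T, dg d (some j) y = dg d none y := by
  constructor
  · intro h
    refine ⟨fun p hp => ?_, fun j hj => Prod.ext (funext fun c => ?_) (funext fun c => ?_)⟩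
    · by_contra h1
      have h2 := h (.inl p)
      simp only [eqn, if_neg h1, LinearMap.proj_apply, cst, Nat.cast_eq_zero] at h2
      exact hp h2
    · have h2 := h (.inr (.inl (⟨j, hj⟩, c)))
      simp only [eqn, LinearMap.sub_apply, X1_cst, sub_eq_zero, Nat.cast_inj] at h2
      exact h2
    · have h2 := h (.inr (.inr (⟨j, hj⟩, c)))
      simp only [eqn, LinearMap.sub_apply, X2_cst, sub_eq_zero, Nat.cast_inj] at h2
      exact h2
  · rintro ⟨h1, h2⟩ (p | p | p)
    · simp only [eqn]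
      split_ifs with h
      · rfl
      · simpa [cst] using not_not.1 (mt (h1 p) h)
    · simp [eqn, X1_cst, h2 p.1 p.1.2]
    · simp [eqn, X2_cst, h2 p.1 p.1.2]

/-- the closed cone -/
def Q (T : Finset J) : Set (Option J × Fin n → ℝ) :=
  {a | (∀ p, 0 ≤ a p) ∧ (∀ α, D.eqn d f T α a = 0) ∧
    ((fun c => X1 d none c a), fun c => X2 d none c a) ∈ closure (D.U T)}

theorem isClosed_Q (T : Finset J) : IsClosed (D.Q d f T) := by
  refine IsClosed.inter (isClosed_Ici (a := (0 : Option J × Fin n → ℝ))) (IsClosed.inter ?_ ?_)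
  · have : {a | ∀ α, D.eqn d f T α a = 0} = ⋂ α, {a | D.eqn d f T α a = 0} := by
      ext; simp
    change IsClosed {a | ∀ α, D.eqn d f T α a = 0}
    rw [this]
    exact isClosed_iInter fun α =>
      isClosed_eq (LinearMap.continuous_of_finiteDimensional _) continuous_const
  · refine isClosed_closure.preimage (Continuous.prodMk ?_ ?_) <;>
      exact continuous_pi fun c => LinearMap.continuous_of_finiteDimensional _

theorem Q_smul (T : Finset J) : ∀ a ∈ D.Q d f T, ∀ t : ℝ, 0 < t → t • a ∈ D.Q d f T := by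
  rintro a ⟨h1, h2, h3⟩ t ht
  refine ⟨fun p => mul_nonneg ht.le (h1 p), fun α => by rw [map_smul, h2, smul_zero], ?_⟩
  convert D.U_smul h3 ht using 1
  ext c <;> simp

theorem cst_add {ι : Type*} (y y' : ι → ℕ) : cst (y + y') = cst y + cst y' := by
  funext i; simp [cst]

/-- the lattice points -/
def S (T : Finset J) : AddSubmonoid (Option J × Fin n → ℕ) where
  carrier := {y | (∀ α, D.eqn d f T α (cst y) = 0) ∧ ∃ s ∈ D.R (dg d none y).1, s ≠ 0 ∧
      ∀ j ∈ T, exp (D.t j (dg d none y).1 - (dg d none y).2 j) ≤ D.v j s}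
  zero_mem' := ⟨(D.eqn_iff d f T 0).2 ⟨fun _ h => (h rfl).elim, fun _ _ => by simp⟩, 1,
    by simpa using D.mR.one, one_ne_zero, fun j _ => by simp⟩
  add_mem' := by
    rintro y y' ⟨h1, s, hs, h0, h2⟩ ⟨h1', s', hs', h0', h2'⟩
    refine ⟨fun α => by rw [cst_add, map_add, h1, h1', add_zero], s * s', ?_, mul_ne_zero h0 h0',
      fun j hj => ?_⟩
    · rw [map_add]
      exact D.mR.mul _ trivial _ trivial _ hs _ hs'
    · rw [map_mul]
      refine le_trans (le_of_eq ?_) (mul_le_mul' (h2 j hj) (h2' j hj))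
      rw [← exp_add, map_add, Prod.fst_add, Prod.snd_add, map_add, Pi.add_apply]
      push_cast
      congr 1
      ring

theorem S_sub_Q {T : Finset J} {y : Option J × Fin n → ℕ} (hy : y ∈ D.S d f T) :
    cst y ∈ D.Q d f T := by
  obtain ⟨h1, s, hs, h0, h2⟩ := hy
  refine ⟨fun p => Nat.cast_nonneg _, h1, subset_closure ⟨1, (dg d none y).1, one_pos,
    fun i => by simp [X1_cst], s, hs, h0, fun j hj => ?_⟩⟩
  have h3 := h2 j hj
  rw [← exp_log (x := D.v j s) (by simpa using h0), exp_le_exp] at h3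
  simp only [X2_cst, Nat.cast_one, one_mul]
  exact_mod_cast (by omega : D.t j (dg d none y).1 - log (D.v j s) ≤ ((dg d none y).2 j : ℤ))

variable {d f} (hd : ∀ i, d i ∈ bm D.b ∧ f i ∈ D.Ad (d i))
include hd

theorem dg_mem (o : Option J) (y : Option J × Fin n → ℕ) : dg d o y ∈ bm D.b :=
  (bm D.b).sum_mem fun i _ => (bm D.b).nsmul_mem (hd i).1 _

theorem mon_mem (o : Option J) (y : Option J × Fin n → ℕ) :
    ∏ i, f i ^ y (o, i) ∈ D.Ad (dg d o y) :=
  D.mA.Mon_le hd _ (Gr.mono_mem_Mon d f _ rfl)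

omit hd in
theorem t_dg (o : Option J) (y : Option J × Fin n → ℕ) (j : J) :
    D.t j (dg d o y).1 - (dg d o y).2 j =
      ∑ i, y (o, i) * (D.t j (d i).1 - (d i).2 j) := by
  simp only [dg, AddMonoidHom.coe_mk, ZeroHom.coe_mk, Prod.fst_sum, Prod.snd_sum, map_sum,
    Prod.smul_fst, map_nsmul]
  simp [mul_sub]

omit hd in
theorem b_dg (y : Option J × Fin n → ℕ) (j : J) :
    (D.b j (dg d none y).1 : ℤ) - (dg d none y).2 j =
      ∑ i, y (none, i) * ((D.b j (d i).1 : ℤ) - (d i).2 j) := by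
  simp only [dg, AddMonoidHom.coe_mk, ZeroHom.coe_mk, Prod.fst_sum, Prod.snd_sum, map_sum,
    Prod.smul_fst, map_nsmul]
  simp [mul_sub]

theorem mem_S [Infinite k] {T : Finset J} {y : Option J × Fin n → ℕ}
    (h1 : ∀ α, D.eqn d f T α (cst y) = 0) (h2 : D.Ad (dg d none y) ≤ D.R (dg d none y).1) :
    y ∈ D.S d f T := by
  obtain ⟨h3, h4⟩ := (D.eqn_iff d f T y).1 h1
  have h5 : ∏ i, f i ^ y (none, i) ≠ 0 := prod_ne_zero_iff.2 fun i _ => by
    rcases eq_or_ne (y (none, i)) 0 with h | h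
    · simp [h]
    · exact pow_ne_zero _ (h3 _ h).1
  obtain ⟨s, hs, h0, h6⟩ := exists_max D.triv (D.R (dg d none y).1)
    ((Submodule.ne_bot_iff _).2 ⟨_, h2 (D.mon_mem hd none y), h5⟩) _ fun j s hs => D.R_le _ s hs j
  refine ⟨h1, s, hs, h0, fun j hj => le_trans (le_of_eq ?_)
    (h6 j _ (h2 (h4 j hj ▸ D.mon_mem hd (some j) y)))⟩
  rw [← h4 j hj, t_dg]
  exact (v_prod_eq univ (D.v j) (n := fun i => D.t j (d i).1 - (d i).2 j) (fun i => y (some j, i))
    fun i hi => (h3 _ hi).2).symm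

theorem lift_of : ∃ ε : ℝ, 0 < ε ∧ ∀ (T : Finset J), ∀ a ∈ D.Q d f T, ∀ y : Option J × Fin n → ℕ,
    (∀ α, D.eqn d f T α (cst y) = 0) → (∀ p, a p ≤ y p) → (∀ p, y p - a p < ε) →
      D.Ad (dg d none y) ≤ D.R (dg d none y).1 := by
  obtain ⟨N, hN⟩ := D.lift
  set C : ℝ := ∑ c, ∑ i, ((d i).1 c : ℝ) with hC
  have hC0 : 0 ≤ C := by positivity
  refine ⟨1 / (2 * (N + 1) * (C + 1)), by positivity, fun T a ha y hy h1 h2 => ?_⟩
  refine hN _ (D.dg_mem hd none y) fun L => ?_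
  obtain ⟨η, hη, hη1, hη2⟩ : ∃ η : ℝ, 0 < η ∧ η * (2 * (N + 1)) ≤ 1 ∧ η * (L + 1) ≤ 1 :=
    ⟨min (1 / (2 * (N + 1))) (1 / (L + 1)), by positivity,
      (le_div_iff₀ (by positivity)).1 (min_le_left _ _),
      (le_div_iff₀ (by positivity)).1 (min_le_right _ _)⟩
  obtain ⟨z, ⟨q, x, hq, h3, s, hs, h0, h4⟩, hz⟩ := Metric.mem_closure_iff.1 ha.2.2 η hη
  have hq0 : (0 : ℝ) < q := by exact_mod_cast hq
  rw [Prod.dist_eq, max_lt_iff] at hz
  refine ⟨q, x, hq, fun c => ?_, s, hs, h0, fun j hj => ?_⟩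
  · have h5 := (dist_le_pi_dist _ _ c).trans_lt hz.1
    rw [Real.dist_eq] at h5
    have h6 : |((dg d none y).1 c : ℝ) - X1 d none c a| ≤ 1 / (2 * (N + 1) * (C + 1)) * C := by
      rw [← X1_cst, ← map_sub, X1_apply]
      refine (abs_sum_le_sum_abs _ _).trans ?_
      have h7 : ∑ i, ((d i).1 c : ℝ) ≤ C :=
        Finset.single_le_sum (f := fun c => ∑ i, ((d i).1 c : ℝ)) (fun _ _ => by positivity)
          (mem_univ c)
      refine le_trans ?_ (mul_le_mul_of_nonneg_left h7 (by positivity))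
      rw [mul_sum]
      refine sum_le_sum fun i _ => ?_
      rw [abs_mul, Nat.abs_cast, mul_comm, Pi.sub_apply, cst, abs_of_nonneg (sub_nonneg.2 (h1 _))]
      exact mul_le_mul_of_nonneg_right (h2 _).le (Nat.cast_nonneg _)
    have h7 : 1 / (2 * ((N : ℝ) + 1) * (C + 1)) * C * (2 * (N + 1)) ≤ 1 := by
      rw [div_mul_eq_mul_div, div_mul_eq_mul_div, div_le_one (by positivity)]
      nlinarith [Nat.cast_nonneg (α := ℝ) N]
    have h8 : |((dg d none y).1 c : ℝ) - z.1 c| ≤ 1 / (2 * (N + 1) * (C + 1)) * C + η :=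
      (abs_sub_le _ _ _).trans (add_le_add h6 h5.le)
    have h9 : (N : ℝ) * |((dg d none y).1 c : ℝ) - z.1 c| ≤ 1 := by
      have := mul_le_mul_of_nonneg_right h8 (by positivity : (0 : ℝ) ≤ 2 * (N + 1))
      nlinarith [abs_nonneg (((dg d none y).1 c : ℝ) - z.1 c)]
    have h10 : (N : ℝ) * |(q * (dg d none y).1 c - x c : ℝ)| ≤ q := by
      rw [← h3 c, ← mul_sub, abs_mul, Nat.abs_cast]
      nlinarith
    exact_mod_cast h10
  · obtain ⟨h5, -⟩ := (D.eqn_iff d f T y).1 hy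
    have hT : j ∈ T := by
      by_contra h
      have h6 := D.b_dg (d := d) y j
      rw [sum_eq_zero fun i _ => ?_] at h6
      · omega
      · rcases eq_or_ne (y (none, i)) 0 with h7 | h7
        · simp [h7]
        · simp [(h5 _ h7).2 j h]
    have h6 := (dist_le_pi_dist _ _ j).trans_lt hz.2
    rw [Real.dist_eq] at h6
    have h7 : X2 d none j a ≤ (dg d none y).2 j := by
      rw [← X2_cst, X2_apply, X2_apply]
      exact sum_le_sum fun i _ => mul_le_mul_of_nonneg_left (h1 _) (Nat.cast_nonneg _)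
    have h8 : z.2 j ≤ (dg d none y).2 j + η := by linarith [(abs_lt.1 h6).1]
    have h9 := (h4 j hT).trans (mul_le_mul_of_nonneg_left h8 hq0.le)
    have h10 : (L : ℝ) * ((D.t j x - log (D.v j s) : ℤ) : ℝ) ≤ q * (L * (dg d none y).2 j + 1) := by
      have h11 := mul_le_mul_of_nonneg_left h9 (Nat.cast_nonneg (α := ℝ) L)
      have h12 : (L : ℝ) * η ≤ 1 := by nlinarith
      nlinarith
    exact_mod_cast h10

theorem S_fg [Infinite k] (T : Finset J) : (D.S d f T).FG ∧
    ∀ y ∈ D.S d f T, D.Ad (dg d none y) ≤ D.R (dg d none y).1 := by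
  obtain ⟨ε, hε, H⟩ := D.lift_of hd
  have h1 : ∀ y, cst y ∈ D.Q d f T → D.Ad (dg d none y) ≤ D.R (dg d none y).1 := fun y hy =>
    H T _ hy y hy.2.1 (fun _ => le_rfl) fun p => by simpa [cst] using hε
  obtain ⟨G, hG, hG'⟩ := gen' (D.eqn d f T) (D.eqn_int d f T) (D.isClosed_Q d f T)
    (fun _ h => h.1) (D.Q_smul d f T) (fun _ h => h.2.1) hε
    fun a ha y hy h2 h3 => D.S_sub_Q d f (D.mem_S hd hy (H T a ha y hy h2 h3))
  refine ⟨⟨G, le_antisymm (AddSubmonoid.closure_le.2 fun g hg => ?_)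
    fun y hy => hG' y (D.S_sub_Q d f hy)⟩, fun y hy => h1 y (D.S_sub_Q d f hy)⟩
  exact D.mem_S hd (hG g hg).2.1 (h1 g (hG g hg))

/-- every degree with a nonzero restricted section is covered -/
theorem cover [Infinite k] (hg : ∀ p ∈ bm D.b, D.Ad p ≤ Gr.Mon k d f p) {x : κ → ℕ}
    (hx : D.R x ≠ ⊥) : ∃ T : Finset J, ∃ y ∈ D.S d f T, (dg d none y).1 = x ∧
      D.R x ≤ D.Ad (dg d none y) := by
  classical
  obtain ⟨s, hs, h0, h1⟩ := exists_max D.triv (D.R x) hx _ fun j s hs => D.R_le _ s hs j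
  have hv : ∀ j, D.v j s = exp (log (D.v j s)) := fun j => (exp_log (by simpa using h0)).symm
  have h2 : ∀ j, 0 ≤ D.t j x - log (D.v j s) := fun j => by
    have := D.R_le x s hs j
    rw [hv j, exp_le_exp] at this
    omega
  let g : J → ℕ := fun j => min (D.b j x) (D.t j x - log (D.v j s)).toNat
  let T : Finset J := univ.filter fun j => (g j : ℤ) = D.t j x - log (D.v j s)
  have hg1 : ∀ j, (g j : ℤ) ≤ D.t j x - log (D.v j s) := fun j => by
    have := h2 j
    simp only [g]; omega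
  have hg2 : ∀ j ∉ T, g j = D.b j x := fun j hj => by
    have := h2 j
    simp only [T, mem_filter, mem_univ, true_and] at hj
    simp only [g] at hj ⊢; omega
  have hp : (x, g) ∈ bm D.b := fun j => min_le_left _ _
  have hA : D.R x ≤ D.Ad (x, g) := fun s' hs' => D.mem_A (x, g) s' hs' fun j => by
    refine (h1 j s' hs').trans ?_
    have := hg1 j
    rw [hv j, exp_le_exp]
    simp only; omega
  have hm := hg _ hp (hA hs)
  have key : ∀ o : Option J, ∃ a : Fin n → ℕ, (∀ i, a i ≠ 0 → D.Ok d f T (o, i)) ∧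
      ((∀ j, o = some j → j ∈ T) → ∑ i, a i • d i = (x, g)) := by
    rintro (_ | j)
    · obtain ⟨a, ha, h3⟩ := exists_mon hm ⊥ (by simpa using h0)
      refine ⟨a, fun i hi => ⟨fun h => h3 ?_, fun j hj => ?_⟩, fun _ => ha⟩
      · rw [Submodule.mem_bot]
        exact prod_eq_zero (mem_univ i) (by rw [h, zero_pow hi])
      · have h4 := D.b_dg (d := d) (fun p => a p.2) j
        have h5 : dg d none (fun p => a p.2) = (x, g) := ha
        rw [h5] at h4
        simp only [hg2 j hj, sub_self] at h4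
        have h6 := (sum_eq_zero_iff_of_nonneg fun i _ => mul_nonneg (Nat.cast_nonneg _)
          (sub_nonneg.2 (by exact_mod_cast (hd i).1 j))).1 h4.symm i (mem_univ i)
        rcases mul_eq_zero.1 h6 with h7 | h7
        · exact (hi (by exact_mod_cast h7)).elim
        · omega
    · by_cases hj : j ∈ T
      swap
      · exact ⟨0, fun _ h => (h rfl).elim, fun h => (hj (h j rfl)).elim⟩
      have h3 : (g j : ℤ) = D.t j x - log (D.v j s) := (mem_filter.1 hj).2
      obtain ⟨a, ha, h4⟩ := exists_mon hm (ltS (D.v j) (D.triv j) (log (D.v j s)))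
        fun h => (lt_of_lt_of_eq h (hv j).symm : D.v j s < D.v j s).false
      refine ⟨a, fun i hi => ⟨hj, ?_⟩, fun _ => ha⟩
      refine v_eq_of_prod (D.v j) (n := fun i => D.t j (d i).1 - (d i).2 j)
        (fun i => D.A_le _ _ (hd i).2 j) (le_trans (le_of_eq ?_) (not_lt.1 h4)) hi
      have h5 := D.t_dg (d := d) none (fun p => a p.2) j
      have h6 : dg d none (fun p => a p.2) = (x, g) := ha
      rw [h6] at h5
      rw [← h5]
      congr 1
      simp only; omega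
  choose a ha ha' using key
  have h3 : dg d none (fun p => a p.1 p.2) = (x, g) := ha' none fun _ h => by cases h
  refine ⟨T, fun p => a p.1 p.2, ⟨(D.eqn_iff d f T _).2 ⟨fun p => ha p.1 p.2, fun j hj => ?_⟩, ?_⟩,
    by rw [h3], by rw [h3]; exact hA⟩
  · rw [h3]
    exact ha' (some j) fun _ h => by cases h; exact hj
  · rw [h3]
    refine ⟨s, hs, h0, fun j hj => ?_⟩
    have h4 : (g j : ℤ) = D.t j x - log (D.v j s) := (mem_filter.1 hj).2
    rw [hv j, exp_le_exp]
    simp only; omega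

end Gens

/-- **the restricted family is finitely generated** -/
theorem fg [Infinite k] : Gr.FG D.R ⊤ := by
  obtain ⟨n, d, f, hd, hg⟩ := D.fgA
  have h1 : ∀ T : Finset J, Gr.FG (fun y => D.Ad (dg d none y)) (D.S d f T) := fun T =>
    Gr.FG.comap D.mA ⟨n, d, f, hd, hg⟩ _ (D.S_fg hd T).1 fun y _ => D.dg_mem hd none y
  choose G hG h2 h3 using fun T => (h1 T).exists_finite
  refine Gr.FG.of_finite (T := ⋃ T, (fun p => ((dg d none p.1).1, p.2)) '' G T)
    (Set.finite_iUnion fun T => (hG T).image _) ?_ fun N hN h4 x _ => ?_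
  · intro p hp
    obtain ⟨T, p', hp', rfl⟩ := Set.mem_iUnion.1 hp
    exact ⟨trivial, (D.S_fg hd T).2 _ (h2 T p' hp').1 (h2 T p' hp').2⟩
  · by_cases hx : D.R x = ⊥
    · rw [hx]; exact bot_le
    obtain ⟨T, y, hy, rfl, h5⟩ := D.cover hd hg hx
    refine h5.trans (h3 T (fun y => N (dg d none y).1) ?_ (fun p hp => ?_) y hy)
    · exact hN.comap ((AddMonoidHom.fst _ _).comp (dg d none)) fun _ _ => trivial
    · exact h4 (_, _) (Set.mem_iUnion.2 ⟨T, p, hp, rfl⟩)

end Dat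

end Crest.Agent.X262.FG.S4
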