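import Crest.Agent.X262.FG.Inv
import Crest.Agent.X262.FG.S4c

/-!
# X262/FG/S4d (helper81): section 4 and Lemma 6.2 of the finite generation theorem

`s4Stmt : S4Stmt`.
-/

set_option autoImplicit false
set_option linter.unusedSectionVars false

open WithZero Finset
open scoped KaehlerDifferential

noncomputable section

namespace Crest.Agent.X262.FG.S4

open Crest.Agent.X277 Crest.Agent.X277.Lef Crest.Agent.X277.AN.G1 Crest.Agent.X277.BD
open Crest.Agent.X277.BD.Br (At oP kP)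
open Crest.Agent.X277.Res.Log (Bd)
open Crest.Agent.X277.Link (Plc)
open Crest.Agent.X262.Cvx

/-- the monoid `g ≤ b x` is generated in degree one -/
theorem bm_induction {κ J : Type} [Fintype κ] [Fintype J] [DecidableEq κ]
    {b : J → (κ → ℕ) →+ ℕ} {Q : (κ → ℕ) × (J → ℕ) → Prop} (h0 : Q 0)
    (h1 : ∀ k g, (∀ j, g j ≤ b j (Pi.single k 1)) → Q (Pi.single k 1, g))
    (h2 : ∀ p q, Q p → Q q → Q (p + q)) : ∀ p ∈ bm b, Q p := by
  rintro ⟨x, g⟩ hp
  induction hn : ∑ i, x i generalizing x g with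
  | zero =>
    obtain rfl : x = 0 := funext fun i => (sum_eq_zero_iff.1 hn) i (mem_univ i)
    obtain rfl : g = 0 := funext fun j => by simpa using hp j
    exact h0
  | succ n ih =>
    obtain ⟨k, -, hk⟩ := exists_ne_zero_of_sum_ne_zero (s := univ) (f := x) (by omega)
    have hx : x = Pi.single k 1 + (x - Pi.single k 1) := funext fun i => by
      simp only [Pi.add_apply, Pi.sub_apply, Pi.single_apply]
      split_ifs with h
      · subst h; omega
      · omega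
    have h3 := h2 _ _ (h1 k (fun j => min (g j) (b j (Pi.single k 1))) fun j => min_le_right _ _)
      (ih (x - Pi.single k 1) (fun j => g j - min (g j) (b j (Pi.single k 1))) (fun j => ?_) ?_)
    · convert h3 using 1
      refine Prod.ext hx (funext fun j => ?_)
      simp only [Prod.snd_add, Pi.add_apply]
      omega
    · have h4 : g j ≤ b j x := hp j
      rw [hx, map_add] at h4
      simp only
      omega
    · rw [hx] at hn
      simp only [Pi.add_apply, sum_add_distrib, Finset.sum_pi_single', mem_univ, if_true] at hn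
      omega

section Gen

variable {F : Type} [Field F] [Algebra ℂ F] {P : PModel ℂ F} {n : ℕ} {B : Bd P n}

theorem const_of_mem {f : F} (h : f ∈ (0 : BD ℂ F).Sec) : ∃ c : ℂ, algebraMap ℂ F c = f := by
  have h1 : IsIntegral (Algebra.adjoin ℂ (∅ : Set F)) f :=
    Cns.isIntegral_of_val fun V hV => by
      simpa [RZ.le_one_iff] using h ⟨V, Cns.KV.of_le hV⟩
  rw [Algebra.adjoin_empty] at h1
  have h2 : IsIntegral ℂ f := isIntegral_trans (A := (⊥ : Subalgebra ℂ F)) f h1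
  exact minpoly.mem_range_of_degree_eq_one ℂ f
    (IsAlgClosed.degree_eq_one_of_irreducible ℂ (minpoly.irreducible h2))

theorem mem_Sec_sub_dvs {a : BD ℂ F} (ha : a ∈ Br.On P) {s : F} (hs : s ∈ a.Sec) {g : B.ι → ℤ}
    (h : ∀ e, B.v e s ≤ exp (od B e a - g e)) : s ∈ (a - dvs B g).Sec := by
  rcases eq_or_ne s 0 with rfl | h0
  · exact zero_mem _
  refine Br.mem_Sec_of (P := P) fun x => ?_
  obtain ⟨u, hu⟩ := ha x
  refine ⟨_, hu.sub (at_dvs B _ x), ?_⟩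
  rw [div_inv_eq_mul, ← div_div]
  refine Bd.div_mon_mem (N := 0) (by simpa using hu.div_mem hs) fun e he => ?_
  have h1 := h e
  rw [od_of_at hu he, Res.Out.v_eq_exp _ h0, exp_le_exp] at h1
  rw [Res.Out.ord_div h0 hu.ne]
  omega

variable {b : Module.Basis (Fin n) F Ω[F⁄ℂ]}

theorem can_zero : Can B b 0 0 := fun Q C c' _ _ h => by
  simpa [dvs_zero] using dvs_nonneg h

theorem can_add {r r' : ℕ} {g g' : B.ι → ℤ} (h : Can B b r g) (h' : Can B b r' g')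
    (hg : ∀ e, 0 ≤ g e) (hg' : ∀ e, 0 ≤ g' e) : Can B b (r + r') (g + g') := by
  classical
  intro Q C c hQ h1 h2
  let c₁ : C.ι → ℤ := fun e' => if h : ∃ e, C.v e' = B.v e then g h.choose else 0
  have h3 : ∀ e e', C.v e' = B.v e → c₁ e' = g e := fun e e' he => by
    have h4 : ∃ e, C.v e' = B.v e := ⟨e, he⟩
    simp only [c₁, dif_pos h4]
    rw [B.v_injective (h4.choose_spec.symm.trans he)]
  have h4 : ∀ e e', C.v e' = B.v e → (g + g') e ≤ c e' := fun e e' he => by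
    rcases eq_or_ne ((g + g') e) 0 with h5 | h5
    · exact h5 ▸ h2 e'
    · obtain ⟨e'', h6, h7⟩ := h1 e h5
      rwa [C.v_injective (he.trans h6.symm)]
  have h5 : ∀ e, g e ≠ 0 ∨ g' e ≠ 0 → ∃ e', C.v e' = B.v e := fun e he => by
    refine (h1 e fun h6 => ?_).imp fun _ h => h.1
    have := hg e
    have := hg' e
    rw [Pi.add_apply] at h6
    omega
  have h6 := add_le_add (h Q C c₁ hQ (fun e he => ?_) fun e' => ?_)
    (h' Q C (c - c₁) hQ (fun e he => ?_) fun e' => ?_)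
  · rw [dvs_sub] at h6
    rw [dvs_add, add_smul, add_smul]
    convert h6 using 1 <;> abel
  · obtain ⟨e', he'⟩ := h5 e (Or.inl he)
    exact ⟨e', he', (h3 e e' he').ge⟩
  · simp only [c₁]
    split_ifs
    exacts [hg _, le_rfl]
  · obtain ⟨e', he'⟩ := h5 e (Or.inr he)
    have := h4 e e' he'
    rw [Pi.add_apply] at this
    exact ⟨e', he', by rw [Pi.sub_apply, h3 e e' he']; omega⟩
  · rw [Pi.sub_apply]
    by_cases h7 : ∃ e, C.v e' = B.v e
    · obtain ⟨e, he⟩ := h7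
      have h8 := h4 e e' he
      have := hg' e
      rw [Pi.add_apply] at h8
      rw [h3 e e' he]
      omega
    · simpa [c₁, h7] using h2 e'

end Gen

section Fc

variable {F : Type} [Field F] [Algebra ℂ F] {P : PModel ℂ F} {n : ℕ} {B : Bd P (n + 1)}
  {b : Module.Basis (Fin (n + 1)) F Ω[F⁄ℂ]} {e : B.ι} {E : Type} [Field E] [Algebra ℂ E]
  (Φ : Fc B b e E)

theorem pl_r (p : Plc ℂ F E) (s : F) : (pl p).r s = p.r s := by
  by_cases h : p.v s ≤ 1
  · rw [p.r_eq h, Pl.r_eq _ h]; rfl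
  · rw [Plc.r, dif_neg h]
    exact dif_neg h

theorem val_iff {a : BD ℂ F} : a.val (pl Φ.p).V = 1 ↔ od B e a = 0 := by
  have h : (pl Φ.p).V = rz (B.v e) (triv B e) :=
    Subtype.ext (congrArg Valuation.valuationSubring Φ.v_eq)
  rw [od_eq_zero, h]

theorem v_one {s : F} (h : B.v e s = 1) : (pl Φ.p).V.v s = 1 := by
  rw [← map_one (pl Φ.p).V.v]
  exact (v_rz_eq_iff Φ.p.v Φ.p.triv).2 (by rw [Φ.v_eq, h, map_one])

theorem res_adj {m : ℕ} {a : BD ℂ F} {c : B.ι → ℤ} (ha : od B e a = 0) (hc : c e = m) :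
    od B e (m • kP P b + a + dvs B c) = 0 ∧ (pl Φ.p).res (m • kP P b + a + dvs B c) =
      m • kP Φ.P' Φ.b' + (pl Φ.p).res a + dvs Φ.B' fun w => c (Φ.l w) := by
  classical
  have h1 : od B e (kP P b + dvs B (Pi.single e 1)) = 0 := by simp [Φ.od_K]
  have h2 : (c - m • (Pi.single e 1 : B.ι → ℤ)) e = 0 := by simp [hc]
  have h3 : m • kP P b + a + dvs B c =
      m • (kP P b + dvs B (Pi.single e 1)) + a + dvs B (c - m • Pi.single e 1) := by
    rw [dvs_sub, dvs_nsmul, smul_add]; abel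
  have h4 : od B e (m • (kP P b + dvs B (Pi.single e 1))) = 0 := by rw [map_nsmul, h1, smul_zero]
  have h5 : od B e (dvs B (c - m • Pi.single e 1)) = 0 := by rw [od_dvs, h2]
  rw [h3]
  refine ⟨by rw [map_add, map_add, h4, ha, h5]; rfl, ?_⟩
  rw [Pl.res_add ((val_iff Φ).2 (by rw [map_add, h4, ha]; rfl)) ((val_iff Φ).2 h5),
    Pl.res_add ((val_iff Φ).2 h4) ((val_iff Φ).2 ha), Pl.res_nsmul ((val_iff Φ).2 h1), Φ.res_K,
    Φ.res_dvs _ h2]
  congr 2
  funext w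
  simp [Pi.single_eq_of_ne (Φ.l_ne w)]

theorem v_le_one {a : BD ℂ F} (ha : od B e a = 0) {s : F} (hs : s ∈ a.Sec) : Φ.p.v s ≤ 1 := by
  have h := le_exp_ord (hv := triv B e) hs
  rw [Φ.v_eq]
  exact h.trans_eq (congrArg exp ha)

/-- a general member of a free class -/
theorem exists_gen_res {h : BD ℂ F} (hf : Free h) (h0 : od B e h = 0) : ∃ τ ∈ h.Sec,
    B.v e τ = 1 ∧ ∀ w, od Φ.B' w ((pl Φ.p).res h) ≤ log (Φ.B'.v w (Φ.p.r τ)) := by
  have hv := (val_iff Φ).2 h0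
  let W : Submodule ℂ E :=
    { carrier := {z | ∃ s ∈ h.Sec, Φ.p.r s = z}
      zero_mem' := ⟨0, zero_mem _, Φ.p.r_zero⟩
      add_mem' := by
        rintro _ _ ⟨s, hs, rfl⟩ ⟨t, ht, rfl⟩
        exact ⟨s + t, add_mem hs ht, Φ.p.r_add (v_le_one Φ h0 hs) (v_le_one Φ h0 ht)⟩
      smul_mem' := by
        rintro c _ ⟨s, hs, rfl⟩
        refine ⟨c • s, Submodule.smul_mem _ c hs, ?_⟩
        rw [Algebra.smul_def, Φ.p.r_mul (Φ.p.triv c) (v_le_one Φ h0 hs), Φ.p.r_alg,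
          Algebra.smul_def] }
  obtain ⟨g, hg, hg'⟩ := hf.exists_gen (pl Φ.p).V
  have hW : W ≠ ⊥ := (Submodule.ne_bot_iff _).2 ⟨_, ⟨g, hg, rfl⟩, by
    rw [← pl_r]; exact Pl.r_ne_zero_iff.2 (hg'.trans hv)⟩
  obtain ⟨_, ⟨τ, hτ, rfl⟩, h1, h2⟩ := exists_max (v := Φ.B'.v) (triv Φ.B') W hW
    (fun w => od Φ.B' w ((pl Φ.p).res h)) (by
      rintro w _ ⟨s, hs, rfl⟩
      exact le_exp_ord (hv := triv Φ.B' w) (pl_r Φ.p s ▸ Pl.r_mem_Sec hv hs))
  refine ⟨τ, hτ, Φ.v_eq ▸ Φ.p.v_eq_one (v_le_one Φ h0 hτ) h1, fun w => ?_⟩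
  obtain ⟨u, hu, hu'⟩ := hf.exists_gen ((pl Φ.p).cm (rz (Φ.B'.v w) (triv Φ.B' w)))
  have h3 := h2 w _ ⟨u, hu, rfl⟩
  rw [← pl_r, ← vl_eq (Pl.val_res hv hu').symm, ← exp_od,
    ← exp_log (x := Φ.B'.v w (Φ.p.r τ)) (by simpa using h1), exp_le_exp] at h3
  exact h3

variable {κ : Type} [Fintype κ] (S : Sys B κ)

/-- the boundary on the component -/
def bb (j : Φ.B'.ι) : (κ → ℕ) →+ ℕ where
  toFun x := ∑ k, x k * (S.c k (Φ.l j)).toNat
  map_zero' := by simp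
  map_add' x y := by simp [add_mul, sum_add_distrib]

theorem bb_cast (x : κ → ℕ) (j : Φ.B'.ι) :
    (bb Φ S j x : ℤ) = (∑ k, x k • S.c k) (Φ.l j) := by
  simp [bb, Int.toNat_of_nonneg (S.c_nonneg _ _)]

theorem bb_single [DecidableEq κ] (k : κ) (j : Φ.B'.ι) :
    (bb Φ S j (Pi.single k 1) : ℤ) = S.c k (Φ.l j) := by
  simp [bb, Pi.single_apply, Int.toNat_of_nonneg (S.c_nonneg _ _)]

variable (he : ∀ k, S.c k e = S.r) (hA : ∀ k, od B e (S.A k) = 0)
include he hA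

omit he in
theorem od_lcA (x : κ → ℕ) : od B e (lc S.A x) = 0 := by simp [od_lc, hA]

omit hA in
theorem c_e (x : κ → ℕ) : (∑ k, x k • S.c k) e = ((∑ k, x k) * S.r : ℕ) := by
  simp [he, sum_mul]

include Φ in
theorem od_lcD (x : κ → ℕ) : od B e (lc (S.D b) x) = 0 :=
  S.lc_D b x ▸ (res_adj Φ (od_lcA S hA x) (c_e S he x)).1

include Φ in
theorem od_D (k : κ) : od B e (S.D b k) = 0 := (res_adj Φ (hA k) (he k)).1

/-- the adjoint divisors on the component -/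
def Z : (κ → ℕ) × (Φ.B'.ι → ℕ) →+ BD ℂ E where
  toFun p := (pl Φ.p).res (lc (S.D b) p.1) - dvs Φ.B' fun j => p.2 j
  map_zero' := by
    simp only [Prod.fst_zero, lc_zero, Pl.res_zero, zero_sub, neg_eq_zero]
    exact dvs_zero Φ.B'
  map_add' p q := by
    have : (fun j => (((p + q).2 j : ℕ) : ℤ)) = (fun j => (p.2 j : ℤ)) + fun j => (q.2 j : ℤ) := by
      funext j; simp
    rw [this, dvs_add, Prod.fst_add, lc_add, Pl.res_add ((val_iff Φ).2 (od_lcD Φ S he hA _))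
      ((val_iff Φ).2 (od_lcD Φ S he hA _))]
    abel

theorem Z_apply (p : (κ → ℕ) × (Φ.B'.ι → ℕ)) :
    Z Φ S he hA p = (pl Φ.p).res (lc (S.D b) p.1) - dvs Φ.B' fun j => p.2 j := rfl

theorem Z_eq (p : (κ → ℕ) × (Φ.B'.ι → ℕ)) : Z Φ S he hA p =
    ((∑ k, p.1 k) * S.r) • kP Φ.P' Φ.b' + (pl Φ.p).res (lc S.A p.1) +
      dvs Φ.B' fun j => bb Φ S j p.1 - p.2 j := by
  rw [Z_apply, S.lc_D, (res_adj Φ (od_lcA S hA _) (c_e S he _)).2, add_sub_assoc, ← dvs_sub]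
  congr 2
  funext j
  rw [bb_cast]
  rfl

theorem genP : GenP Φ.p (S.D b) 1 := fun k => by
  rw [Pi.one_apply, map_one]
  exact (vl_eq_one.2 ((val_iff Φ).2 (od_D Φ S he hA k))).symm

theorem mem_R {x : κ → ℕ} {z : E} :
    z ∈ resS (genP Φ S he hA) x ↔ ∃ s ∈ (lc (S.D b) x).Sec, Φ.p.r s = z := by
  simp [mem_resS]

theorem R_mem {x : κ → ℕ} {z : E} (hz : z ∈ resS (genP Φ S he hA) x) :
    z ∈ ((pl Φ.p).res (lc (S.D b) x)).Sec := by
  obtain ⟨s, hs, rfl⟩ := (mem_R Φ S he hA).1 hz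
  exact pl_r Φ.p s ▸ Pl.r_mem_Sec ((val_iff Φ).2 (od_lcD Φ S he hA x)) hs

theorem fg_Z (h : AStmt n) : Gr.FG (fun p => (Z Φ S he hA p).Sec) (bm (bb Φ S)) := by
  classical
  let κ' := {p : κ × (Φ.B'.ι → Fin (S.r + 1)) // ∀ j, ((p.2 j : ℕ) : ℤ) ≤ S.c p.1 (Φ.l j)}
  let S' : Sys Φ.B' κ' :=
    { r := S.r
      r_pos := S.r_pos
      A := fun t => (pl Φ.p).res (S.A t.1.1)
      amp := fun t => Φ.res_amp _ (S.amp _) (hA _)
      c := fun t j => S.c t.1.1 (Φ.l j) - (t.1.2 j : ℕ)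
      c_nonneg := fun t j => sub_nonneg.2 (t.2 j)
      c_le := fun t j => by have := S.c_le t.1.1 (Φ.l j); omega }
  let d : κ' → (κ → ℕ) × (Φ.B'.ι → ℕ) := fun t => (Pi.single t.1.1 1, fun j => t.1.2 j)
  let φ : (κ' → ℕ) →+ (κ → ℕ) × (Φ.B'.ι → ℕ) :=
    { toFun := fun y => ∑ t, y t • d t
      map_zero' := by simp
      map_add' := fun y y' => by simp [add_smul, sum_add_distrib] }
  have h1 : ∀ t, S'.D Φ.b' t = Z Φ S he hA (d t) := fun t => by
    rw [Z_eq]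
    simp only [d, lc_single, bb_single, Finset.sum_pi_single', mem_univ, if_true, one_mul]
    rfl
  refine Gr.FG.of_comap φ (S' := ⊤) (fun y _ => ?_) (fun p hp => Or.inr ?_) ?_
  · refine (bm _).sum_mem fun t _ => (bm _).nsmul_mem (fun j => ?_) _
    have h2 := t.2 j
    rw [← bb_single Φ S] at h2
    exact_mod_cast h2
  · refine bm_induction (Q := fun p => ∃ s' ∈ (⊤ : AddSubmonoid (κ' → ℕ)), φ s' = p)
      ⟨0, trivial, map_zero _⟩ (fun k g hg => ?_) ?_ p hp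
    · have h2 : ∀ j, (g j : ℤ) ≤ S.c k (Φ.l j) := fun j => by
        rw [← bb_single Φ S]; exact_mod_cast hg j
      have h3 : ∀ j, g j < S.r + 1 := fun j => by
        have := h2 j
        have := S.c_le k (Φ.l j)
        omega
      refine ⟨Pi.single ⟨(k, fun j => ⟨g j, h3 j⟩), h2⟩ 1, trivial, ?_⟩
      change ∑ t, _ • d t = _
      rw [sum_eq_single ⟨(k, fun j => ⟨g j, h3 j⟩), h2⟩ (fun t _ ht => by
        rw [Pi.single_eq_of_ne ht, zero_smul]) (by simp), Pi.single_eq_same, one_smul]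
    · rintro _ _ ⟨y, -, rfl⟩ ⟨y', -, rfl⟩
      exact ⟨y + y', trivial, map_add _ _ _⟩
  · refine Gr.FG.congr (h E Φ.P' Φ.B' Φ.b' κ' S') fun y _ => ?_
    simp only [lc, h1, φ, AddMonoidHom.coe_mk, ZeroHom.coe_mk, map_sum, map_nsmul]

omit he hA in
theorem can_of (hc : ∀ k (g : Φ.B'.ι → ℤ), (∀ w, 0 ≤ g w ∧ g w ≤ S.c k (Φ.l w)) →
    Can Φ.B' Φ.b' S.r g) :
    ∀ p ∈ bm (bb Φ S), Can Φ.B' Φ.b' ((∑ k, p.1 k) * S.r) fun j => p.2 j := by
  classical
  refine bm_induction ?_ (fun k g hg => ?_) fun p q hp hq => ?_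
  · simp only [Prod.fst_zero, Pi.zero_apply, sum_const_zero, zero_mul]
    exact can_zero
  · simp only [Finset.sum_pi_single', mem_univ, if_true, one_mul]
    refine hc k _ fun j => ⟨Nat.cast_nonneg _, ?_⟩
    rw [← bb_single Φ S]
    exact_mod_cast hg j
  · convert can_add hp hq (fun _ => Nat.cast_nonneg _) fun _ => Nat.cast_nonneg _ using 1
    · simp [sum_add_distrib, add_mul]
    · funext j; simp

omit he hA in
/-- uniform positivity -/
theorem exists_N : ∃ N : ℕ, ∀ (q : ℕ) (x x' : κ → ℕ), 0 < q → x ≠ 0 →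
    (∀ i, (N : ℤ) * |(q * x i - x' i : ℤ)| ≤ q) →
    Amp P (q • (((∑ k, x k) * S.r) • lc (S.D b) x + lc S.A x) -
      ((∑ k, x k) * S.r) • lc (S.D b) x') := by
  choose m hm using fun k => (S.amp k).unif (S.D_mem b)
  obtain ⟨M, hM⟩ := (Set.finite_range m).bddAbove
  refine ⟨M * S.r * Fintype.card κ + 1, fun q x x' hq hx h => ?_⟩
  have h1 : ∀ k, Amp P (q • S.A k + ∑ i, (S.r * (q * x i - x' i) : ℤ) • S.D b i) := fun k => by
    refine hm k q _ hq (lt_of_le_of_lt (Nat.mul_le_mul_right _ (hM ⟨k, rfl⟩)) ?_)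
    have h2 : ∀ i, (M * S.r * Fintype.card κ + 1) * (q * x i - x' i : ℤ).natAbs ≤ q := fun i => by
      have h3 := h i
      rw [Int.abs_eq_natAbs] at h3
      exact_mod_cast h3
    have h3 : (M * S.r * Fintype.card κ + 1) * ∑ i, (q * x i - x' i : ℤ).natAbs ≤
        Fintype.card κ * q := by
      rw [mul_sum]
      exact (sum_le_sum fun i _ => h2 i).trans (by simp)
    simp only [Int.natAbs_mul, Int.natAbs_natCast, ← mul_sum]
    refine lt_of_mul_lt_mul_left (a := M * S.r * Fintype.card κ + 1) ?_ (Nat.zero_le _)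
    nlinarith [Nat.mul_le_mul_left (M * S.r) h3]
  convert Amp.lc h1 hx using 1
  rw [lc_add_fam, lc_const, lc_smul_fam, lc_nsmul]
  have h2 : ∑ i, (S.r * (q * x i - x' i) : ℤ) • S.D b i =
      S.r • (q • lc (S.D b) x - lc (S.D b) x') := by
    simp only [lc, smul_sub, Finset.smul_sum, ← sum_sub_distrib]
    refine sum_congr rfl fun i _ => ?_
    module
  rw [h2]
  module

theorem lift (hL : LiftStmt n) (hlt : ∀ k e₁, e₁ ≠ e → S.c k e₁ < S.r)
    (hc : ∀ k (g : Φ.B'.ι → ℤ), (∀ w, 0 ≤ g w ∧ g w ≤ S.c k (Φ.l w)) → Can Φ.B' Φ.b' S.r g) :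
    ∃ N : ℕ, ∀ p ∈ bm (bb Φ S), (∀ L : ℕ, ∃ (q : ℕ) (x : κ → ℕ), 0 < q ∧
      (∀ i, (N : ℤ) * |(q * p.1 i - x i : ℤ)| ≤ q) ∧ ∃ s ∈ resS (genP Φ S he hA) x, s ≠ 0 ∧
        ∀ j, p.2 j < bb Φ S j p.1 → L * (od Φ.B' j ((pl Φ.p).res (lc (S.D b) x)) -
          log (Φ.B'.v j s)) ≤ q * (L * p.2 j + 1)) →
      (Z Φ S he hA p).Sec ≤ resS (genP Φ S he hA) p.1 := by
  obtain ⟨N, hN⟩ := exists_N (b := b) S
  refine ⟨N, ?_⟩
  rintro ⟨x, g⟩ hp H s' hs'
  have hg : ∀ j, g j ≤ bb Φ S j x := hp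
  rcases eq_or_ne x 0 with rfl | hx
  · obtain rfl : g = 0 := funext fun j => by simpa using hg j
    obtain ⟨c, rfl⟩ := const_of_mem (F := E) (map_zero (Z Φ S he hA) ▸ hs')
    rw [Algebra.algebraMap_eq_smul_one]
    exact Submodule.smul_mem _ c (mult_resS _).one
  obtain ⟨k, hk⟩ := Function.ne_iff.1 hx
  have hk' : 0 < x k := Nat.pos_of_ne_zero hk
  have hm : 0 < (∑ k, x k) * S.r := Nat.mul_pos
    (hk'.trans_le (single_le_sum (f := x) (fun _ _ => Nat.zero_le _) (mem_univ k))) S.r_pos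
  rw [Z_eq Φ S he hA] at hs'
  rw [mem_R Φ S he hA, S.lc_D]
  refine hL F P B b e E Φ _ _ _ (fun j => bb Φ S j x - g j) (Amp.lc S.amp hx) (od_lcA S hA x)
    (c_e S he x) (fun e₁ h₁ => ⟨?_, ?_⟩) hm (fun w => ⟨?_, ?_⟩) ?_ (fun L => ?_) s' hs'
  · rw [Finset.sum_apply]
    exact sum_nonneg fun k _ => nsmul_nonneg (S.c_nonneg k e₁) _
  · rw [Finset.sum_apply, sum_mul, Nat.cast_sum]
    refine sum_lt_sum (fun i _ => ?_) ⟨k, mem_univ k, ?_⟩
    · rw [Pi.smul_apply, nsmul_eq_mul, Nat.cast_mul]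
      exact mul_le_mul_of_nonneg_left (S.c_le i e₁) (Nat.cast_nonneg _)
    · rw [Pi.smul_apply, nsmul_eq_mul, Nat.cast_mul]
      exact mul_lt_mul_of_pos_left (hlt k e₁ h₁) (by exact_mod_cast hk')
  · have := hg w
    omega
  · rw [← bb_cast]
    omega
  · convert can_of Φ S hc (x, fun j => bb Φ S j x - g j) (fun j => Nat.sub_le _ _) using 2 with j
    simp [hg j]
  obtain ⟨q, x', hq, h1, z, hz, h0, h2⟩ := H L
  obtain ⟨s, hs, rfl⟩ := (mem_R Φ S he hA).1 hz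
  rw [← S.lc_D]
  have h3 := hN q x x' hq hx h1
  set m := (∑ k, x k) * S.r
  set T := m • lc (S.D b) x + lc S.A x
  obtain ⟨u, hu⟩ := h3.semi
  have hT : od B e T = 0 := by
    simp only [T, map_add, map_nsmul, od_lcD Φ S he hA, od_lcA S hA, smul_zero, add_zero]
  have hx' := od_lcD Φ S he hA x'
  have h4 : od B e ((u + 1) • (q • T - m • lc (S.D b) x')) = 0 := by
    simp only [map_nsmul, map_sub, hT, hx', smul_zero, sub_zero]
  obtain ⟨τ, hτ, h5, h6⟩ := exists_gen_res Φ (hu (u + 1) u.le_succ) h4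
  have hs1 : Φ.p.v s = 1 := Φ.p.v_eq_one (v_le_one Φ hx' hs) h0
  have hτ1 : Φ.p.v τ = 1 := Φ.v_eq ▸ h5
  have h7 : ((u + 1) * q) • T =
      ((u + 1) * m) • lc (S.D b) x' + (u + 1) • (q • T - m • lc (S.D b) x') := by module
  have h8 : B.v e (s ^ ((u + 1) * m) * τ) = 1 := by
    rw [← Φ.v_eq, map_mul, map_pow, hs1, hτ1, one_pow, one_mul]
  refine ⟨(u + 1) * q, Nat.mul_pos u.succ_pos hq, s ^ ((u + 1) * m) * τ,
    h7 ▸ mul_mem_Sec (pow_mem_Sec hs _) hτ, h8, fun w hw => ?_⟩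
  have h9 := h2 w (by have := hg w; simp only; omega)
  have h10 := h6 w
  have h11 : (pr ℂ (s ^ ((u + 1) * m) * τ)).val (pl Φ.p).V = 1 := by
    rw [val_pr (fun h => by simp [h] at h8), v_one Φ h8]
  have hrτ : Φ.p.r τ ≠ 0 := Φ.p.r_ne_zero hτ1
  rw [Pl.res_sub ((val_iff Φ).2 (by rw [map_nsmul, hT, smul_zero])) h11, Pl.res_pr (v_one Φ h8),
    pl_r, h7, Pl.res_add ((val_iff Φ).2 (by rw [map_nsmul, hx', smul_zero])) ((val_iff Φ).2 h4),
    Pl.res_nsmul ((val_iff Φ).2 hx'), Φ.p.r_mul (Φ.p.v_pow_le hs1.le _) hτ1.le,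
    Φ.p.r_pow hs1.le, map_sub, map_add, map_nsmul,
    od_pr (mul_ne_zero (pow_ne_zero _ h0) hrτ), Res.Out.ord, neg_neg, map_mul, map_pow,
    log_mul (pow_ne_zero _ (by simpa using h0)) (by simpa using hrτ), log_pow, ← bb_cast]
  simp only [nsmul_eq_mul] at h9 ⊢
  have h12 := mul_le_mul_of_nonneg_left h9 (Nat.cast_nonneg (α := ℤ) ((u + 1) * m))
  have h13 := mul_le_mul_of_nonneg_left h10 (Nat.cast_nonneg (α := ℤ) L)
  push_cast at h12 ⊢
  nlinarith

end Fc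

/-- **section 4 and Lemma 6.2** -/
theorem s4Stmt : S4Stmt := by
  intro n hAn hL F _ _ P B b κ _ S e E _ _ Φ he hlt hA hc
  have ht : ∀ j x, ((od Φ.B' j).comp ((Z Φ S he hA).comp (AddMonoidHom.inl _ _))) x =
      od Φ.B' j ((pl Φ.p).res (lc (S.D b) x)) := fun j x => by
    simp [Z_apply]
  let D : Dat ℂ E κ Φ.B'.ι :=
    { R := resS (genP Φ S he hA)
      Ad := fun p => (Z Φ S he hA p).Sec
      v := Φ.B'.v
      t := fun j => (od Φ.B' j).comp ((Z Φ S he hA).comp (AddMonoidHom.inl _ _))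
      b := bb Φ S
      triv := triv Φ.B'
      mR := mult_resS _
      mA := ⟨by rw [map_zero]; exact one_mem_Sec, fun p _ q _ f hf g hg => by
        rw [map_add]; exact mul_mem_Sec hf hg⟩
      fgA := fg_Z Φ S he hA hAn
      R_le := fun x s hs j => by
        rw [ht]
        exact le_exp_ord (hv := triv Φ.B' j) (R_mem Φ S he hA hs)
      A_le := fun p s hs j => by
        have h := le_exp_ord (hv := triv Φ.B' j) hs
        change _ ≤ exp (od Φ.B' j _) at h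
        rwa [Z_apply, map_sub, od_dvs, ← ht] at h
      mem_A := fun p s hs h => mem_Sec_sub_dvs
        (Φ.res_on _ (lc_mem (S.D_mem b) _) (od_lcD Φ S he hA _)) (R_mem Φ S he hA hs) fun j => by
          rw [← ht]
          exact h j
      lift := by
        simp only [ht]
        exact lift Φ S he hA hL hlt hc }
  have h := (rfg_iff (genP Φ S he hA)).2 D.fg
  obtain ⟨N, d, f, h1, h2⟩ := h
  refine ⟨N, d, f, h1, fun x s hs => (h2 x s hs).imp fun g hg => ⟨hg.1, ?_⟩⟩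
  have h3 := hg.2
  rw [vl_eq_one.2 ((val_iff Φ).2 (od_lcD Φ S he hA x)), Φ.v_eq] at h3
  rwa [vl_eq_one_iff.2 (od_lcD Φ S he hA x)]

end Crest.Agent.X262.FG.S4
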