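import Crest.Agent.X262.FG.NvMain
import Crest.Agent.X262.FG.C1a5
import Crest.Agent.X262.FG.Q81
import Crest.Agent.X262.FG.Pt1
import Crest.Agent.X262.FG.Lift
import Crest.Agent.X262.FG.S4d
import Crest.Agent.X262.FG.Dj6
import Crest.Agent.X262.FG.Fin4
import Crest.Agent.X262.Rho82.Nz

/-!
# Row 262, FG (helper86): the assembly of the induction

`aStmt_of_l51` : finite generation of adjoint rings from Lemma 5.1 and the finiteness of the rank
of the numerical classes.
-/

set_option autoImplicit false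

namespace Crest.Agent.X262.FG

theorem nvStmt_of_l51 (hNS : NSStmt) (hL : ∀ n, L51Stmt n) : NVStmt :=
  Sg.nvStmt_of Rho82.nzStmt hL vgStmt ptStmt Prm5.posStmt (C1a5.c1aStmt hNS Rho82.nzStmt)
    fun _ => Sg.qStmt_of

theorem aStmt_of_l51 (hNS : NSStmt) (hL : ∀ n, L51Stmt n) (n : ℕ) : AStmt n :=
  aStmt_of aStmt_zero liftStmt S4.s4Stmt (Dj.disjStmt_of_fac facStmt) (nvStmt_of_l51 hNS hL)
    Fin5.finStmt n

end Crest.Agent.X262.FG
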