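import Crest.Agent.X262.FG.Inv
import Crest.Agent.X262.KV.Defs
import Crest.Agent.X277.BD.Mdl
import Crest.Agent.X277.AN.G1Conn

/-!
# Row 262, FG (helper80): `h⁰(G + k T)` is a polynomial function

* `PF d f`      : the function `f : ℕ → ℤ` is polynomial of degree `< d`;
* `SN P T`      : `O(1) + k T` is ample for all `k`;
* `Adj B I G`   : `G = K + fractional boundary + ample`, the boundary has no component in `I`;
* `rk_step`     : the exact sequence of a component;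
* `poly`        : `k ↦ h⁰(G + k T)` is polynomial.
-/

set_option autoImplicit false
set_option linter.unusedSectionVars false

open WithZero
open scoped KaehlerDifferential

noncomputable section

namespace Crest.Agent.X262.FG.N51

open Crest.Agent.X277 Crest.Agent.X277.Lef Crest.Agent.X277.AN.G1 Crest.Agent.X277.BD
open Crest.Agent.X277.BD.Br (At oP kP)
open Crest.Agent.X277.Res.Log (Bd)
open Crest.Agent.X277.Link (Plc)
open Crest.Agent.X262.KV (KVL)

/-! ### polynomial functions -/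

/-- polynomial functions of degree `< d` -/
def PF : ℕ → (ℕ → ℤ) → Prop
  | 0, f => ∀ k, f k = 0
  | d + 1, f => PF d fun k => f (k + 1) - f k

theorem PF.congr {d : ℕ} {f g : ℕ → ℤ} (h : PF d f) (e : ∀ k, f k = g k) : PF d g :=
  funext e ▸ h

theorem PF.zero : ∀ d, PF d fun _ => 0
  | 0 => fun _ => rfl
  | d + 1 => (PF.zero d).congr fun _ => by simp

theorem PF.add : ∀ {d : ℕ} {f g : ℕ → ℤ}, PF d f → PF d g → PF d fun k => f k + g k
  | 0, _, _, h, h' => fun k => by simp only [h k, h' k, add_zero]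
  | d + 1, _, _, h, h' => (PF.add (d := d) h h').congr fun _ => by ring

theorem PF.sub : ∀ {d : ℕ} {f g : ℕ → ℤ}, PF d f → PF d g → PF d fun k => f k - g k
  | 0, _, _, h, h' => fun k => by simp only [h k, h' k, sub_zero]
  | d + 1, _, _, h, h' => (PF.sub (d := d) h h').congr fun _ => by ring

theorem PF.shift : ∀ {d : ℕ} {f : ℕ → ℤ}, PF d f → PF d fun k => f (k + 1)
  | 0, _, h => fun k => h (k + 1)
  | d + 1, _, h => PF.shift (d := d) h

theorem PF.eq_zero : ∀ {d : ℕ} {f : ℕ → ℤ}, PF d f → (∀ k, f (k + 1) = 0) → f 0 = 0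
  | 0, _, h, _ => h 0
  | d + 1, f, h, h0 => by
    have h1 := PF.eq_zero (d := d) h fun k => by rw [h0, h0, sub_zero]
    rwa [h0, zero_sub, neg_eq_zero] at h1

variable {F : Type} [Field F] [Algebra ℂ F] {P : PModel ℂ F} {n : ℕ}

/-- the dimension of the space of sections -/
def hh (a : BD ℂ F) : ℤ := Module.finrank ℂ a.Sec

theorem hh_lin {a a' : BD ℂ F} (h : Lin a a') : hh a = hh a' := congrArg Nat.cast h.finrank

theorem lin_sub_pr (a : BD ℂ F) {g : F} (hg : g ≠ 0) : Lin a (a - pr ℂ g) := ⟨g, hg, by simp⟩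

/-! ### nef classes -/

/-- `O(1) + k T` is ample for all `k` -/
def SN (P : PModel ℂ F) (T : BD ℂ F) : Prop := T ∈ Br.On P ∧ ∀ k : ℕ, Amp P (oP P + k • T)

theorem amp_add_of {A H T : BD ℂ F} (hA : Amp P A) (hH : H ∈ Br.On P) (hT : T ∈ Br.On P)
    (h : ∀ k : ℕ, Amp P (H + k • T)) (k : ℕ) : Amp P (A + k • T) := by
  obtain ⟨m, hm⟩ := hA.exists_amp (neg_mem hH)
  refine Amp.of_nsmul m.succ_pos (add_mem hA.1 (nsmul_mem hT k)) ?_
  convert (hm _ m.le_succ).add (h (m.succ * k)) using 1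
  module

theorem SN.amp {A T : BD ℂ F} (h : SN P T) (hA : Amp P A) (k : ℕ) : Amp P (A + k • T) :=
  amp_add_of hA Br.oP_mem h.1 h.2 k

theorem SN.sub_pr {T : BD ℂ F} (h : SN P T) {t : F} (ht : t ≠ 0) : SN P (T - pr ℂ t) :=
  ⟨sub_mem h.1 (Br.pr_mem t), fun k => by
    convert (h.2 k).sub_pr (t ^ k) using 1
    rw [pr_pow ht]
    module⟩

/-! ### adjoint classes -/

/-- `G = K + fractional boundary + ample`; no component of the boundary is in `I` -/
def Adj (B : Bd P n) (I : Set B.ι) (G : BD ℂ F) : Prop :=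
  ∃ (b : Module.Basis (Fin n) F Ω[F⁄ℂ]) (q : ℕ) (φ : B.ι → ℤ) (A : BD ℂ F), G ∈ Br.On P ∧ 0 < q ∧
    (∀ e, 0 ≤ φ e ∧ φ e < q) ∧ (∀ e ∈ I, φ e = 0) ∧ Amp P A ∧ q • G = q • kP P b + A + dvs B φ

section Adj

variable {B : Bd P n} {I : Set B.ι} {G : BD ℂ F}

theorem Adj.mem (h : Adj B I G) : G ∈ Br.On P := by
  obtain ⟨_, _, _, _, h, _⟩ := h
  exact h

theorem Adj.sub_pr (h : Adj B I G) {g : F} (hg : g ≠ 0) : Adj B I (G - pr ℂ g) := by
  obtain ⟨b, q, φ, A, h0, h1, h2, h3, h4, h5⟩ := h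
  refine ⟨b, q, φ, A - pr ℂ (g ^ q), sub_mem h0 (Br.pr_mem g), h1, h2, h3, h4.sub_pr _, ?_⟩
  rw [smul_sub, h5, pr_pow hg]
  abel

theorem Adj.chg (h : Adj B I G) (b : Module.Basis (Fin n) F Ω[F⁄ℂ]) :
    ∃ (q : ℕ) (φ : B.ι → ℤ) (A : BD ℂ F), 0 < q ∧ (∀ e, 0 ≤ φ e ∧ φ e < q) ∧ (∀ e ∈ I, φ e = 0) ∧
      Amp P A ∧ q • G = q • kP P b + A + dvs B φ := by
  obtain ⟨b', q, φ, A, -, h1, h2, h3, h4, h5⟩ := h
  obtain ⟨f, hf, h6⟩ := Br.lin_kP (P := P) b b'
  refine ⟨q, φ, A - pr ℂ (f ^ q), h1, h2, h3, h4.sub_pr _, ?_⟩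
  rw [h5, h6, pr_pow hf]
  module

open Classical in
theorem Adj.step (h : Adj B I G) {e : B.ι} (he : e ∈ I) :
    Adj B (I \ {e}) (G + dvs B (Pi.single e 1)) := by
  obtain ⟨b, q, φ, A, h0, h1, h2, h3, h4, h5⟩ := h
  obtain ⟨M, hM⟩ := h4.exists_amp (dvs_mem B (Pi.single e 1))
  have h6 : (1 : ℤ) ≤ q := by exact_mod_cast h1
  have h7 : (0 : ℤ) ≤ M := Nat.cast_nonneg M
  refine ⟨b, (M + 1) * q, (M + 1) • φ + (((M + 1) * q : ℕ) - 1 : ℤ) • Pi.single e 1, _,
    add_mem h0 (dvs_mem B _), Nat.mul_pos M.succ_pos h1, fun e' => ?_, fun e' he' => ?_,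
    hM _ M.le_succ, ?_⟩
  · rw [Pi.add_apply, Pi.smul_apply, Pi.smul_apply, nsmul_eq_mul, smul_eq_mul]
    by_cases h8 : e' = e
    · rw [h8, h3 e he, Pi.single_eq_same]
      push_cast
      constructor <;> nlinarith
    · have := h2 e'
      rw [Pi.single_eq_of_ne h8]
      push_cast
      constructor <;> nlinarith
  · rw [Pi.add_apply, Pi.smul_apply, Pi.smul_apply, h3 e' he'.1, Pi.single_eq_of_ne he'.2]
    simp
  · rw [smul_add, mul_smul, h5, dvs_add, dvs_nsmul, dvs_zsmul]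
    push_cast
    module

theorem Adj.mono (h : Adj B I G) {J : Set B.ι} (hJ : J ⊆ I) : Adj B J G := by
  obtain ⟨b, q, φ, A, h0, h1, h2, h3, h4, h5⟩ := h
  exact ⟨b, q, φ, A, h0, h1, h2, fun e he => h3 e (hJ he), h4, h5⟩

theorem Adj.ext (h : Adj B I G) {C : Bd P n} {j : B.ι → C.ι} (hj : ∀ e, C.v (j e) = B.v e) :
    Adj C (Set.range j)ᶜ G := by
  obtain ⟨b, q, φ, A, h0, h1, h2, -, h4, h5⟩ := h
  have hi : Function.Injective j := fun e e' h => B.v_injective (by rw [← hj, h, hj])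
  have h6 : ∀ e', e' ∉ Set.range j → Function.extend j φ 0 e' = 0 := fun e' he' =>
    Function.extend_apply' _ _ _ he'
  refine ⟨b, q, Function.extend j φ 0, A, h0, h1, fun e' => ?_, h6, h4, ?_⟩
  · by_cases h7 : e' ∈ Set.range j
    · obtain ⟨e, rfl⟩ := h7
      rw [hi.extend_apply]
      exact h2 e
    · rw [h6 e' h7]
      exact ⟨le_rfl, by exact_mod_cast h1⟩
  · rw [h5, dvs_congr hj (fun e => hi.extend_apply _ _ e) h6]

end Adj

/-! ### restriction to a component -/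

section Res

variable {B : Bd P (n + 1)} {b : Module.Basis (Fin (n + 1)) F Ω[F⁄ℂ]} {e : B.ι} {E : Type}
  [Field E] [Algebra ℂ E] (Φ : Fc B b e E) {a a' : BD ℂ F}

theorem pl_r (p : Plc ℂ F E) (x : F) : (pl p).r x = p.r x := by
  by_cases h : p.v x ≤ 1
  · rw [p.r_eq h, (pl p).r_eq h]
    rfl
  · rw [Plc.r, dif_neg h]
    exact dif_neg h

theorem pl_V : (pl Φ.p).V = rz (B.v e) (triv B e) := 
  Subtype.ext (congrArg Valuation.valuationSubring Φ.v_eq)

theorem val_one (h : od B e a = 0) : a.val (pl Φ.p).V = 1 := by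
  rw [pl_V]
  exact od_eq_zero.1 h

theorem res_add (h : od B e a = 0) (h' : od B e a' = 0) :
    (pl Φ.p).res (a + a') = (pl Φ.p).res a + (pl Φ.p).res a' :=
  Pl.res_add (val_one Φ h) (val_one Φ h')

theorem res_nsmul (h : od B e a = 0) (m : ℕ) : (pl Φ.p).res (m • a) = m • (pl Φ.p).res a :=
  Pl.res_nsmul (val_one Φ h) m

open Classical in
/-- the exact sequence of a component -/
theorem rk_step (ha : a ∈ Br.On P) (h0 : od B e a = 0)
    (hs : ∀ s' ∈ ((pl Φ.p).res a).Sec, ∃ s ∈ a.Sec, Φ.p.r s = s') :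
    hh a = hh (a - dvs B (Pi.single e 1)) + hh ((pl Φ.p).res a) := by
  have := essFiniteType P
  have h1 : ∀ s ∈ a.Sec, Φ.p.v s ≤ 1 := fun s hs => Pl.mem_of_sec (val_one Φ h0) hs
  let ρ : a.Sec →ₗ[ℂ] E :=
    { toFun := fun s => Φ.p.r s
      map_add' := fun s t => Φ.p.r_add (h1 _ s.2) (h1 _ t.2)
      map_smul' := fun c s => by
        rw [Submodule.coe_smul, Algebra.smul_def, Φ.p.r_mul (Φ.p.triv c) (h1 _ s.2), Φ.p.r_alg,
          Algebra.smul_def]
        rfl }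
  have h2 : LinearMap.range ρ = ((pl Φ.p).res a).Sec := by
    ext z
    constructor
    · rintro ⟨s, rfl⟩
      change Φ.p.r s ∈ _
      rw [← pl_r]
      exact Pl.r_mem_Sec (val_one Φ h0) s.2
    · intro hz
      obtain ⟨s, h2, rfl⟩ := hs z hz
      exact ⟨⟨s, h2⟩, rfl⟩
  have h3 : vl (B.v e) (triv B e) a = 1 := vl_eq_one_iff.2 h0
  have h4 : LinearMap.ker ρ = (a - dvs B (Pi.single e 1)).Sec.comap a.Sec.subtype := by
    ext s
    refine (Φ.p.r_eq_zero (h1 _ s.2)).trans ?_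
    rw [Φ.v_eq, ← h3]
    exact ⟨mem_Sec_sub_single ha s.2, lt_vl_of_mem⟩
  have h5 : (a - dvs B (Pi.single e 1)).Sec ≤ a.Sec :=
    Sec_mono (sub_le_self _ (dvs_nonneg fun e' => by
      rw [Pi.single_apply]; split_ifs <;> simp))
  have h6 := LinearMap.finrank_range_add_finrank_ker ρ
  rw [h2, h4, (Submodule.comapSubtypeEquivOfLe h5).finrank_eq] at h6
  unfold hh
  omega

theorem SN.res {T : BD ℂ F} (h : SN P T) (h0 : od B e T = 0) : SN Φ.P' ((pl Φ.p).res T) := by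
  obtain ⟨g, hg, h1⟩ := exists_od_zero B e (oP P)
  have h2 := Φ.res_on T h.1 h0
  refine ⟨h2, amp_add_of (amp_oP _) (Φ.res_on _ (sub_mem Br.oP_mem (Br.pr_mem g)) h1) h2
    fun k => ?_⟩
  rw [← res_nsmul Φ h0, ← res_add Φ h1 (by rw [map_nsmul, h0, smul_zero])]
  refine Φ.res_amp _ (h.amp ((amp_oP P).sub_pr g) k) ?_
  rw [map_add, map_nsmul, h0, h1, smul_zero, add_zero]

open Classical in
/-- adjunction and lifting -/
theorem facet (hK : KVL n) {I : Set B.ι} {G T : BD ℂ F} (h : Adj B I G) (he : e ∈ I) (hT : SN P T)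
    (h0 : od B e (G + dvs B (Pi.single e 1)) = 0) (h1 : od B e T = 0) :
    Adj Φ.B' ∅ ((pl Φ.p).res (G + dvs B (Pi.single e 1))) ∧ ∀ k : ℕ,
      hh (G + dvs B (Pi.single e 1) + k • T) = hh (G + k • T) +
        hh ((pl Φ.p).res (G + dvs B (Pi.single e 1)) + k • (pl Φ.p).res T) := by
  obtain ⟨q, φ, A, h2, h3, h4, h5, h6⟩ := h.chg b
  have hm : G + dvs B (Pi.single e 1) ∈ Br.On P := add_mem h.mem (dvs_mem B _)
  have e1 : q • (G + dvs B (Pi.single e 1)) =
      q • (kP P b + dvs B (Pi.single e 1)) + A + dvs B φ := by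
    rw [smul_add, h6]
    module
  have o1 : od B e (kP P b + dvs B (Pi.single e 1)) = 0 := by
    rw [map_add, Φ.od_K, od_dvs, Pi.single_eq_same]
    rfl
  have o2 : od B e (dvs B φ) = 0 := by rw [od_dvs, h4 e he]
  have o3 : od B e A = 0 := by
    have h7 := congrArg (od B e) e1
    rwa [map_nsmul, h0, map_add, map_add, map_nsmul, o1, o2, smul_zero, zero_add, add_zero,
      eq_comm] at h7
  have e2 : q • (pl Φ.p).res (G + dvs B (Pi.single e 1)) =
      q • kP Φ.P' Φ.b' + (pl Φ.p).res A + dvs Φ.B' fun w => φ (Φ.l w) := by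
    have o4 : od B e (q • (kP P b + dvs B (Pi.single e 1))) = 0 := by
      rw [map_nsmul, o1, smul_zero]
    rw [← res_nsmul Φ h0, e1, res_add Φ (by rw [map_add, o4, o3, add_zero]) o2, res_add Φ o4 o3,
      res_nsmul Φ o1, Φ.res_K, Φ.res_dvs φ (h4 e he)]
  refine ⟨⟨Φ.b', q, fun w => φ (Φ.l w), _, Φ.res_on _ hm h0, h2, fun w => h3 _, by simp,
    Φ.res_amp A h5 o3, e2⟩, fun k => ?_⟩
  have o5 : od B e (k • T) = 0 := by rw [map_nsmul, h1, smul_zero]
  have o6 : od B e (G + dvs B (Pi.single e 1) + k • T) = 0 := by rw [map_add, h0, o5, add_zero]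
  have h7 := hT.amp h5 (q * k)
  obtain ⟨j, hj⟩ := h7.semi
  have o7 : od B e (A + (q * k) • T) = 0 := by rw [map_add, map_nsmul, o3, h1, smul_zero, add_zero]
  rw [rk_step Φ (add_mem hm (nsmul_mem hT.1 k)) o6 fun s' hs' => hK F P B b e E Φ _
    ((j + 1) • (A + (q * k) • T)) ((j + 1) * q) ((j + 1) • φ) (add_mem hm (nsmul_mem hT.1 k))
    (hj _ j.le_succ) (h7.big.nsmul j.succ_pos) (Nat.mul_pos j.succ_pos h2) (fun e1 => ?_)
    (by rw [Pi.smul_apply, h4 e he, smul_zero]) o6 (by rw [map_nsmul, o7, smul_zero]) ?_ s' ?_,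
    res_add Φ h0 o5, res_nsmul Φ h1]
  · congr 2
    abel
  · have := h3 e1
    have h8 : (0 : ℤ) ≤ j := Nat.cast_nonneg j
    rw [Pi.smul_apply, nsmul_eq_mul]
    push_cast
    constructor <;> nlinarith
  · rw [← sub_nonneg]
    convert nsmul_nonneg (dvs_nonneg fun e1 => (h3 e1).1) (j + 1) using 1
    rw [mul_smul, mul_smul, smul_add q, e1]
    module
  · convert pow_mem_Sec hs' ((j + 1) * q) using 2
    rw [res_add Φ h0 o5, res_nsmul Φ h1, mul_smul (j + 1) q (_ + _), smul_add q, e2,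
      res_nsmul Φ o7, res_add Φ o3 (by rw [map_nsmul, h1, smul_zero]), res_nsmul Φ h1,
      show (fun w => ((j + 1) • φ) (Φ.l w)) = (j + 1) • fun w => φ (Φ.l w) from rfl, dvs_nsmul]
    module

end Res

/-! ### the induction -/

/-- the statement in dimension `n` -/
def Pn (n : ℕ) : Prop := ∀ (F : Type) [Field F] [Algebra ℂ F] (P : PModel ℂ F) (B : Bd P n)
  (G T : BD ℂ F), Adj B ∅ G → SN P T → PF (n + 1) fun k => hh (G + k • T)

theorem pn_zero : Pn 0 := by
  intro F _ _ P B G T _ _ k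
  have h1 : ∀ a : BD ℂ F, a.Sec = ⊤ := fun a => eq_top_iff.2 fun f _ V => by
    have h2 : V = RZ.top ℂ F := Subtype.ext (eq_top_iff.2 fun f _ => by
      obtain ⟨c, rfl⟩ := surj_of_zero B f
      exact V.2 c)
    rw [h2, val_top]
    exact RZ.le_one_iff.2 (ValuationSubring.mem_top f)
  simp only [hh]
  rw [h1, h1 (G + k • T), sub_self]

section Ind

variable (hF : FacStmt) (hK : KVL n) (ih : Pn n) {G T : BD ℂ F}

include hF hK ih

open Classical in
theorem pf_single {B : Bd P (n + 1)} {I : Set B.ι} {e : B.ι} (h : Adj B I G) (he : e ∈ I)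
    (hT : SN P T) :
    PF (n + 1) fun k => hh (G + dvs B (Pi.single e 1) + k • T) - hh (G + k • T) := by
  obtain ⟨b, E, _, _, ⟨Φ⟩⟩ := hF F n P B e
  obtain ⟨g, hg, h1⟩ := exists_od_zero B e (G + dvs B (Pi.single e 1))
  obtain ⟨t, ht, h2⟩ := exists_od_zero B e T
  rw [add_sub_right_comm] at h1
  obtain ⟨h3, h4⟩ := facet Φ hK (h.sub_pr hg) he (hT.sub_pr ht) h1 h2
  refine (ih E Φ.P' Φ.B' _ _ h3 (SN.res Φ (hT.sub_pr ht) h2)).congr fun k => ?_
  have h5 := h4 k
  rw [← hh_lin (((lin_sub_pr G hg).add Lin.rfl).add ((lin_sub_pr T ht).nsmul k)),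
    ← hh_lin ((lin_sub_pr G hg).add ((lin_sub_pr T ht).nsmul k))] at h5
  omega

open Classical in
theorem pf_sum {B : Bd P (n + 1)} {I : Set B.ι} (h : Adj B I G) (hT : SN P T) (s : Finset B.ι)
    (hs : ∀ e ∈ s, e ∈ I) : Adj B (I \ s) (G + ∑ e ∈ s, dvs B (Pi.single e 1)) ∧
      PF (n + 1) fun k => hh (G + ∑ e ∈ s, dvs B (Pi.single e 1) + k • T) - hh (G + k • T) := by
  induction s using Finset.induction_on with
  | empty => exact ⟨by simpa using h, (PF.zero _).congr fun k => by simp⟩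
  | insert e s he ih' =>
    obtain ⟨h1, h2⟩ := ih' fun e' he' => hs e' (Finset.mem_insert_of_mem he')
    have h3 : e ∈ I \ s := ⟨hs e (Finset.mem_insert_self e s), he⟩
    rw [Finset.sum_insert he, add_comm (dvs B _), ← add_assoc]
    refine ⟨(h1.step h3).mono fun e' he' => ⟨⟨he'.1, fun h4 => he'.2 ?_⟩, fun h4 => he'.2 ?_⟩,
      ((pf_single hF hK ih h1 h3 hT).add h2).congr fun k => by ring⟩
    · simpa using Or.inr h4
    · simpa using Or.inl h4

theorem pf_free (hB : BertStmt) {B : Bd P (n + 1)} (h : Adj B ∅ G) (hT : SN P T) {a : BD ℂ F}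
    (ha : a ∈ Br.On P) (hf : Free a) :
    PF (n + 1) fun k => hh (G + a + k • T) - hh (G + k • T) := by
  classical
  obtain ⟨r, t, -, h1, h2⟩ := hf.exists_fam
  obtain ⟨u, C, j, c, -, h3, h4, h5, h6⟩ := hB F (n + 1) P B a ha (r + 1) t h1
    (fun x => (ha x).elim fun _ hg => hg.exists_fam h1 h2) 1 one_ne_zero
  have h7 : dvs C c = ∑ e ∈ Finset.univ.filter (· ∉ Set.range j), dvs C (Pi.single e 1) := by
    rw [dvs_eq_sum, Finset.sum_filter]
    refine Finset.sum_congr rfl fun e _ => ?_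
    split_ifs with h8
    · obtain ⟨e', rfl⟩ := h8
      rw [(h4 e').2, zero_smul]
    · rw [h5 e h8, one_smul]
  refine (pf_sum hF hK ih (h.ext fun e => (h4 e).1) hT (Finset.univ.filter (· ∉ Set.range j))
    fun e he => (Finset.mem_filter.1 he).2).2.congr fun k => ?_
  rw [← h7, ← h6, ← hh_lin ((Lin.rfl.add (lin_sub_pr a h3)).add Lin.rfl)]

theorem pn_succ (hB : BertStmt) : Pn (n + 1) := by
  intro F _ _ P B G T h hT
  obtain ⟨N, hN⟩ := Br.serre hT.1
  have h1 := pf_free hF hK ih hB h hT (add_mem hT.1 (nsmul_mem Br.oP_mem N)) (hN N le_rfl)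
  have h2 := (pf_free hF hK ih hB h hT (nsmul_mem Br.oP_mem N) (Br.free_oP.nsmul N)).shift
  change PF (n + 1) fun k => hh (G + (k + 1) • T) - hh (G + k • T)
  refine (h1.sub h2).congr fun k => ?_
  rw [show G + (T + N • oP P) + k • T = G + N • oP P + (k + 1) • T by module]
  ring

end Ind

/-- **`h⁰(G + k T)` is a polynomial function** -/
theorem poly (hF : FacStmt) (hB : BertStmt) (hK : ∀ n, KVL n) : ∀ n, Pn n
  | 0 => pn_zero
  | n + 1 => pn_succ hF (hK n) (poly hF hB hK n) hB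

/-- non-vanishing propagates -/
theorem exists_eff (hF : FacStmt) (hB : BertStmt) (hK : ∀ n, KVL n) {B : Bd P n} {G T : BD ℂ F}
    (h : Adj B ∅ G) (hT : SN P T) (h0 : Eff G) : ∃ k : ℕ, Eff (G + (k + 1) • T) := by
  have := essFiniteType P
  by_contra h1
  push Not at h1
  have h2 := (poly hF hB hK n F P B G T h hT).eq_zero fun k => by
    have := mt eff_iff_finrank.2 (h1 k)
    unfold hh
    omega
  have h3 := eff_iff_finrank.1 h0
  rw [zero_smul, add_zero, hh] at h2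
  omega

end Crest.Agent.X262.FG.N51
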