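import Crest.Agent.X262.FG.NvMain
import Crest.Agent.X262.FG.Q81
import Crest.Agent.X262.FG.C1a5
import Crest.Agent.X262.FG.Pt1
import Crest.Agent.X262.Rho82.Nz

/-!
# Row 262, FG, section 5 (helper29): `NVStmt` from `L51Stmt` and `NSStmt`
-/

set_option autoImplicit false

namespace Crest.Agent.X262.FG.Sg

theorem nvStmt_of_l51 (hL : ∀ n, L51Stmt n) (hS : NSStmt) : NVStmt :=
  nvStmt_of Rho82.nzStmt hL vgStmt ptStmt Prm5.posStmt (C1a5.c1aStmt hS Rho82.nzStmt)
    fun _ => qStmt_of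

end Crest.Agent.X262.FG.Sg
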