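import Crest.Agent.X262.FG.Sig2

/-!
# Row 262, FG, section 5 (helper29): the log canonical component in the second case

`c2a_of : VGStmt → PtStmt (n + 1) → UpNStmt (n + 1) → PosStmt n → C2aStmt n`.
-/

set_option autoImplicit false

open Finset Filter
open scoped KaehlerDifferential

noncomputable section

namespace Crest.Agent.X262.FG.Sg

open Crest.Agent.X277 Crest.Agent.X277.Lef Crest.Agent.X277.AN.G1 Crest.Agent.X277.BD
open Crest.Agent.X277.BD.Br (At oP kP)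
open Crest.Agent.X277.Res.Log (Bd)

variable {F : Type} [Field F] [Algebra ℂ F] {P : PModel ℂ F}

/-- real principal divisors -/
abbrev PrR : RD F → Prop := Cn fun a => ∃ f, a = pr ℂ f

theorem PrR.free {x : RD F} (h : PrR x) : FreeR x := h.mono fun _ ⟨f, hf⟩ => hf ▸ free_pr f

theorem PrR.on {x : RD F} (h : PrR x) (Q : PModel ℂ F) : OnR Q x :=
  h.mono fun _ ⟨f, hf⟩ => hf ▸ Br.pr_mem f

theorem Fx.exists_pr {x y : RD F} (h : Fx x y) : ∃ z, PosR z ∧ PrR (x - z) := by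
  obtain ⟨hy, I, _, M, r, hM, h⟩ := h
  choose s hs h0 using fun i => (hM i).2.exists_ne
  refine ⟨y + lr (fun i => M i - pr ℂ (s i)) r, hy.add (Cn.lr (fun i => (hM i).1) fun i =>
    sub_nonneg.2 ((pr_le_iff (h0 i)).2 (hs i))), ?_⟩
  have e : x - (y + lr (fun i => M i - pr ℂ (s i)) r) = lr (fun i => pr ℂ (s i)) r := by
    rw [← sub_sub, h]
    simp [lr_apply, smul_sub]
  rw [e]
  exact Cn.lr (fun i => (hM i).1) fun i => ⟨_, rfl⟩

theorem vg_set (hV : VGStmt) (P : PModel ℂ F) {S : Set F} (hS : S.Countable) :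
    ∃ x : Pts P, ∀ f ∈ S, f ≠ 0 → ev f x ≠ 0 := by
  obtain ⟨f, hf⟩ := ((hS.mono (Set.sdiff_subset (t := {0}))).insert 1).exists_eq_range
    (Set.insert_nonempty _ _)
  obtain ⟨x, hx⟩ := hV F P f fun i => by
    have h : f i ∈ insert 1 (S \ {0}) := hf ▸ Set.mem_range_self i
    rcases h with h | h
    · rw [h]
      exact one_ne_zero
    · exact h.2
  refine ⟨x, fun g hg h0 => ?_⟩
  obtain ⟨i, rfl⟩ : g ∈ Set.range f := hf ▸ Or.inr ⟨hg, h0⟩
  exact hx i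

/-- finitely many functions control the support of a b-divisor -/
theorem exists_supp (a : BD ℂ F) : ∃ (g : F) (T : Finset F), g ≠ 0 ∧ g ∈ T ∧
    ∀ V : RZ ℂ F, (∀ f ∈ T, f ≠ 0 → V.v f = 1) → a.val V = 1 := by
  classical
  obtain ⟨g, hg, T, -, h⟩ := exists_nbhd a (RZ.top ℂ F)
  refine ⟨g, insert g T, hg, mem_insert_self _ _, fun V hV => ?_⟩
  rw [← h V fun f hf => ?_, hV g (mem_insert_self _ _) hg]
  by_cases h0 : f = 0
  · rw [h0]
    exact zero_mem _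
  · exact RZ.le_one_iff.1 (hV f (mem_insert_of_mem hf) h0).le

/-- a point off the supports of countably many b-divisors -/
theorem vg_bd (hV : VGStmt) (P : PModel ℂ F) {S : Set (BD ℂ F)} (hS : S.Countable) :
    ∃ x : Pts P, ∀ a ∈ S, ∀ V : RZ ℂ F, (∀ f, ev f x ≠ 0 → V.v f = 1) → a.val V = 1 := by
  choose g T _ _ h using exists_supp (F := F)
  obtain ⟨x, hx⟩ := vg_set hV P (hS.biUnion fun a _ => (T a).countable_toSet)
  exact ⟨x, fun a ha V hv => h a V fun f hf h0 =>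
    hv f (hx f (Set.mem_biUnion ha hf) h0)⟩

theorem ampR_lr {κ : Type} [Fintype κ] {A : κ → BD ℂ F} (hA : ∀ k, Amp P (A k)) {x : κ → ℝ}
    (hx : x ∈ stdSimplex ℝ κ) : AmpR P (lr A x) := by
  choose q hq h using fun k => (hA k).2
  have hq' : ∀ k, (0 : ℝ) < q k := fun k => Nat.cast_pos.2 (hq k)
  refine ⟨onR_lr (fun k => (hA k).1) x, ∑ k, x k / q k, ?_, ?_⟩
  · obtain ⟨k, -, hk⟩ := exists_ne_zero_of_sum_ne_zero (hx.2.trans_ne one_ne_zero)
    exact sum_pos' (fun k _ => div_nonneg (hx.1 k) (hq' k).le)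
      ⟨k, mem_univ _, div_pos ((hx.1 k).lt_of_ne' hk) (hq' k)⟩
  · rw [lr_apply, sum_smul, ← sum_sub_distrib]
    refine Cn.sum _ fun k _ => ?_
    have h1 := (Cn.of (h k)).smul (div_nonneg (hx.1 k) (hq' k).le)
    rwa [map_sub, em_nsmul, smul_sub, smul_smul, div_mul_cancel₀ _ (hq' k).ne'] at h1

/-- the klt form of an adjoint class -/
theorem exists_klt {n : ℕ} {B : Bd P n} (b : Module.Basis (Fin n) F Ω[F⁄ℂ]) {κ : Type} [Fintype κ]
    (S : Sys B κ) {x : κ → ℝ} (hx : x ∈ stdSimplex ℝ κ) : ∃ (α : RD F) (β : B.ι → ℝ) (θ η : ℝ),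
      0 < θ ∧ 0 < η ∧ η ≤ 1 ∧ OnR P α ∧ FreeR (α - (3 * θ) • em (oP P)) ∧
      (∀ e, 0 ≤ β e ∧ β e ≤ 1 - η) ∧
      (S.r : ℝ)⁻¹ • lr (S.D b) x = em (kP P b) + α + lr (cp B) β := by
  have hr : (0 : ℝ) < S.r := Nat.cast_pos.2 S.r_pos
  let γ : B.ι → ℝ := fun e => (S.r : ℝ)⁻¹ * ∑ k, x k * S.c k e
  have hγ : ∀ e, 0 ≤ γ e ∧ γ e ≤ 1 := fun e => by
    refine ⟨mul_nonneg (inv_nonneg.2 hr.le) (sum_nonneg fun k _ =>
      mul_nonneg (hx.1 k) (Int.cast_nonneg (S.c_nonneg k e))), ?_⟩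
    rw [inv_mul_le_iff₀ hr, mul_comm, ← hx.2, sum_mul]
    exact sum_le_sum fun k _ => mul_le_mul_of_nonneg_left (by exact_mod_cast S.c_le k e) (hx.1 k)
  have e1 : (S.r : ℝ)⁻¹ • lr (S.D b) x =
      em (kP P b) + (S.r : ℝ)⁻¹ • lr S.A x + lr (cp B) γ := by
    have e2 : lr (cp B) γ = (S.r : ℝ)⁻¹ • ∑ k, x k • em (dvs B (S.c k)) := by
      simp only [dvs_eq_cp, ← map_smul, ← map_sum]
      congr 1
      ext e
      simp [γ]
    simp only [e2, lr_apply, Sys.D, map_add, em_nsmul, smul_add, sum_add_distrib, ← sum_smul,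
      smul_smul, ← sum_mul, hx.2, one_mul, inv_mul_cancel₀ hr.ne', one_smul]
  obtain ⟨h1, θ, hθ, h2⟩ := ampR_lr S.amp hx
  obtain ⟨N, hN, h3⟩ := (onR_lr (cp_mem B) γ).exists_freeR
  let θ' := (S.r : ℝ)⁻¹ * θ / 4
  have hθ' : 0 < θ' := by positivity
  let η := min 1 (θ' / N)
  have hη : 0 < η := lt_min one_pos (by positivity)
  refine ⟨(S.r : ℝ)⁻¹ • lr S.A x + η • lr (cp B) γ, (1 - η) • γ, θ', η, hθ', hη, min_le_left _ _,
    (onR_smul h1 _).add (onR_smul (onR_lr (cp_mem B) γ) _), ?_, fun e => ?_, ?_⟩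
  · have h4 := (h2.smul (inv_nonneg.2 hr.le)).add (h3 θ' η (by
      rw [abs_of_pos hη, ← le_div_iff₀' hN]
      exact min_le_right _ _))
    convert h4 using 1
    simp only [θ']
    module
  · have h4 : 0 ≤ 1 - η := sub_nonneg.2 (min_le_left _ _)
    exact ⟨mul_nonneg h4 (hγ e).1, mul_le_of_le_one_right h4 (hγ e).2⟩
  · rw [e1, map_smul]
    module

/-- many sections -/
theorem exists_many [Algebra.EssFiniteType ℂ F] {n : ℕ} (b : Module.Basis (Fin n) F Ω[F⁄ℂ])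
    {a : BD ℂ F} (ha : Free a) {w : ℝ} (hw : 0 < w)
    (h : n.factorial * (2 * w) ^ n < (bnum (List.replicate n a) : ℝ)) :
    ∃ j d : ℕ, 0 < j ∧ w * j < d ∧ d ^ n < Module.finrank ℂ (j • a).Sec := by
  have hd : dim ℂ F = n := by simpa using Module.finrank_eq_card_basis b
  subst hd
  obtain ⟨j, h1, h2⟩ := ((ha.nef.low 0 _ h).and (eventually_ge_atTop (⌈w⁻¹⌉₊ + 1))).exists
  have hj : 0 < j := by omega
  have hj' : (0 : ℝ) < j := Nat.cast_pos.2 hj
  have h3 : 1 ≤ w * j := by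
    rw [← inv_le_iff_one_le_mul₀' hw]
    exact (Nat.le_ceil _).trans (Nat.cast_le.2 (by omega))
  refine ⟨j, ⌊w * j⌋₊ + 1, hj, by exact_mod_cast Nat.lt_floor_add_one (w * j), ?_⟩
  rw [nh, zero_add, lt_div_iff₀ (by positivity), mul_assoc,
    mul_lt_mul_iff_right₀ (by positivity), ← mul_pow] at h1
  have h4 : ((⌊w * j⌋₊ + 1 : ℕ) : ℝ) ≤ 2 * w * j := by
    push_cast
    linarith [Nat.floor_le (zero_le_one.trans h3)]
  exact_mod_cast (pow_le_pow_left₀ (Nat.cast_nonneg _) h4 _).trans_lt h1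

/-- a member of large multiplicity at a very general point -/
theorem exists_mult [Algebra.EssFiniteType ℂ F] {n : ℕ} (hV : VGStmt) (hT : PtStmt n)
    (b : Module.Basis (Fin n) F Ω[F⁄ℂ]) {x : RD F} (hx : Ps x) (hs : ¬ Small P x n) {θ : ℝ}
    (hθ : 0 < θ) : ∃ (μ : ℝ) (G : RD F) (o : BD ℂ F →+ ℤ), 0 < μ ∧ PosR G ∧
      PrR (μ • x + θ • em (oP P) - G) ∧ Mo o ∧ (n : ℝ) < xt o G ∧
      ∀ (Q : PModel ℂ F) (C : Bd Q n), oP P ∈ Br.On Q →
        o (kP Q b + dvs C 1) ≤ o (kP P b) + n ∧ ∀ e, o (cp C e) ≠ 0 → Z (od C e) x 0 := by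
  classical
  let c : ℝ := 2 * (n + 1) / θ
  have hc : 0 < c := by positivity
  simp only [Small, not_exists, not_forall, not_le] at hs
  obtain ⟨ε, m, a, hε, hm, ha, h1, h2⟩ := hs (n.factorial * (2 * c) ^ n)
  obtain ⟨j, d, hj, h3, h4⟩ := exists_many b ha (w := c * (ε * m)) (by positivity)
    (by rwa [← mul_assoc 2, mul_pow, ← mul_assoc])
  have hj' : (0 : ℝ) < j := Nat.cast_pos.2 hj
  choose y hy using fun i : ℕ => hx.fx (big_oP P) (Nat.one_div_pos_of_nat (α := ℝ) (n := i))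
  choose I iI p r hp hy' using fun i => (hy i).1
  obtain ⟨z, hz⟩ := vg_bd hV P (S := insert a (⋃ i, Set.range (p i)))
    ((Set.countable_iUnion fun i => Set.countable_range _).insert a)
  obtain ⟨v, hv, h5, h6⟩ := hT F P b z
  obtain ⟨s, hs, hs0, h7⟩ := h5 (j • a) 1 d (fun V hV' => by
    rw [val_nsmul, hz a (Set.mem_insert _ _) V fun f hf => Br.ev_ne_iff'.1 hf V hV', one_pow,
      map_one]) h4
  obtain ⟨y', h8⟩ := h1.fx (big_oP P) hε
  obtain ⟨y'', h9, h10⟩ := h8.exists_pr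
  have hμ : 0 < θ / (2 * ε) := by positivity
  have h11 : PosR (em (j • a - pr ℂ s)) := Cn.of (sub_nonneg.2 ((pr_le_iff hs0).2 hs))
  refine ⟨θ / (2 * ε), (θ / (2 * ε)) • (((j : ℝ) * m)⁻¹ • em (j • a - pr ℂ s) + y''), ord v hv, hμ,
    ((h11.smul (by positivity)).add h9).smul hμ.le, ?_, mo_ord v hv, ?_, fun Q C hQ =>
    ⟨(h6 Q C hQ).1, fun e he => z_of_seq (big_oP P) fun η hη ε₀ hε₀ => ?_⟩⟩
  · have h12 := (h10.add ((Cn.of (Q := fun a => ∃ f, a = pr ℂ f) ⟨s, rfl⟩).smul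
      (c := ((j : ℝ) * m)⁻¹) (by positivity))).smul hμ.le
    convert h12 using 1
    rw [map_sub, em_nsmul]
    match_scalars <;> field_simp <;> ring
  · have h12 := (mo_ord v hv).xt h9
    have h13 : (d : ℝ) ≤ ord v hv (j • a - pr ℂ s) := by exact_mod_cast h7
    rw [map_smul, map_add, map_smul, xt_em, smul_eq_mul, smul_eq_mul]
    have h14 : (n : ℝ) + 1 < θ / (2 * ε) * (((j : ℝ) * m)⁻¹ * d) := by
      have h15 : (n : ℝ) + 1 = θ / (2 * ε) * (((j : ℝ) * m)⁻¹ * (c * (ε * m) * j)) := by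
        simp only [c]
        field_simp
      rw [h15]
      gcongr
    have h16 : θ / (2 * ε) * (((j : ℝ) * m)⁻¹ * d) ≤
        θ / (2 * ε) * (((j : ℝ) * m)⁻¹ * ord v hv (j • a - pr ℂ s) + xt (ord v hv) y'') := by
      gcongr
      exact le_add_of_le_of_nonneg (by gcongr) h12
    linarith
  · obtain ⟨i, hi⟩ := exists_nat_one_div_lt hε₀
    refine ⟨_, Nat.one_div_pos_of_nat, hi.le, y i, hy i, ?_⟩
    rw [hy' i, xt_lr, sum_eq_zero fun l _ => ?_]
    · linarith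
    have h12 := (h6 Q C hQ).2 e (Pi.single e 1) (fun e' h => Pi.single_eq_of_ne h 1) he
    rw [od_eq_zero.2 (hz _ (Or.inr (Set.mem_iUnion.2 ⟨i, l, rfl⟩)) _ fun f hf => ?_)]
    · simp
    · rw [← map_one (rz (C.v e) (triv C e)).v, v_rz_eq_iff, h12 f hf, map_one]

theorem posR_eq_lr {n : ℕ} {G : RD F} (hG : PosR G) : ∃ T : Finset (BD ℂ F),
    ∀ (Q : PModel ℂ F) (C : Bd Q n), (∀ a ∈ T, ∃ m, a = dvs C m) →
      ∃ γ : C.ι → ℝ, (∀ e, 0 ≤ γ e) ∧ G = lr (cp C) γ := by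
  classical
  obtain ⟨I, _, p, r, hp, h⟩ := id hG
  refine ⟨univ.image p, fun Q C H => ?_⟩
  choose m hm using fun i => H _ (mem_image_of_mem p (mem_univ i))
  have e : G = lr (cp C) (∑ i, r i • fun e => (m i e : ℝ)) := by
    rw [h, map_sum, lr_apply]
    exact sum_congr rfl fun i _ => by rw [map_smul, hm i, dvs_eq_cp]
  refine ⟨_, fun e' => ?_, e⟩
  have h1 := ((pfB C).mo e').xt hG
  rwa [e, ← pfB_Γ, (pfB C).xt_lr_Γ] at h1

theorem OnR.up {Q : PModel ℂ F} (h : oP P ∈ Br.On Q) {x : RD F} (hx : OnR P x) : OnR Q x :=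
  hx.mono fun _ ha => Br.On_le_iff.2 h ha

/-- **the second case: the log canonical component** -/
theorem c2a_of {n : ℕ} (hV : VGStmt) (hT : PtStmt (n + 1)) (hU : UpNStmt (n + 1))
    (hp : PosStmt n) : C2aStmt n := by
  intro F _ _ _ P B b κ _ S x₀ hx hps hs
  classical
  obtain ⟨α, β, θ, η, hθ, hη, hη1, hα, hα', hβ, e1⟩ := exists_klt b S hx
  set D₀ := lr (S.D b) x₀
  have hr : (0 : ℝ) < (S.r : ℝ)⁻¹ := inv_pos.2 (Nat.cast_pos.2 S.r_pos)
  obtain ⟨μ, G, o, hμ, hG, hPi, ho, hoG, hC⟩ := exists_mult hV hT b hps hs hθ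
  obtain ⟨T, hT⟩ := posR_eq_lr (n := n + 1) hG
  obtain ⟨Q, C, k, g, m, N, hQ, h1, hK, hm, hmk, hg, ⟨-, q, hq, hA⟩, hE⟩ := hU F P B b T
  obtain ⟨γ, hγ, rfl⟩ := hT Q C h1
  obtain ⟨hlc, hz⟩ := hC Q C hQ
  have hD : OnR Q D₀ := (onR_lr (S.D_mem b) x₀).up hQ
  choose ν hν using (pfB C).exists_sig hp b hD hps
  have hν0 : ∀ e, 0 ≤ ν e := fun e => (hν e).1.nonneg ((pfB C).mo e)
  have hk0 : 0 ≤ dvs C k := by
    have h := Br.kP_le b hQ
    rwa [hK, le_add_iff_nonneg_right] at h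
  have hk : ∀ e, (0 : ℝ) ≤ k e := fun e => by
    have h := od_nonneg (B := C) (e := e) hk0
    rw [od_dvs] at h
    exact_mod_cast h
  have hm0 : ∀ e e', (0 : ℝ) ≤ m e e' := fun e e' => by
    have h := od_nonneg (B := C) (e := e') (cp_nonneg B e)
    rw [cp, hm, od_dvs] at h
    exact_mod_cast h
  let w : C.ι → ℝ := fun e' => ∑ e, β e * m e e'
  have hw0 : ∀ e', 0 ≤ w e' := fun e' => sum_nonneg fun e _ => mul_nonneg (hβ e).1 (hm0 e e')
  have hw1 : ∀ e', w e' ≤ k e' + 1 - η := fun e' => by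
    have h2 : w e' ≤ (1 - η) * ∑ e, (m e e' : ℝ) := by
      rw [mul_sum]
      exact sum_le_sum fun e _ => mul_le_mul_of_nonneg_right (hβ e).2 (hm0 e e')
    have h3 : ∑ e, (m e e' : ℝ) ≤ k e' + 1 := by exact_mod_cast hmk e'
    nlinarith [hk e', mul_le_mul_of_nonneg_left h3 (sub_nonneg.2 hη1)]
  have hw : lr (cp B) β = lr (cp C) w := by
    have h2 : ∀ e, em (cp B e) = lr (cp C) fun e' => (m e e' : ℝ) := fun e => by
      rw [cp, hm, dvs_eq_cp]
    rw [lr_apply]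
    simp only [h2, ← map_smul, ← map_sum]
    congr 1
    ext e'
    simp [w]
  have hg' : ∀ e, (0 : ℝ) ≤ g e := fun e => Int.cast_nonneg (hg e)
  obtain ⟨τ, hτ, hτ1, hτ2⟩ : ∃ τ : ℝ, 0 < τ ∧ τ * N ≤ θ ∧ ∀ e, τ * g e < η := by
    have h2 : 0 < 1 + ∑ e, (g e : ℝ) := add_pos_of_pos_of_nonneg one_pos
      (sum_nonneg fun e _ => hg' e)
    refine ⟨min (θ / (N + 1)) (η / (1 + ∑ e, (g e : ℝ))), by positivity, ?_, fun e => ?_⟩
    · have h3 := (le_div_iff₀ (by positivity)).1 (min_le_left (θ / (N + 1))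
        (η / (1 + ∑ e, (g e : ℝ))))
      have h4 : 0 < min (θ / (N + 1)) (η / (1 + ∑ e, (g e : ℝ))) := by positivity
      linarith
    · have h3 := (le_div_iff₀ h2).1 (min_le_right (θ / (N + 1)) (η / (1 + ∑ e, (g e : ℝ))))
      have h4 : 0 < min (θ / (N + 1)) (η / (1 + ∑ e, (g e : ℝ))) := by positivity
      have h5 := single_le_sum (fun e _ => hg' e) (mem_univ e)
      nlinarith
  let p₀ : C.ι → ℝ := fun e => w e - k e + τ * g e - (S.r : ℝ)⁻¹ * ν e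
  let p₁ : C.ι → ℝ := fun e => γ e - μ * ν e
  obtain ⟨e₁, he₁⟩ : ∃ e, 1 < p₀ e + p₁ e := by
    by_contra hc
    push Not at hc
    have h2 : o (dvs C k + dvs C 1) ≤ (n + 1 : ℕ) := by
      rw [hK, add_assoc, map_add] at hlc
      exact le_of_add_le_add_left hlc
    have h3 : xt o (lr (cp C) fun e => (k e : ℝ) + 1) ≤ (n + 1 : ℕ) := by
      have h4 := dvs_eq_cp C (k + 1)
      simp only [Pi.add_apply, Pi.one_apply, Int.cast_add, Int.cast_one] at h4
      rw [← h4, xt_em, dvs_add]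
      exact_mod_cast h2
    refine (hoG.trans_le (le_trans ?_ h3)).false
    rw [xt_lr, xt_lr]
    refine sum_le_sum fun e _ => ?_
    by_cases h0 : o (cp C e) = 0
    · simp [h0]
    · refine mul_le_mul_of_nonneg_right ?_ (Int.cast_nonneg (ho _ (cp_nonneg C e)))
      have h4 : ν e = 0 := le_antisymm ((hν e).2 0 (hz e h0)) (hν0 e)
      have h5 := hc e
      simp only [p₀, p₁, h4, mul_zero, sub_zero] at h5
      linarith [hw0 e, mul_nonneg hτ.le (hg' e)]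
  obtain ⟨t, e₀, ht0, ht1, h2, h3⟩ := first_time p₀ p₁ (fun e => by
    simp only [p₀]
    linarith [hw1 e, hτ2 e, mul_nonneg hr.le (hν0 e)]) he₁
  let lam := (S.r : ℝ)⁻¹ + t * μ
  have hlam : 0 < lam := by positivity
  let f : C.ι → ℝ := fun e => p₀ e + t * p₁ e
  let β' : C.ι → ℝ := fun e => max (f e) 0
  let Φ : C.ι → ℝ := fun e => lam * ν e + f e + k e - β' e
  let α' : RD F := α - τ • em (dvs C g) - (t * θ) • em (oP P) +
    t • (μ • D₀ + θ • em (oP P) - lr (cp C) γ)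
  have eq : lam • D₀ + em (dvs C k) = em (kP Q b) + α' + lr (cp C) β' + lr (cp C) Φ := by
    have h4 : β' + Φ = w + τ • (fun e => (g e : ℝ)) + t • γ := by
      ext e
      simp only [Φ, f, p₀, p₁, lam, Pi.add_apply, Pi.smul_apply, smul_eq_mul]
      ring
    rw [add_assoc, ← map_add, h4, map_add, map_add, map_smul, map_smul, ← dvs_eq_cp, hK, map_add,
      add_smul, e1, hw]
    simp only [α']
    module
  refine ⟨⟨Q, C, hQ, e₀, β', fun e => ⟨le_max_right _ _, max_le (h3 e) zero_le_one⟩, ?_, α', ?_, ?_,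
    lam, hlam, dvs C k, dvs_mem C k, hk0, hE, Φ, fun e => ?_, eq⟩⟩
  · simp only [β', f, h2]
    exact max_eq_left zero_le_one
  · have hq' : (0 : ℝ) < q := Nat.cast_pos.2 hq
    refine ⟨(onR_sub (onR_sub (hα.up hQ) (onR_smul (Cn.of (dvs_mem C g)) _))
      (onR_smul (Cn.of hQ) _)).add (onR_smul (hPi.on Q) _), τ / q, by positivity, ?_⟩
    have h4 := ((hα'.add ((Cn.of hA).smul (c := τ / q) (by positivity))).add
      ((Cn.of (Br.free_oP (P := P))).smul (c := 3 * θ - τ * N - t * θ) (by nlinarith))).add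
      (hPi.free.smul ht0.le)
    convert h4 using 1
    simp only [α', map_sub, em_nsmul]
    match_scalars <;> field_simp <;> ring
  · have h4 := (((pfB C).sub_sig hD hν e₀).smul hlam.le).add
      (z_pos ((pfB C).posR_lr (ν := β' - f) fun e => sub_nonneg.2 (le_max_left _ _)))
    rw [(pfB C).xt_lr_Γ, pfB_Γ, pfB_o] at h4
    have h5 : Φ = lam • ν + (fun e => (k e : ℝ)) - (β' - f) := by
      ext e
      simp only [Φ, Pi.add_apply, Pi.sub_apply, Pi.smul_apply, smul_eq_mul]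
      ring
    convert h4 using 1
    · rw [eq_sub_iff_add_eq.2 eq.symm, h5, map_sub _ _ (β' - f), map_add, map_smul, ← dvs_eq_cp]
      module
    · simp [β', f, h2]
  · simp only [Φ, β']
    rcases le_total 0 (f e) with h | h
    · rw [max_eq_left h]
      linarith [mul_nonneg hlam.le (hν0 e), hk e]
    · rw [max_eq_right h]
      simp only [f, p₀, p₁, lam]
      nlinarith [hw0 e, mul_nonneg hτ.le (hg' e), mul_nonneg ht0.le (hγ e)]

end Crest.Agent.X262.FG.Sg
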