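import Crest.Agent.X262.FG.Sig1
import Crest.Agent.X262.FG.NvDefs

/-!
# Row 262, FG, section 5 (helper29): the steps of the proof

`Con D x₀` : the conclusion at `x₀`;  `Small P x n` : the case distinction;
`QStmt`, `C1aStmt`, `C1bStmt`, `C2aStmt`, `C2bStmt` : the steps.
-/

set_option autoImplicit false

open scoped KaehlerDifferential

noncomputable section

namespace Crest.Agent.X262.FG.Sg

open Crest.Agent.X277 Crest.Agent.X277.Lef Crest.Agent.X277.AN.G1 Crest.Agent.X277.BD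
open Crest.Agent.X277.BD.Br (oP kP)
open Crest.Agent.X277.Res.Log (Bd)

section Lang

variable {F : Type} [Field F] [Algebra ℂ F]

open Classical in
/-- the components of a boundary -/
def cp {P : PModel ℂ F} {n : ℕ} (B : Bd P n) (e : B.ι) : BD ℂ F := dvs B (Pi.single e 1)

/-- the order of a member of a family of primes -/
def _root_.Crest.Agent.X262.FG.Pf.o {P : PModel ℂ F} {ι : Type} (X : Pf P ι) (i : ι) :
    BD ℂ F →+ ℤ := ord (X.v i) (X.hv i)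

/-- the pseudo-effective degrees are conical at `x₀`, and `x₀` is a positive combination of
effective degrees -/
def Con {κ : Type} [Fintype κ] (D : κ → BD ℂ F) (x₀ : κ → ℝ) : Prop :=
  (∃ δ : ℝ, 0 < δ ∧ ∀ x ∈ stdSimplex ℝ κ, Ps (lr D x) → ‖x - x₀‖ < δ →
    ∃ s : ℝ, 1 < s ∧ Ps (lr D (x₀ + s • (x - x₀)))) ∧
  ∃ (J : Type) (_ : Fintype J) (t : J → ℝ) (d : J → κ → ℕ),
    (∀ j, 0 ≤ t j ∧ Eff (lc D (d j))) ∧ x₀ = ∑ j, t j • Cvx.nc (d j)

/-- the volume of `x + ε O(1)` is `O(ε ^ n)` -/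
def Small [Algebra.EssFiniteType ℂ F] (P : PModel ℂ F) (x : RD F) (n : ℕ) : Prop :=
  ∃ C : ℝ, ∀ (ε m : ℝ) (a : BD ℂ F), 0 < ε → 0 < m → Free a →
    Ps (x + ε • em (oP P) - m⁻¹ • em a) → (bnum (List.replicate n a) : ℝ) ≤ C * (ε * m) ^ n

/-- `x` is numerically equivalent to its negative part -/
def NumN [Algebra.EssFiniteType ℂ F] (P : PModel ℂ F) (x : RD F) : Prop :=
  ∃ (ι : Type) (_ : Fintype ι) (X : Pf P ι) (ν : ι → ℝ), (∀ i, 0 < ν i ∧ IsSig (X.o i) x (ν i)) ∧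
    ∀ l : List (BD ℂ F), (∀ a ∈ l, a ∈ Br.On P) → xt (bnumL l) (x - lr X.Γ ν) = 0

/-- the data on the log resolution in the second case -/
structure Up2 (P : PModel ℂ F) {n : ℕ} (b : Module.Basis (Fin n) F Ω[F⁄ℂ]) (x : RD F) where
  /-- the model -/
  Q : PModel ℂ F
  /-- the boundary -/
  C : Bd Q n
  le : oP P ∈ Br.On Q
  /-- the log canonical component -/
  e₀ : C.ι
  /-- the coefficients of the boundary -/
  β : C.ι → ℝ
  β_mem : ∀ e, 0 ≤ β e ∧ β e ≤ 1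
  β_one : β e₀ = 1
  /-- the ample part -/
  α : RD F
  amp : AmpR Q α
  sig : Z (od C e₀) (em (kP Q b) + α + lr (cp C) β) 0
  /-- the multiple of `x` -/
  lam : ℝ
  lam_pos : 0 < lam
  /-- the exceptional divisor -/
  E : BD ℂ F
  E_mem : E ∈ Br.On Q
  E_nonneg : 0 ≤ E
  exc : ∀ a ∈ Br.On P, ∀ m : ℕ, (a + m • E).Sec = a.Sec
  /-- the part which is removed -/
  Φ : C.ι → ℝ
  Φ_nonneg : ∀ e, 0 ≤ Φ e
  eq : lam • x + em E = em (kP Q b) + α + lr (cp C) β + lr (cp C) Φ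

end Lang

/-- near an adjoint class with `e₀` in the boundary, the classes with `σ_{e₀} = 0` lie in a cone
spanned by finitely many effective divisors -/
def QStmt (n : ℕ) : Prop := ∀ (F : Type) [Field F] [Algebra ℂ F] [Algebra.EssFiniteType ℂ F]
  (Q : PModel ℂ F) (C : Bd Q n) (b : Module.Basis (Fin n) F Ω[F⁄ℂ]) (e₀ : C.ι) (β : C.ι → ℝ)
  (α : RD F) (I : Type) [Fintype I] (g : I → BD ℂ F), (∀ e, 0 ≤ β e ∧ β e ≤ 1) → β e₀ = 1 →
  AmpR Q α → (∀ i, g i ∈ Br.On Q) →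
  ∃ (J : Type) (_ : Fintype J) (a : J → BD ℂ F) (δ : ℝ), (∀ j, Eff (a j)) ∧ 0 < δ ∧
    ∀ u : I → ℝ, ‖u‖ ≤ δ → Z (od C e₀) (em (kP Q b) + α + lr (cp C) β + lr g u) 0 →
      ∃ t : J → ℝ, (∀ j, 0 ≤ t j) ∧ em (kP Q b) + α + lr (cp C) β + lr g u = lr a t

/-- first case: small volume implies `x ≡ N_σ (x)` -/
def C1aStmt (n : ℕ) : Prop := ∀ (F : Type) [Field F] [Algebra ℂ F] [Algebra.EssFiniteType ℂ F]
  (P : PModel ℂ F) (_ : Module.Basis (Fin (n + 1)) F Ω[F⁄ℂ]) (x : RD F), OnR P x → Ps x →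
  Small P x (n + 1) → NumN P x

/-- first case: the conclusion -/
def C1bStmt (n : ℕ) : Prop := ∀ (F : Type) [Field F] [Algebra ℂ F] [Algebra.EssFiniteType ℂ F]
  (P : PModel ℂ F) (B : Bd P n) (b : Module.Basis (Fin n) F Ω[F⁄ℂ]) (κ : Type) [Fintype κ]
  (S : Sys B κ), ∀ x₀ ∈ stdSimplex ℝ κ, NumN P (lr (S.D b) x₀) → Con (S.D b) x₀

/-- second case: the log canonical component -/
def C2aStmt (n : ℕ) : Prop := ∀ (F : Type) [Field F] [Algebra ℂ F] [Algebra.EssFiniteType ℂ F]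
  (P : PModel ℂ F) (B : Bd P (n + 1)) (b : Module.Basis (Fin (n + 1)) F Ω[F⁄ℂ]) (κ : Type)
  [Fintype κ] (S : Sys B κ), ∀ x₀ ∈ stdSimplex ℝ κ, Ps (lr (S.D b) x₀) →
  ¬ Small P (lr (S.D b) x₀) (n + 1) → Nonempty (Up2 P b (lr (S.D b) x₀))

/-- second case: the conclusion -/
def C2bStmt (n : ℕ) : Prop := ∀ (F : Type) [Field F] [Algebra ℂ F] [Algebra.EssFiniteType ℂ F]
  (P : PModel ℂ F) (b : Module.Basis (Fin (n + 1)) F Ω[F⁄ℂ]) (κ : Type) [Fintype κ]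
  (D : κ → BD ℂ F), (∀ k, D k ∈ Br.On P) → ∀ x₀ ∈ stdSimplex ℝ κ, Up2 P b (lr D x₀) → Con D x₀

end Crest.Agent.X262.FG.Sg
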