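import Crest.Agent.X262.FG.NvC2a
import Crest.Agent.X262.FG.C1b
import Crest.Agent.X262.FG.C2b
import Crest.Agent.X277.AN.G1Conn

/-!
# Row 262, FG, section 5 (helper29): assembly

* `bStmt_of`  : the four steps imply `BStmt (n + 1)`;
* `nvStmt_of` : `NVStmt` from the remaining inputs.
-/

set_option autoImplicit false

noncomputable section

namespace Crest.Agent.X262.FG.Sg

open Crest.Agent.X277 Crest.Agent.X277.Lef Crest.Agent.X277.AN.G1 Crest.Agent.X277.BD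

theorem bStmt_of {n : ℕ} (h1 : C1aStmt n) (h2 : C1bStmt (n + 1)) (h3 : C2aStmt n)
    (h4 : C2bStmt n) : BStmt (n + 1) := by
  intro F _ _ P B b κ _ S
  have : Algebra.EssFiniteType ℂ F := essFiniteType P
  have key : ∀ x₀ ∈ {x | Ps (lr (S.D b) x)} ∩ stdSimplex ℝ κ, Con (S.D b) x₀ := by
    rintro x₀ ⟨hp, hx⟩
    by_cases hs : Small P (lr (S.D b) x₀) (n + 1)
    · exact h2 F P B b κ S x₀ hx (h1 F P b _ (onR_lr (S.D_mem b) x₀) hp hs)
    · exact (h3 F P B b κ S x₀ hx hp hs).elim (h4 F P b κ _ (S.D_mem b) x₀ hx)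
  refine fin_gen (C := {x | Ps (lr (S.D b) x)}) (E := {d | Eff (lc (S.D b) d)})
    (isClosed_ps (S.D_mem b)) (fun x hx y hy a c ha hc _ => ?_) (fun x hx c hc => ?_)
    (fun d hd => ?_) (fun x₀ hx₀ => ?_) fun x₀ hx₀ => (key x₀ hx₀).2
  · rw [Set.mem_ofPred_eq, map_add, map_smul, map_smul]
    exact (Ps.smul hx ha).add (Ps.smul hy hc)
  · rw [Set.mem_ofPred_eq, map_smul]
    exact Ps.smul hx hc
  · rw [Set.mem_ofPred_eq, lr_nc]
    exact ps_eff hd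
  · obtain ⟨δ, hδ, h⟩ := (key x₀ hx₀).1
    exact ⟨δ, hδ, fun x hx => h x hx.2 hx.1⟩

/-- **section 5** from the geometric inputs -/
theorem nvStmt_of (hZ : NZStmt) (hL : ∀ n, L51Stmt n) (hV : VGStmt) (hT : ∀ n, PtStmt n)
    (hp : ∀ n, PosStmt n) (h1 : ∀ n, C1aStmt n) (hQ : ∀ n, RStmt n → QStmt n) : NVStmt :=
  fun n hR => bStmt_of (h1 n) (c1bStmt_of hZ (hL _)) (c2a_of hV (hT _) (upNStmt _) (hp n))
    (c2b_of (hQ _ hR) (hp n))

end Crest.Agent.X262.FG.Sg
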