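import Crest.Agent.X262.FG.S4a
import Crest.Agent.X262.Cvx.Gr0

/-!
# X262/FG/S4b (helper81): tools for the restricted ring

* `gen'`       : the generation lemma with integral linear forms;
* `exists_max` : general elements of a subspace;
* `exists_mon`, `v_prod_le`, `v_prod_eq`, `v_eq_of_prod` : values of monomials.
-/

set_option autoImplicit false

open Finset Filter Topology WithZero

namespace Crest.Agent.X262.FG.S4

open Crest.Agent.X262.Cvx

/-- `gen` with equations given by integral linear forms -/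
theorem gen' {ι α : Type*} [Fintype ι] [Fintype α] (l : α → (ι → ℝ) →ₗ[ℝ] ℝ)
    (hl : ∀ a y, ∃ z : ℤ, l a (cst y) = z) {Q : Set (ι → ℝ)} {ε : ℝ} (hc : IsClosed Q)
    (h0 : ∀ v ∈ Q, ∀ i, 0 ≤ v i) (hs : ∀ v ∈ Q, ∀ t : ℝ, 0 < t → t • v ∈ Q)
    (he : ∀ v ∈ Q, ∀ a, l a v = 0) (hε : 0 < ε)
    (H : ∀ v ∈ Q, ∀ y : ι → ℕ, (∀ a, l a (cst y) = 0) → (∀ i, v i ≤ y i) →
      (∀ i, y i - v i < ε) → cst y ∈ Q) :
    ∃ G : Finset (ι → ℕ), (∀ g ∈ G, cst g ∈ Q) ∧
      ∀ y : ι → ℕ, cst y ∈ Q → y ∈ AddSubmonoid.closure (G : Set (ι → ℕ)) := by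
  classical
  choose e hz using fun a i => hl a (Pi.single i 1)
  have key : ∀ a (v : ι → ℝ), l a v = ∑ i, (e a i : ℝ) * v i := fun a v => by
    rw [LinearMap.pi_apply_eq_sum_univ]
    refine sum_congr rfl fun i _ => ?_
    rw [smul_eq_mul, mul_comm, ← hz a i]
    congr 2
    funext j
    simp only [cst, Pi.single_apply]
    split_ifs with h1 h2 h2
    · simp
    · exact (h2 h1.symm).elim
    · exact (h1 h2.symm).elim
    · simp
  refine gen (e := e) hc h0 hs (fun v hv a => key a v ▸ he v hv a) hε fun v hv y hy => H v hv y ?_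
  intro a
  rw [key]
  simp only [cst]
  exact_mod_cast hy a

section Val

variable {k E : Type*} [Field k] [Field E] [Algebra k E]

theorem v_smul_le {v : Valuation E ℤᵐ⁰} (hv : ∀ c : k, v (algebraMap k E c) ≤ 1) (c : k) (x : E) :
    v (c • x) ≤ v x := by
  rw [Algebra.smul_def, map_mul]
  exact mul_le_of_le_one_left' (hv c)

/-- elements of small value -/
def ltS (v : Valuation E ℤᵐ⁰) (hv : ∀ c : k, v (algebraMap k E c) ≤ 1) (γ : ℤ) : Submodule k E where
  carrier := {x | v x < exp γ}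
  zero_mem' := by simp
  add_mem' h h' := v.map_add_lt h h'
  smul_mem' c x h := (v_smul_le hv c x).trans_lt h

/-- a bounded family of valuations is maximal at one element of a subspace -/
theorem exists_max [Infinite k] {J : Type*} [Fintype J] {v : J → Valuation E ℤᵐ⁰}
    (hv : ∀ j (c : k), v j (algebraMap k E c) ≤ 1) (W : Submodule k E) (hW : W ≠ ⊥) (t : J → ℤ)
    (ht : ∀ j, ∀ s ∈ W, v j s ≤ exp (t j)) :
    ∃ s ∈ W, s ≠ 0 ∧ ∀ j, ∀ s' ∈ W, v j s' ≤ v j s := by
  classical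
  obtain ⟨s0, hs0, h0⟩ := (Submodule.ne_bot_iff W).1 hW
  have h1 : ∀ j, ∃ m : ℤ, (∃ s ∈ W, v j s = exp m) ∧ ∀ s' ∈ W, v j s' ≤ exp m := fun j => by
    obtain ⟨m, hm, hm'⟩ := Int.exists_greatest_of_bdd (P := fun m => ∃ s ∈ W, v j s = exp m)
      ⟨t j, fun z ⟨s, hs, h⟩ => exp_le_exp.1 (h ▸ ht j s hs)⟩
      ⟨log (v j s0), s0, hs0, (exp_log (by simpa using h0)).symm⟩
    refine ⟨m, hm, fun s' hs' => ?_⟩
    rcases eq_or_ne s' 0 with rfl | h
    · simp
    · have h2 : v j s' = exp (log (v j s')) := (exp_log (by simpa using h)).symm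
      rw [h2, exp_le_exp]
      exact hm' _ ⟨s', hs', h2⟩
  choose m hm hm' using h1
  let p : Option J → Submodule k W := fun o =>
    o.elim ⊥ fun j => (ltS (v j) (hv j) (m j)).comap W.subtype
  have hp : ∀ o, p o ≠ ⊤ := by
    rintro (_ | j) h
    · have : (⟨s0, hs0⟩ : W) ∈ p none := h ▸ Submodule.mem_top
      exact h0 (congrArg Subtype.val ((Submodule.mem_bot k).1 this))
    · obtain ⟨s, hs, h2⟩ := hm j
      have : (⟨s, hs⟩ : W) ∈ p (some j) := h ▸ Submodule.mem_top
      have h3 : v j s < exp (m j) := this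
      exact (h2 ▸ h3).false
  obtain ⟨s, hs⟩ := Submodule.exists_forall_notMem_of_forall_ne_top p hp
  refine ⟨s, s.2, fun h => hs none ((Submodule.mem_bot k).2 (Subtype.ext h)), fun j s' hs' => ?_⟩
  exact (hm' j s' hs').trans (not_lt.1 (hs (some j)))

/-- a value attained on the span of monomials is attained on a monomial -/
theorem exists_mon {Λ ι : Type*} [AddCommMonoid Λ] [Fintype ι] {d : ι → Λ} {f : ι → E} {s : Λ}
    {x : E} (hx : x ∈ Gr.Mon k d f s) (N : Submodule k E) (hN : x ∉ N) :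
    ∃ a : ι → ℕ, ∑ i, a i • d i = s ∧ ∏ i, f i ^ a i ∉ N := by
  by_contra h
  push Not at h
  exact hN (Gr.Mon_le h hx)

theorem v_prod_le {ι : Type*} (t : Finset ι) (v : Valuation E ℤᵐ⁰) {f : ι → E} {n : ι → ℤ}
    (h : ∀ i, v (f i) ≤ exp (n i)) (a : ι → ℕ) :
    v (∏ i ∈ t, f i ^ a i) ≤ exp (∑ i ∈ t, a i * n i) := by
  classical
  induction t using Finset.induction_on with
  | empty => simp
  | insert i t hi ih =>
    rw [prod_insert hi, sum_insert hi, map_mul, exp_add, map_pow, ← nsmul_eq_mul, exp_nsmul]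
    exact mul_le_mul' (pow_le_pow_left' (h i) _) ih

theorem v_prod_eq {ι : Type*} (t : Finset ι) (v : Valuation E ℤᵐ⁰) {f : ι → E} {n : ι → ℤ}
    (a : ι → ℕ) (h : ∀ i, a i ≠ 0 → v (f i) = exp (n i)) :
    v (∏ i ∈ t, f i ^ a i) = exp (∑ i ∈ t, a i * n i) := by
  classical
  induction t using Finset.induction_on with
  | empty => simp
  | insert i t hi ih =>
    rw [prod_insert hi, sum_insert hi, map_mul, exp_add, map_pow, ← nsmul_eq_mul, exp_nsmul, ih]
    rcases eq_or_ne (a i) 0 with h0 | h0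
    · simp [h0]
    · rw [h i h0]

/-- if a monomial attains the bound then every factor does -/
theorem v_eq_of_prod {ι : Type*} [Fintype ι] (v : Valuation E ℤᵐ⁰) {f : ι → E} {n : ι → ℤ}
    (h : ∀ i, v (f i) ≤ exp (n i)) {a : ι → ℕ}
    (ha : exp (∑ i, a i * n i) ≤ v (∏ i, f i ^ a i)) {i : ι} (hi : a i ≠ 0) :
    v (f i) = exp (n i) := by
  classical
  by_contra hne
  have h1 : v (f i) ≤ exp (n i - 1) := by
    have h2 := lt_of_le_of_ne (h i) hne
    rcases eq_or_ne (v (f i)) 0 with h0 | h0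
    · simp [h0]
    · rw [← exp_log h0, exp_lt_exp] at h2
      rw [← exp_log h0, exp_le_exp]
      omega
  have h2 := v_prod_le univ v (f := f) (n := fun i' => n i' - if i' = i then 1 else 0)
    (fun i' => by
      split_ifs with h3
      · exact h3 ▸ h1
      · simpa using h i') a
  have h3 := exp_le_exp.1 (ha.trans h2)
  simp only [mul_sub, sum_sub_distrib, mul_ite, mul_one, mul_zero, sum_ite_eq', mem_univ,
    if_true] at h3
  omega

end Val

end Crest.Agent.X262.FG.S4
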