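import Crest.Agent.X262.Cvx.Cone1

/-!
# Row 262, FG, section 5 (helper29): linear algebra and convexity

* `exists_int` : a real vector is a positive combination of integral vectors with the same signs
  which satisfy the same integral linear relations;
* `hoff`       : bounded coefficients in a finitely generated cone;
* `fin_gen`    : a closed convex cone which is locally conical is finitely generated;
* `first_time` : the first time at which one of finitely many affine functions reaches one.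
-/

set_option autoImplicit false

open Finset

noncomputable section

namespace Crest.Agent.X262.FG.Sg

open Crest.Agent.X262.Cvx

/-! ### rational approximation which keeps the relations -/

theorem exists_rat {I : Type} [Fintype I] (r : I → ℝ) {ε : ℝ} (hε : 0 < ε) :
    ∃ (J : Type) (_ : Fintype J) (t : J → ℝ) (ρ : J → ℝ →ₗ[ℚ] ℚ), (∀ j, 0 < t j) ∧
      (∀ j i, |(ρ j (r i) : ℝ) - r i| < ε) ∧ ∀ i, ∑ j, t j * ρ j (r i) = r i := by
  classical
  let b := Module.Basis.ofVectorSpace ℚ ℝ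
  let s := univ.biUnion fun i => (b.repr (r i)).support
  have hr : ∀ i, r i = ∑ l : s, (b.repr (r i) l : ℝ) * b l := fun i => by
    rw [sum_coe_sort s fun l => (b.repr (r i) l : ℝ) * b l]
    conv_lhs => rw [← b.linearCombination_repr (r i), Finsupp.linearCombination_apply]
    rw [Finsupp.sum_of_support_subset _ (subset_biUnion_of_mem (fun i => (b.repr (r i)).support) (mem_univ i)) _ (by simp)]
    exact sum_congr rfl fun l _ => Rat.smul_def _ _
  let K : ℝ := 1 + ∑ i, ∑ l : s, |(b.repr (r i) l : ℝ)|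
  have hK : ∀ i, ∑ l : s, |(b.repr (r i) l : ℝ)| < K := fun i =>
    (single_le_sum (f := fun i => ∑ l : s, |(b.repr (r i) l : ℝ)|)
      (fun _ _ => sum_nonneg fun _ _ => abs_nonneg _) (mem_univ i)).trans_lt (lt_one_add _)
  have hK0 : 0 < K := add_pos_of_pos_of_nonneg one_pos
    (sum_nonneg fun _ _ => sum_nonneg fun _ _ => abs_nonneg _)
  obtain ⟨δ, hδ0, hδ⟩ := exists_rat_btwn (div_pos hε hK0)
  have hc : (0 : ℝ) < Fintype.card s + 1 := by positivity
  have hl : ∀ l : s, ∃ q : ℚ, (b l : ℝ) - δ / (Fintype.card s + 1) < q ∧ (q : ℝ) < b l :=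
    fun l => exists_rat_btwn (sub_lt_self _ (div_pos hδ0 hc))
  choose q hq1 hq2 using hl
  have hq3 : ∀ l : s, (b l : ℝ) - q l < δ := fun l => by
    have : (δ : ℝ) / (Fintype.card s + 1) ≤ δ := div_le_self hδ0.le (by simp)
    linarith [hq1 l]
  let w : Option s → s → ℚ := fun j l => q l + if j = some l then δ else 0
  let ρ : Option s → ℝ →ₗ[ℚ] ℚ := fun j => b.constr ℚ fun l => if h : l ∈ s then w j ⟨l, h⟩ else 0
  have hρ : ∀ j i, (ρ j (r i) : ℝ) = ∑ l : s, (b.repr (r i) l : ℝ) * w j l := fun j i => by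
    have h1 : r i = ∑ l : s, b.repr (r i) l • b l := by
      conv_lhs => rw [hr i]
      simp [Rat.smul_def]
    conv_lhs => rw [h1]
    rw [map_sum, Rat.cast_sum]
    refine sum_congr rfl fun l _ => ?_
    rw [map_smul, Module.Basis.constr_basis, dif_pos l.2, smul_eq_mul, Rat.cast_mul]
  let t : Option s → ℝ := fun j => j.elim (1 - ∑ l : s, (b l - q l) / δ) fun l => (b l - q l) / δ
  have ht1 : ∑ j, t j = 1 := by simp [t, Fintype.sum_option]
  have htw : ∀ l : s, ∑ j, t j * w j l = b l := fun l => by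
    have h1 : ∀ j, t j * w j l = t j * q l + if j = some l then t j * δ else 0 := fun j => by
      simp only [w]
      split_ifs <;> push_cast <;> ring
    rw [sum_congr rfl fun j _ => h1 j, sum_add_distrib, ← sum_mul, ht1, sum_ite_eq' univ (some l)]
    simp only [mem_univ, if_true, t, Option.elim]
    field_simp
    ring
  refine ⟨Option s, inferInstance, t, ρ, fun j => ?_, fun j i => ?_, fun i => ?_⟩
  · cases j with
    | none =>
      have h1 : ∑ l : s, ((b l : ℝ) - q l) / δ ≤ ∑ _l : s, 1 / ((Fintype.card s : ℝ) + 1) :=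
        sum_le_sum fun l _ => by
          rw [div_le_iff₀ hδ0, one_div, ← div_eq_inv_mul]
          linarith [hq1 l]
      rw [sum_const, card_univ, nsmul_eq_mul, mul_one_div] at h1
      have h2 : (Fintype.card s : ℝ) / (Fintype.card s + 1) < 1 := (div_lt_one hc).2 (lt_add_one _)
      simp only [t, Option.elim]
      linarith
    | some l => exact div_pos (sub_pos.2 (hq2 l)) hδ0
  · have h1 : (ρ j (r i) : ℝ) - r i = ∑ l : s, (b.repr (r i) l : ℝ) * (w j l - b l) := by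
      rw [hρ]
      conv_lhs => rw [hr i]
      simp only [← hr i, mul_sub, sum_sub_distrib]
    have h2 : ∀ l : s, |(w j l : ℝ) - b l| ≤ δ := fun l => by
      simp only [w]
      rw [abs_le]
      split_ifs <;> push_cast <;> constructor <;> linarith [hq2 l, hq3 l]
    rw [h1]
    calc _ ≤ ∑ l : s, |(b.repr (r i) l : ℝ)| * δ := (abs_sum_le_sum_abs _ _).trans
          (sum_le_sum fun l _ => by rw [abs_mul]; gcongr; exact h2 l)
      _ ≤ K * δ := by rw [← sum_mul]; gcongr; exact (hK i).le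
      _ < ε := by rwa [mul_comm, ← lt_div_iff₀ hK0]
  · simp only [hρ, mul_sum]
    rw [sum_comm]
    conv_rhs => rw [hr i]
    refine sum_congr rfl fun l _ => ?_
    rw [← htw l, mul_sum]
    exact sum_congr rfl fun j _ => by ring

/-- **integral points with the same relations and signs** -/
theorem exists_int {I : Type} [Fintype I] (r : I → ℝ) :
    ∃ (J : Type) (_ : Fintype J) (t : J → ℝ) (q : J → I → ℤ), (∀ j, 0 < t j) ∧
      (∀ j i, 0 ≤ r i → 0 ≤ q j i) ∧ (∀ i, ∑ j, t j * q j i = r i) ∧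
      ∀ j, ∃ ρ : ℝ →+ ℝ, ∀ i, ρ (r i) = q j i := by
  classical
  obtain ⟨ε, hε, h⟩ : ∃ ε : ℝ, 0 < ε ∧ ∀ i, 0 < r i → ε ≤ r i := by
    rcases (univ.filter fun i => 0 < r i).eq_empty_or_nonempty with h | h
    · exact ⟨1, one_pos, fun i hi => absurd (mem_filter.2 ⟨mem_univ i, hi⟩) (h ▸ notMem_empty i)⟩
    · obtain ⟨i, hi, hm⟩ := exists_min_image _ r h
      exact ⟨r i, (mem_filter.1 hi).2, fun j hj => hm j (mem_filter.2 ⟨mem_univ j, hj⟩)⟩
  obtain ⟨J, _, t, ρ, ht, h1, h2⟩ := exists_rat r hε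
  obtain ⟨D, hD, z, hz⟩ := exists_den fun p : J × I => ρ p.1 (r p.2)
  have hD' : (0 : ℝ) < D := Nat.cast_pos.2 hD
  have hz' : ∀ j i, (z (j, i) : ℝ) = D * ρ j (r i) := fun j i => by exact_mod_cast (hz (j, i)).symm
  refine ⟨J, inferInstance, fun j => t j / D, fun j i => z (j, i), fun j => div_pos (ht j) hD',
    fun j i hi => ?_, fun i => ?_, fun j => ?_⟩
  · have : (0 : ℝ) ≤ z (j, i) := by
      rw [hz']
      refine mul_nonneg hD'.le ?_
      rcases hi.eq_or_lt with hi | hi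
      · simp [← hi]
      · linarith [(abs_lt.1 (h1 j i)).1, h i hi]
    exact_mod_cast this
  · rw [← h2 i]
    refine sum_congr rfl fun j _ => ?_
    rw [hz']
    field_simp
  · refine ⟨AddMonoidHom.mk' (fun x => (D : ℝ) * ρ j x) fun x y => by simp [mul_add],
      fun i => (hz' j i).symm⟩

/-! ### bounded coefficients -/

section Hoff

variable {M : Type*} [AddCommGroup M] [Module ℝ M] {ι : Type} [Fintype ι] (v : ι → M)

theorem exists_indep (t : ι → ℝ) (ht : ∀ i, 0 ≤ t i) : ∃ t' : ι → ℝ, (∀ i, 0 ≤ t' i) ∧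
    ∑ i, t' i • v i = ∑ i, t i • v i ∧ LinearIndependent ℝ fun i : {i // t' i ≠ 0} => v i := by
  classical
  induction hn : (univ.filter fun i => t i ≠ 0).card using Nat.strong_induction_on
    generalizing t with
  | _ n ih =>
  by_cases h : LinearIndependent ℝ fun i : {i // t i ≠ 0} => v i
  · exact ⟨t, ht, rfl, h⟩
  obtain ⟨g, hg, i₀, hi₀⟩ := Fintype.not_linearIndependent_iff.1 h
  obtain ⟨g, hg, i₀, hi₀⟩ : ∃ g : {i // t i ≠ 0} → ℝ, ∑ i, g i • v i = 0 ∧ ∃ i, 0 < g i := by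
    rcases lt_or_gt_of_ne hi₀ with h | h
    · exact ⟨-g, by simp [hg], i₀, by simpa using h⟩
    · exact ⟨g, hg, i₀, h⟩
  obtain ⟨j, hj, hm⟩ := exists_min_image (univ.filter fun i => 0 < g i) (fun i => t i / g i)
    ⟨i₀, mem_filter.2 ⟨mem_univ _, hi₀⟩⟩
  have hj' := (mem_filter.1 hj).2
  let G : ι → ℝ := fun i => if h : t i ≠ 0 then g ⟨i, h⟩ else 0
  have hG : ∑ i, G i • v i = 0 := by
    rw [← hg, ← sum_subset (subset_univ (univ.filter fun i => t i ≠ 0)) fun i _ hi => by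
      simp only [G]; rw [dif_neg (by simpa using hi), zero_smul]]
    rw [sum_subtype (p := fun i => t i ≠ 0) _ (by simp)]
    exact sum_congr rfl fun i _ => by simp only [G]; rw [dif_pos i.2]
  have hc : 0 ≤ t j / g j := div_nonneg (ht j) hj'.le
  have k1 : (univ.filter fun i => t i - t j / g j * G i ≠ 0) ⊂ univ.filter fun i => t i ≠ 0 := by
    refine ⟨fun i hi => ?_, fun hs => ?_⟩
    · refine mem_filter.2 ⟨mem_univ _, fun h0 => (mem_filter.1 hi).2 ?_⟩
      simp [G, h0]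
    · refine (mem_filter.1 (hs (mem_filter.2 ⟨mem_univ j.1, j.2⟩))).2 ?_
      simp only [G]
      rw [dif_pos j.2, div_mul_cancel₀ _ hj'.ne', sub_self]
  have k2 : ∀ i, 0 ≤ t i - t j / g j * G i := fun i => by
    simp only [G]
    split_ifs with h0
    · rcases le_or_gt (g ⟨i, h0⟩) 0 with h4 | h4
      · linarith [ht i, mul_nonneg hc (neg_nonneg.2 h4)]
      · have h5 := hm ⟨i, h0⟩ (mem_filter.2 ⟨mem_univ _, h4⟩)
        rw [le_div_iff₀ h4] at h5
        linarith
    · simp [ht i]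
  obtain ⟨t', h1, h2, h3⟩ := ih _ (hn ▸ card_lt_card k1) (fun i => t i - t j / g j * G i) k2 rfl
  refine ⟨t', h1, h2.trans ?_, h3⟩
  simp only [sub_smul, mul_smul, sum_sub_distrib, ← smul_sum, hG, smul_zero, sub_zero]

/-- **bounded coefficients** -/
theorem hoff {κ : Type} [Fintype κ] (D : (κ → ℝ) →ₗ[ℝ] M) : ∃ K : ℝ, 0 < K ∧ ∀ (u : κ → ℝ)
    (t : ι → ℝ), (∀ i, 0 ≤ t i) → D u = ∑ i, t i • v i →
    ∃ t' : ι → ℝ, (∀ i, 0 ≤ t' i ∧ t' i ≤ K * ‖u‖) ∧ D u = ∑ i, t' i • v i := by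
  classical
  have h : ∀ s : Set ι, ∃ K : ℝ, 0 ≤ K ∧ ((LinearIndependent ℝ fun i : s => v i) →
      ∀ (u : κ → ℝ) (t : s → ℝ), D u = ∑ i, t i • v i → ∀ i, t i ≤ K * ‖u‖) := fun s => by
    by_cases hs : LinearIndependent ℝ fun i : s => v i
    · obtain ⟨l, hl⟩ := (Fintype.linearCombination ℝ fun i : s => v i).exists_leftInverse_of_injective
        (LinearMap.ker_eq_bot'.2 fun g hg => funext (Fintype.linearIndependent_iff.1 hs g hg))
      let f := LinearMap.toContinuousLinearMap (l ∘ₗ D)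
      refine ⟨‖f‖, norm_nonneg _, fun _ u t ht i => ?_⟩
      have h1 : f u = t := by
        change l (D u) = t
        rw [ht, ← Fintype.linearCombination_apply]
        exact LinearMap.congr_fun hl t
      exact (le_abs_self _).trans ((norm_le_pi_norm t i).trans (h1 ▸ f.le_opNorm u))
    · exact ⟨0, le_rfl, fun h => absurd h hs⟩
  choose K hK0 hK using h
  refine ⟨1 + ∑ s, K s, add_pos_of_pos_of_nonneg one_pos (sum_nonneg fun s _ => hK0 s),
    fun u t ht hu => ?_⟩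
  obtain ⟨t', h1, h2, h3⟩ := exists_indep v t ht
  refine ⟨t', fun i => ⟨h1 i, ?_⟩, hu.trans h2.symm⟩
  have h4 : K {i | t' i ≠ 0} ≤ 1 + ∑ s, K s :=
    (single_le_sum (fun s _ => hK0 s) (mem_univ _)).trans (le_add_of_nonneg_left zero_le_one)
  by_cases h0 : t' i = 0
  · rw [h0]
    exact mul_nonneg ((hK0 _).trans h4) (norm_nonneg _)
  · refine (hK {i | t' i ≠ 0} h3 u (fun i => t' i) ?_ ⟨i, h0⟩).trans (by gcongr)
    rw [hu, ← h2, ← sum_subset (subset_univ (univ.filter fun i => t' i ≠ 0)) fun i _ hi => by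
      rw [show t' i = 0 by simpa using hi, zero_smul]]
    exact sum_subtype _ (by simp) fun i => t' i • v i

end Hoff

/-! ### locally conical cones -/

/-- **finite generation from local conicity** -/
theorem fin_gen {κ : Type} [Fintype κ] {C : Set (κ → ℝ)} (hc : IsClosed C) (hv : Convex ℝ C)
    (hs : ∀ x ∈ C, ∀ c : ℝ, 0 ≤ c → c • x ∈ C) {E : Set (κ → ℕ)} (hE : ∀ d ∈ E, nc d ∈ C)
    (loc : ∀ x₀ ∈ C ∩ stdSimplex ℝ κ, ∃ δ : ℝ, 0 < δ ∧ ∀ x ∈ C ∩ stdSimplex ℝ κ,
      ‖x - x₀‖ < δ → ∃ s : ℝ, 1 < s ∧ x₀ + s • (x - x₀) ∈ C)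
    (nv : ∀ x₀ ∈ C ∩ stdSimplex ℝ κ, ∃ (J : Type) (_ : Fintype J) (t : J → ℝ) (d : J → κ → ℕ),
      (∀ j, 0 ≤ t j ∧ d j ∈ E) ∧ x₀ = ∑ j, t j • nc (d j)) :
    ∃ (N : ℕ) (d : Fin N → κ → ℕ), (∀ j, d j ∈ E) ∧
      ∀ x ∈ E, ∃ m : ℕ, 0 < m ∧ ∃ a : Fin N → ℕ, ∑ j, a j • d j = m • x := by
  classical
  set Q := C ∩ stdSimplex ℝ κ
  have hQ : IsCompact Q := (isCompact_stdSimplex ℝ κ).inter_left hc
  have hQc : Convex ℝ Q := hv.inter (convex_stdSimplex ℝ κ)
  have iso : ∀ x₀ ∈ Q, ∃ δ : ℝ, 0 < δ ∧ ∀ x ∈ Q.extremePoints ℝ, ‖x - x₀‖ < δ → x = x₀ := by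
    intro x₀ h₀
    obtain ⟨δ, hδ, h⟩ := loc x₀ h₀
    obtain ⟨ε, hε, h1⟩ : ∃ ε : ℝ, 0 < ε ∧ ∀ k, 0 < x₀ k → ε ≤ x₀ k := by
      rcases (univ.filter fun k => 0 < x₀ k).eq_empty_or_nonempty with h | h
      · exact ⟨1, one_pos, fun i hi => absurd (mem_filter.2 ⟨mem_univ i, hi⟩) (h ▸ notMem_empty i)⟩
      · obtain ⟨i, hi, hm⟩ := exists_min_image _ x₀ h
        exact ⟨x₀ i, (mem_filter.1 hi).2, fun j hj => hm j (mem_filter.2 ⟨mem_univ j, hj⟩)⟩
    refine ⟨min δ (ε / 2), lt_min hδ (half_pos hε), fun x hx hn => ?_⟩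
    obtain ⟨s, hs1, hs2⟩ := h x hx.1 (hn.trans_le (min_le_left _ _))
    let s' := min s 2
    have h2 : 1 < s' := lt_min hs1 one_lt_two
    have h3 : x₀ + s' • (x - x₀) ∈ Q := by
      refine ⟨?_, fun k => ?_, ?_⟩
      · have h4 := hv h₀.1 hs2 (a := 1 - s' / s) (b := s' / s)
          (sub_nonneg.2 ((div_le_one (by linarith)).2 (min_le_left _ _)))
          (div_nonneg (by linarith) (by linarith)) (by ring)
        convert h4 using 1
        ext k
        simp only [Pi.add_apply, Pi.smul_apply, Pi.sub_apply, smul_eq_mul]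
        field_simp
        ring
      · simp only [Pi.add_apply, Pi.smul_apply, Pi.sub_apply, smul_eq_mul]
        rcases (h₀.2.1 k).eq_or_lt with h5 | h5
        · rw [← h5]
          nlinarith [hx.1.2.1 k]
        · have h6 := (abs_le.1 ((norm_le_pi_norm (x - x₀) k).trans
            (hn.le.trans (min_le_right _ _)))).1
          rw [Pi.sub_apply] at h6
          have h7 : s' ≤ 2 := min_le_right _ _
          nlinarith [h1 k h5]
      · simp only [Pi.add_apply, Pi.smul_apply, Pi.sub_apply, smul_eq_mul, sum_add_distrib,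
          ← mul_sum, sum_sub_distrib, h₀.2.2, hx.1.2.2]
        ring
    refine (hx.2 h₀ h3 ⟨1 - 1 / s', 1 / s', ?_, by positivity, by ring, ?_⟩).symm
    · exact sub_pos.2 ((div_lt_one (by linarith)).2 h2)
    · ext k
      simp only [Pi.add_apply, Pi.smul_apply, Pi.sub_apply, smul_eq_mul]
      field_simp
      ring
  choose! δ hδ hiso using iso
  obtain ⟨T, hT, hcov⟩ := hQ.elim_nhds_subcover (fun x => Metric.ball x (δ x))
    fun x hx => Metric.ball_mem_nhds x (hδ x hx)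
  have hfin : Q.extremePoints ℝ ⊆ T := fun x hx => by
    obtain ⟨y, hy, h⟩ := Set.mem_iUnion₂.1 (hcov hx.1)
    rwa [hiso y (hT y hy) x hx (by rwa [← dist_eq_norm])]
  have hQT : Q ⊆ convexHull ℝ (T : Set (κ → ℝ)) := by
    rw [← closure_convexHull_extremePoints hQ hQc]
    exact closure_minimal (convexHull_mono hfin) (T.finite_toSet.isClosed_convexHull ℝ)
  choose J iJ t d htd hx using fun x : T => nv x.1 (hT x.1 x.2)
  let A := Σ x : T, J x
  let e := Fintype.equivFin A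
  let G : Set (κ → ℝ) := {x | ∃ u : A → ℝ, (∀ a, 0 ≤ u a) ∧
    x = ∑ a, u a • zc ℝ fun k => (d a.1 a.2 k : ℤ)}
  have hG : RCone G := rCone_of_gen fun a => isRat_zc _
  have hTG : (T : Set (κ → ℝ)) ⊆ G := fun x hxT => by
    rw [show x = ∑ j, t ⟨x, hxT⟩ j • nc (d ⟨x, hxT⟩ j) from hx ⟨x, hxT⟩]
    refine hG.sum_mem _ fun j _ => hG.smul_mem ?_ (htd _ j).1
    refine ⟨Pi.single ⟨⟨x, hxT⟩, j⟩ 1, fun a => ?_, ?_⟩
    · rw [Pi.single_apply]
      split_ifs <;> norm_num
    · rw [sum_eq_single (⟨⟨x, hxT⟩, j⟩ : A) (fun a _ ha => by simp [ha]) (by simp)]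
      ext k
      simp
  refine ⟨_, fun j => d (e.symm j).1 (e.symm j).2, fun j => (htd _ _).2, fun x hxE => ?_⟩
  by_cases h0 : x = 0
  · exact ⟨1, one_pos, 0, by simp only [h0, Pi.zero_apply, zero_smul, sum_const_zero, smul_zero]⟩
  have hS : (0 : ℝ) < ∑ k, (x k : ℝ) := by
    obtain ⟨k, hk⟩ := Function.ne_iff.1 h0
    exact sum_pos' (fun _ _ => Nat.cast_nonneg _) ⟨k, mem_univ _, Nat.cast_pos.2 (Nat.pos_of_ne_zero hk)⟩
  have h1 : (∑ k, (x k : ℝ))⁻¹ • nc x ∈ Q := by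
    refine ⟨hs _ (hE x hxE) _ (inv_nonneg.2 hS.le), fun k => ?_, ?_⟩
    · exact mul_nonneg (inv_nonneg.2 hS.le) (Nat.cast_nonneg _)
    · simp only [Pi.smul_apply, smul_eq_mul, ← mul_sum, nc_apply]
      exact inv_mul_cancel₀ hS.ne'
  have h2 := hG.smul_mem (convexHull_min hTG hG.convex (hQT h1)) hS.le
  rw [smul_smul, mul_inv_cancel₀ hS.ne', one_smul] at h2
  obtain ⟨u, hu, h2⟩ := h2
  obtain ⟨m, hm, c, h3⟩ := exists_nat_comb _ (isRat_nc x) hu h2
  refine ⟨m, hm, fun j => c (e.symm j), ?_⟩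
  rw [e.symm.sum_comp fun a => c a • d a.1 a.2]
  ext k
  have h4 := congrFun h3 k
  simp only [Pi.smul_apply, nc_apply, zc_apply, Finset.sum_apply] at h4 ⊢
  simp only [smul_eq_mul, nsmul_eq_mul] at h4 ⊢
  exact_mod_cast h4.symm

/-- the first time at which one of the affine functions `p e + t * q e` is one -/
theorem first_time {ι : Type} [Fintype ι] (p q : ι → ℝ) (h0 : ∀ e, p e < 1) {e₁ : ι}
    (h1 : 1 < p e₁ + q e₁) : ∃ (t : ℝ) (e₀ : ι), 0 < t ∧ t < 1 ∧ p e₀ + t * q e₀ = 1 ∧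
      ∀ e, p e + t * q e ≤ 1 := by
  classical
  have hq : 0 < q e₁ := by linarith [h0 e₁]
  obtain ⟨e₀, he, hm⟩ := exists_min_image (univ.filter fun e => 0 < q e)
    (fun e => (1 - p e) / q e) ⟨e₁, mem_filter.2 ⟨mem_univ _, hq⟩⟩
  have he' := (mem_filter.1 he).2
  have ht : 0 < (1 - p e₀) / q e₀ := div_pos (sub_pos.2 (h0 _)) he'
  refine ⟨_, e₀, ht, (hm e₁ (mem_filter.2 ⟨mem_univ _, hq⟩)).trans_lt ?_, ?_, fun e => ?_⟩
  · rw [div_lt_one hq]
    linarith
  · rw [div_mul_cancel₀ _ he'.ne']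
    ring
  · rcases le_or_gt (q e) 0 with h | h
    · nlinarith [h0 e]
    · have h2 := hm e (mem_filter.2 ⟨mem_univ _, h⟩)
      rw [le_div_iff₀ h] at h2
      linarith

end Crest.Agent.X262.FG.Sg
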