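import Crest.Agent.X262.FG.Sig0
import Crest.Agent.X262.FG.Basic
import Crest.Agent.X277.BD.Vol

/-!
# Row 262, FG, section 5 (helper29): real b-divisors

* `RD F = ℝ ⊗ BD`, `em`, `xt φ` (linear extension), `lr g ξ = ∑ ξ k • g k`;
* `Cn Q` : the cone spanned by the b-divisors with the property `Q`; `PosR`, `FreeR`, `OnR P`;
* `rel`  : a real relation is a positive combination of integral relations;
* `Fx x y` : `y ≥ 0` and `x - y` is a positive combination of free b-divisors;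
* `Mo o` : monotone orders; `W o x t`, `Z o x t` (`σ_o (x) ≤ t`), `Ps x` (pseudo-effective).
-/

set_option autoImplicit false

open Finset
open scoped TensorProduct

noncomputable section

namespace Crest.Agent.X262.FG.Sg

open Crest.Agent.X277 Crest.Agent.X277.Lef Crest.Agent.X277.AN.G1 Crest.Agent.X277.BD
open Crest.Agent.X277.BD.Br (oP)

/-- real b-divisors -/
abbrev RD (F : Type) [Field F] [Algebra ℂ F] : Type := ℝ ⊗[ℤ] BD ℂ F

variable {F : Type} [Field F] [Algebra ℂ F]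

/-- the embedding of the b-divisors -/
def em : BD ℂ F →+ RD F := (TensorProduct.mk ℤ ℝ (BD ℂ F) 1).toAddMonoidHom

theorem smul_em (r : ℝ) (a : BD ℂ F) : r • em a = r ⊗ₜ[ℤ] a := by
  change r • (1 : ℝ) ⊗ₜ[ℤ] a = _
  rw [TensorProduct.smul_tmul', smul_eq_mul, mul_one]

theorem em_zsmul (m : ℤ) (a : BD ℂ F) : em (m • a) = (m : ℝ) • em a := by
  rw [map_zsmul, Int.cast_smul_eq_zsmul]

theorem em_nsmul (m : ℕ) (a : BD ℂ F) : em (m • a) = (m : ℝ) • em a := by
  rw [map_nsmul, Nat.cast_smul_eq_nsmul]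

theorem em_injective : Function.Injective (em : BD ℂ F → RD F) := by
  have : IsAddTorsionFree (BD ℂ F) :=
    ⟨fun m hm a b h => eq_of_nsmul_eq (Nat.pos_of_ne_zero hm) h⟩
  have : Module.Flat ℤ (BD ℂ F) := inferInstance
  have h := Module.Flat.rTensor_preserves_injective_linearMap (M := BD ℂ F)
    (Algebra.linearMap ℤ ℝ) Int.cast_injective
  intro a b hab
  have h1 : (1 : ℤ) ⊗ₜ[ℤ] a = (1 : ℤ) ⊗ₜ[ℤ] b := h (by
    simp only [LinearMap.rTensor_tmul, Algebra.linearMap_apply, map_one]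
    exact hab)
  simpa using congrArg (TensorProduct.lid ℤ (BD ℂ F)) h1

/-- the linear extension of an additive map -/
def xt (φ : BD ℂ F →+ ℤ) : RD F →ₗ[ℝ] ℝ :=
  LinearMap.liftBaseChange ℝ ((Int.castAddHom ℝ).comp φ).toIntLinearMap

@[simp] theorem xt_em (φ : BD ℂ F →+ ℤ) (a : BD ℂ F) : xt φ (em a) = φ a := by
  change xt φ ((1 : ℝ) ⊗ₜ[ℤ] a) = _
  simp [xt]

theorem xt_zero (x : RD F) : xt 0 x = 0 := by
  induction x using TensorProduct.induction_on with
  | zero => simp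
  | tmul r a => rw [← smul_em, map_smul, xt_em]; simp
  | add x y hx hy => rw [map_add, hx, hy, add_zero]

/-- real combinations of a finite family -/
def lr {κ : Type} [Fintype κ] (g : κ → BD ℂ F) : (κ → ℝ) →ₗ[ℝ] RD F :=
  Fintype.linearCombination ℝ fun k => em (g k)

theorem lr_apply {κ : Type} [Fintype κ] (g : κ → BD ℂ F) (ξ : κ → ℝ) :
    lr g ξ = ∑ k, ξ k • em (g k) := rfl

theorem lr_zc {κ : Type} [Fintype κ] (g : κ → BD ℂ F) (q : κ → ℤ) :
    lr g (fun k => (q k : ℝ)) = em (∑ k, q k • g k) := by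
  rw [lr_apply, map_sum]
  exact sum_congr rfl fun k _ => (em_zsmul _ _).symm

theorem lr_nc {κ : Type} [Fintype κ] (g : κ → BD ℂ F) (d : κ → ℕ) :
    lr g (Cvx.nc d) = em (lc g d) := by
  rw [lr_apply, lc, map_sum]
  exact sum_congr rfl fun k _ => (em_nsmul _ _).symm

theorem lr_single {κ : Type} [Fintype κ] [DecidableEq κ] (g : κ → BD ℂ F) (k : κ) (r : ℝ) :
    lr g (Pi.single k r) = r • em (g k) := Fintype.linearCombination_apply_single _ _ _ _

theorem xt_lr {κ : Type} [Fintype κ] (φ : BD ℂ F →+ ℤ) (g : κ → BD ℂ F) (ξ : κ → ℝ) :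
    xt φ (lr g ξ) = ∑ k, ξ k * φ (g k) := by simp [lr_apply]

/-- **real relations come from integral relations** -/
theorem rel {I : Type} [Fintype I] {a : I → BD ℂ F} {r : I → ℝ} (h : lr a r = 0) :
    ∃ (J : Type) (_ : Fintype J) (t : J → ℝ) (q : J → I → ℤ), (∀ j, 0 < t j) ∧
      (∀ j i, 0 ≤ r i → 0 ≤ q j i) ∧ (∀ j i, r i ≤ 0 → q j i ≤ 0) ∧
      (∀ i, ∑ j, t j * q j i = r i) ∧ ∀ j, ∑ i, q j i • a i = 0 := by
  obtain ⟨J, _, t, q, ht, h1, h2, h3⟩ := exists_int (Sum.elim r (-r))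
  refine ⟨J, inferInstance, t, fun j i => q j (.inl i), ht, fun j i hi => h1 j _ hi,
    fun j i hi => ?_, fun i => h2 (.inl i), fun j => ?_⟩
  · obtain ⟨ρ, hρ⟩ := h3 j
    have h4 := h1 j (.inr i) (by simpa using hi)
    have h5 := hρ (.inr i)
    have h6 := hρ (.inl i)
    simp only [Sum.elim_inr, Pi.neg_apply, map_neg, Sum.elim_inl] at h5 h6
    have h7 : (q j (.inl i) : ℝ) = -q j (.inr i) := by rw [← h5, ← h6, neg_neg]
    have h8 : q j (.inl i) = -q j (.inr i) := by exact_mod_cast h7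
    change q j (.inl i) ≤ 0
    omega
  · obtain ⟨ρ, hρ⟩ := h3 j
    have h4 := congrArg (LinearMap.rTensor (BD ℂ F) ρ.toIntLinearMap) h
    rw [map_zero, lr_apply, map_sum] at h4
    refine em_injective ?_
    rw [map_zero, ← h4, ← lr_zc, lr_apply]
    refine sum_congr rfl fun i _ => ?_
    rw [smul_em, smul_em, LinearMap.rTensor_tmul]
    exact congrArg (· ⊗ₜ[ℤ] a i) (hρ (.inl i)).symm

/-! ### cones -/

/-- the cone spanned by the b-divisors with the property `Q` -/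
def Cn (Q : BD ℂ F → Prop) (x : RD F) : Prop :=
  ∃ (I : Type) (_ : Fintype I) (a : I → BD ℂ F) (r : I → ℝ), (∀ i, 0 ≤ r i ∧ Q (a i)) ∧ x = lr a r

namespace Cn

variable {Q Q' : BD ℂ F → Prop} {x y : RD F}

theorem zero : Cn Q (0 : RD F) :=
  ⟨Empty, inferInstance, Empty.elim, Empty.elim, fun i => i.elim, by simp [lr_apply]⟩

theorem of {a : BD ℂ F} (h : Q a) : Cn Q (em a) :=
  ⟨Unit, inferInstance, fun _ => a, fun _ => 1, fun _ => ⟨zero_le_one, h⟩, by simp [lr_apply]⟩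

theorem add (hx : Cn Q x) (hy : Cn Q y) : Cn Q (x + y) := by
  obtain ⟨I, _, a, r, h, rfl⟩ := hx
  obtain ⟨J, _, b, s, h', rfl⟩ := hy
  exact ⟨I ⊕ J, inferInstance, Sum.elim a b, Sum.elim r s, fun i => i.rec h h', by
    simp [lr_apply]⟩

theorem smul (hx : Cn Q x) {c : ℝ} (hc : 0 ≤ c) : Cn Q (c • x) := by
  obtain ⟨I, _, a, r, h, rfl⟩ := hx
  exact ⟨I, inferInstance, a, c • r, fun i => ⟨mul_nonneg hc (h i).1, (h i).2⟩,
    (map_smul _ _ _).symm⟩

theorem sum {α : Type*} (s : Finset α) {x : α → RD F} (h : ∀ i ∈ s, Cn Q (x i)) :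
    Cn Q (∑ i ∈ s, x i) := sum_induction _ (Cn Q) (fun _ _ => add) zero h

theorem lr {I : Type} [Fintype I] {a : I → BD ℂ F} {r : I → ℝ} (hr : ∀ i, 0 ≤ r i)
    (h : ∀ i, Q (a i)) : Cn Q (lr a r) := ⟨I, inferInstance, a, r, fun i => ⟨hr i, h i⟩, rfl⟩

theorem mono (hx : Cn Q x) (h : ∀ a, Q a → Q' a) : Cn Q' x := by
  obtain ⟨I, _, a, r, h1, rfl⟩ := hx
  exact lr (fun i => (h1 i).1) fun i => h _ (h1 i).2

theorem xt_nonneg (hx : Cn Q x) {φ : BD ℂ F →+ ℤ} (h : ∀ a, Q a → 0 ≤ φ a) : 0 ≤ xt φ x := by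
  obtain ⟨I, _, a, r, h1, rfl⟩ := hx
  rw [xt_lr]
  exact sum_nonneg fun i _ => mul_nonneg (h1 i).1 (Int.cast_nonneg (h _ (h1 i).2))

end Cn

/-- effective real b-divisors -/
abbrev PosR : RD F → Prop := Cn fun a => 0 ≤ a

/-- positive combinations of free b-divisors -/
abbrev FreeR : RD F → Prop := Cn Free

/-- real divisors of the model -/
abbrev OnR (P : PModel ℂ F) : RD F → Prop := Cn fun a => a ∈ Br.On P

variable {P : PModel ℂ F} {x y z x' y' : RD F} {a h : BD ℂ F}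

theorem onR_lr {I : Type} [Fintype I] {g : I → BD ℂ F} (hg : ∀ i, g i ∈ Br.On P) (ξ : I → ℝ) :
    OnR P (lr g ξ) := by
  refine Cn.sum _ fun i _ => ?_
  rcases le_total 0 (ξ i) with h | h
  · exact (Cn.of (hg i)).smul h
  · have h1 := (Cn.of (Q := fun a => a ∈ Br.On P) (neg_mem (hg i))).smul (neg_nonneg.2 h)
    rwa [map_neg, neg_smul_neg] at h1

theorem onR_smul (hx : OnR P x) (c : ℝ) : OnR P (c • x) := by
  obtain ⟨I, _, a, r, h, rfl⟩ := hx
  rw [← map_smul]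
  exact onR_lr (fun i => (h i).2) _

theorem onR_sub (hx : OnR P x) (hy : OnR P y) : OnR P (x - y) := by
  rw [sub_eq_add_neg, ← neg_one_smul ℝ y]
  exact hx.add (onR_smul hy _)

theorem freeR_pr (c : ℝ) (f : F) : FreeR (c • em (pr ℂ f)) := by
  rcases le_total 0 c with h | h
  · exact (Cn.of (free_pr f)).smul h
  · have h1 := (Cn.of (free_neg_pr (k := ℂ) f)).smul (neg_nonneg.2 h)
    rwa [map_neg, neg_smul_neg] at h1

/-- small perturbations of the polarisation -/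
theorem exists_freeR {I : Type} [Fintype I] {g : I → BD ℂ F} (hg : ∀ i, g i ∈ Br.On P) :
    ∃ N : ℝ, 0 < N ∧ ∀ (ε : ℝ) (u : I → ℝ), N * ‖u‖ ≤ ε → FreeR (ε • em (oP P) + lr g u) := by
  choose m hm using fun i => Br.serre (hg i)
  choose m' hm' using fun i => Br.serre (neg_mem (hg i))
  refine ⟨1 + ∑ i, ((m i + m' i : ℕ) : ℝ), by positivity, fun ε u hu => ?_⟩
  have h1 : ∀ i, FreeR ((|u i| * (m i + m' i : ℕ)) • em (oP P) + u i • em (g i)) := fun i => by
    rcases le_total 0 (u i) with h | h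
    · have h2 := (Cn.of (hm i (m i + m' i) le_self_add)).smul h
      rwa [map_add, em_nsmul, smul_add, smul_smul, add_comm, ← abs_of_nonneg h, abs_of_nonneg h,
        show u i * ((m i + m' i : ℕ) : ℝ) = |u i| * (m i + m' i : ℕ) by rw [abs_of_nonneg h]] at h2
    · have h2 := (Cn.of (hm' i (m i + m' i) le_add_self)).smul (neg_nonneg.2 h)
      rwa [map_add, em_nsmul, smul_add, smul_smul, add_comm, map_neg, neg_smul_neg,
        ← abs_of_nonpos h] at h2
  have h2 : ∑ i, |u i| * ((m i + m' i : ℕ) : ℝ) ≤ ε := by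
    refine le_trans ?_ hu
    rw [add_mul, sum_mul]
    refine (sum_le_sum fun i _ => ?_).trans (le_add_of_nonneg_left (by positivity))
    rw [mul_comm]
    gcongr
    exact norm_le_pi_norm u i
  have h3 := (Cn.sum univ fun i _ => h1 i).add
    ((Cn.of (Br.free_oP (P := P))).smul (sub_nonneg.2 h2))
  rw [sum_add_distrib, ← sum_smul, add_right_comm, ← add_smul, add_sub_cancel] at h3
  exact h3

theorem OnR.exists_freeR (hx : OnR P x) :
    ∃ N : ℝ, 0 < N ∧ ∀ ε c : ℝ, N * |c| ≤ ε → FreeR (ε • em (oP P) + c • x) := by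
  obtain ⟨I, _, g, r, h, rfl⟩ := hx
  obtain ⟨N, hN, h1⟩ := Sg.exists_freeR fun i => (h i).2
  refine ⟨N * (‖r‖ + 1), by positivity, fun ε c hc => ?_⟩
  rw [← map_smul (Sg.lr g)]
  refine h1 ε _ (le_trans ?_ hc)
  rw [norm_smul, Real.norm_eq_abs, mul_assoc, mul_comm |c|]
  gcongr
  exact le_add_of_nonneg_right zero_le_one

/-! ### fixed parts -/

/-- `y ≥ 0` and `x - y` is a positive combination of free b-divisors -/
def Fx (x y : RD F) : Prop := PosR y ∧ FreeR (x - y)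

theorem Fx.add (h : Fx x y) (h' : Fx x' y') : Fx (x + x') (y + y') :=
  ⟨h.1.add h'.1, by simpa only [add_sub_add_comm] using h.2.add h'.2⟩

theorem Fx.smul (h : Fx x y) {c : ℝ} (hc : 0 ≤ c) : Fx (c • x) (c • y) :=
  ⟨h.1.smul hc, by simpa only [smul_sub] using h.2.smul hc⟩

theorem fx_free (hx : FreeR x) : Fx x 0 := ⟨Cn.zero, by rwa [sub_zero]⟩

theorem fx_pos (hx : PosR x) : Fx x x := ⟨hx, by rw [sub_self]; exact Cn.zero⟩

theorem Fx.add_free (h : Fx x y) (hz : FreeR z) : Fx (x + z) y := by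
  simpa using h.add (fx_free hz)

theorem fx_em {M : BD ℂ F} (hM : Free M) (h : M ≤ a) : Fx (em a) (em (a - M)) :=
  ⟨Cn.of (sub_nonneg.2 h), by rw [← map_sub, sub_sub_cancel]; exact Cn.of hM⟩

theorem fx_sec {s : F} (hs : s ∈ a.Sec) (h0 : s ≠ 0) : Fx (em a) (em (a - pr ℂ s)) :=
  fx_em (free_pr s) ((pr_le_iff h0).2 hs)

/-- **integral decomposition of a fixed part** -/
theorem Fx.exists_int {κ : Type} [Fintype κ] {g : κ → BD ℂ F} {ξ : κ → ℝ} (h : Fx (lr g ξ) y) :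
    ∃ (J : Type) (_ : Fintype J) (t : J → ℝ) (q : J → κ → ℤ) (M : J → BD ℂ F), (∀ j, 0 < t j) ∧
      (∀ j k, 0 ≤ ξ k → 0 ≤ q j k) ∧ (∀ k, ∑ j, t j * q j k = ξ k) ∧
      (∀ j, Free (M j) ∧ M j ≤ ∑ k, q j k • g k) ∧
      y = lr (fun j => ∑ k, q j k • g k - M j) t := by
  obtain ⟨⟨I, _, p, r, hp, rfl⟩, I', _, f, r', hf, h⟩ := h
  obtain ⟨J, _, t, q, ht, h1, h2, h3, h4⟩ := rel (a := Sum.elim g (Sum.elim p f))
    (r := Sum.elim ξ (Sum.elim (-r) (-r'))) (by
      simp only [lr_apply, Fintype.sum_sum_type, Sum.elim_inl, Sum.elim_inr, Pi.neg_apply,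
        neg_smul, sum_neg_distrib] at h ⊢
      rw [← h]
      abel)
  have h5 : ∀ j, ∑ k, q j (.inl k) • g k - ∑ i, (-q j (.inr (.inr i))) • f i =
      ∑ i, (-q j (.inr (.inl i))) • p i := fun j => by
    have h6 := h4 j
    simp only [Fintype.sum_sum_type, Sum.elim_inl, Sum.elim_inr] at h6
    simp only [neg_smul, sum_neg_distrib, sub_neg_eq_add]
    rw [eq_neg_iff_add_eq_zero, ← h6]
    abel
  refine ⟨J, inferInstance, t, fun j k => q j (.inl k), fun j => ∑ i, (-q j (.inr (.inr i))) • f i,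
    ht, fun j k hk => h1 j _ hk, fun k => h3 (.inl k), fun j => ⟨Free.sum _ fun i _ => ?_, ?_⟩, ?_⟩
  · obtain ⟨m, hm⟩ := Int.eq_ofNat_of_zero_le
      (neg_nonneg.2 (h2 j (.inr (.inr i)) (neg_nonpos.2 (hf i).1)))
    rw [hm, natCast_zsmul]
    exact (hf i).2.nsmul m
  · rw [← sub_nonneg, h5]
    exact sum_nonneg fun i _ => zsmul_nonneg (hp i).2
      (neg_nonneg.2 (h2 j (.inr (.inl i)) (neg_nonpos.2 (hp i).1)))
  · simp only [h5, lr_apply, map_sum, em_zsmul, smul_sum, smul_smul]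
    rw [sum_comm]
    refine sum_congr rfl fun i _ => ?_
    rw [← sum_smul]
    congr 1
    have h6 := h3 (.inr (.inl i))
    simp only [Sum.elim_inr, Sum.elim_inl, Pi.neg_apply] at h6
    simp only [Int.cast_neg, mul_neg, sum_neg_distrib, h6, neg_neg]

/-- fixed parts are directed downwards -/
theorem Fx.inf (h : Fx x y) (h' : Fx x y') : ∃ z, Fx x z ∧ PosR (y - z) ∧ PosR (y' - z) := by
  obtain ⟨⟨I, _, p, r, hp, rfl⟩, I', _, f, r', hf, h⟩ := h
  have hx : x = lr (Sum.elim p f) (Sum.elim r r') := by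
    rw [sub_eq_iff_eq_add'] at h
    simp [h, lr_apply]
  rw [hx] at h'
  obtain ⟨J, _, t, q, M, ht, h1, h2, h3, rfl⟩ := h'.exists_int
  let N : J → BD ℂ F := fun j => ∑ i, q j (.inr i) • f i
  have hN : ∀ j, Free (N j) := fun j => Free.sum _ fun i _ => by
    obtain ⟨m, hm⟩ := Int.eq_ofNat_of_zero_le (h1 j (.inr i) (hf i).1)
    rw [hm, natCast_zsmul]
    exact (hf i).2.nsmul m
  let A : J → BD ℂ F := fun j => ∑ k, q j k • Sum.elim p f k
  have hA : ∀ j, A j - N j = ∑ i, q j (.inl i) • p i := fun j => by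
    simp [A, N]
  have hN' : ∀ j, N j ≤ A j := fun j => by
    rw [← sub_nonneg, hA]
    exact sum_nonneg fun i _ => zsmul_nonneg (hp i).2 (h1 j (.inl i) (hp i).1)
  have e1 : ∀ {I : Type} [Fintype I] (p : I → BD ℂ F) (q : J → I → ℤ),
      lr (fun j => ∑ i, q j i • p i) t = lr p fun i => ∑ j, t j * q j i := fun p q => by
    simp only [lr_apply, map_sum, em_zsmul, smul_sum, smul_smul, sum_smul]
    exact sum_comm
  have e2 : ∀ u v : J → BD ℂ F, lr u t - lr v t = lr (fun j => u j - v j) t := fun u v => by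
    simp only [lr_apply, map_sub, smul_sub, sum_sub_distrib]
  have e3 : lr p r = lr (fun j => A j - N j) t := by
    simp only [hA, e1, h2, Sum.elim_inl]
  have e4 : x = lr A t := by
    rw [hx, e1]
    simp only [h2]
  refine ⟨lr (fun j => A j - M j ⊔ N j) t, ⟨Cn.lr (fun j => (ht j).le) fun j =>
    sub_nonneg.2 (sup_le (h3 j).2 (hN' j)), ?_⟩, ?_, ?_⟩
  · rw [e4, e2]
    exact Cn.lr (fun j => (ht j).le) fun j => by
      rw [sub_sub_cancel]
      exact (h3 j).1.sup (hN j)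
  · rw [e3, e2]
    exact Cn.lr (fun j => (ht j).le) fun j => sub_nonneg.2 (sub_le_sub_left le_sup_right _)
  · rw [e2]
    exact Cn.lr (fun j => (ht j).le) fun j => sub_nonneg.2 (sub_le_sub_left le_sup_left _)

theorem free_of_freeR (h : FreeR (em a)) : ∃ q : ℕ, 0 < q ∧ Free (q • a) := by
  obtain ⟨I, _, f, r, hf, h⟩ := h
  obtain ⟨J, _, t, q, ht, h1, h2, h3, h4⟩ := rel (a := fun i : Option I => i.elim a f)
    (r := fun i => i.elim (-1) r) (by
      simp only [lr_apply, Fintype.sum_option, Option.elim] at h ⊢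
      rw [← h]
      simp)
  obtain ⟨j, hj⟩ : ∃ j, q j none < 0 := by
    by_contra hc
    push Not at hc
    have h5 := h3 none
    have h6 : (0 : ℝ) ≤ ∑ j, t j * q j none :=
      sum_nonneg fun j _ => mul_nonneg (ht j).le (Int.cast_nonneg (hc j))
    simp only [Option.elim] at h5
    linarith
  obtain ⟨m, hm⟩ := Int.eq_ofNat_of_zero_le (neg_nonneg.2 hj.le)
  refine ⟨m, by omega, ?_⟩
  have h5 := h4 j
  simp only [Fintype.sum_option, Option.elim] at h5
  rw [← natCast_zsmul, ← hm, neg_smul, neg_eq_of_add_eq_zero_right h5]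
  refine Free.sum _ fun i _ => ?_
  obtain ⟨m', hm'⟩ := Int.eq_ofNat_of_zero_le (h1 j (some i) (hf i).1)
  rw [hm', natCast_zsmul]
  exact (hf i).2.nsmul m'

/-! ### the asymptotic orders -/

/-- monotone orders (`ord v hv`, `od B e`, `0`) -/
def Mo (o : BD ℂ F →+ ℤ) : Prop := ∀ a, 0 ≤ a → 0 ≤ o a

/-- `x` has a fixed part of order `≤ t` -/
def W (o : BD ℂ F →+ ℤ) (x : RD F) (t : ℝ) : Prop := ∃ y, Fx x y ∧ xt o y ≤ t

/-- `x` is pseudo-effective and `σ_o (x) ≤ t` -/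
def Z (o : BD ℂ F →+ ℤ) (x : RD F) (t : ℝ) : Prop :=
  ∀ h : BD ℂ F, Big h → ∀ η : ℝ, 0 < η → ∃ ε₀ : ℝ, 0 < ε₀ ∧ ∀ ε : ℝ, 0 < ε → ε ≤ ε₀ →
    W o (x + ε • em h) (t + η)

/-- pseudo-effective -/
def Ps (x : RD F) : Prop := Z 0 x 0

/-- `ν = σ_o (x)` -/
def IsSig (o : BD ℂ F →+ ℤ) (x : RD F) (ν : ℝ) : Prop := Z o x ν ∧ ∀ t, Z o x t → ν ≤ t

/-- ample real divisors -/
def AmpR (P : PModel ℂ F) (α : RD F) : Prop :=
  OnR P α ∧ ∃ θ : ℝ, 0 < θ ∧ FreeR (α - θ • em (oP P))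

end Crest.Agent.X262.FG.Sg
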