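import Crest.Agent.X262.FG.NvDefs2

/-!
# Row 262, FG, section 5 (helper29): the calculus of the asymptotic orders

`W`, `Z`, `Ps` are convex cones; `z_of_seq`, `z_of_lim`, `z_of_add`, `exists_sig`;
`Pf.sub`, `Pf.upg`, `Pf.bound` for primes of a model; `pfB`, `isClosed_ps`, `hart`.
-/

set_option autoImplicit false

open Finset

noncomputable section

namespace Crest.Agent.X262.FG

open Crest.Agent.X277 Crest.Agent.X277.Lef Crest.Agent.X277.AN.G1 Crest.Agent.X277.BD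
open Crest.Agent.X277.BD.Br (oP)
open Crest.Agent.X277.Res.Log (Bd)

variable {F : Type} [Field F] [Algebra ℂ F] {P : PModel ℂ F}

namespace Sg

variable {o : BD ℂ F →+ ℤ} {x y x' : RD F} {t t' c ε : ℝ} {a h : BD ℂ F}

theorem mo_zero : Mo (0 : BD ℂ F →+ ℤ) := fun _ _ => le_rfl

theorem mo_ord (v : Valuation F (WithZero (Multiplicative ℤ)))
    (hv : ∀ c : ℂ, v (algebraMap ℂ F c) ≤ 1) : Mo (ord v hv) := fun _ h => ord_nonneg h

theorem Mo.xt (ho : Mo o) (hy : PosR y) : 0 ≤ xt o y := hy.xt_nonneg ho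

theorem Mo.le (ho : Mo o) {a b : BD ℂ F} (h : a ≤ b) : o a ≤ o b := by
  have h1 := ho _ (sub_nonneg.2 h)
  rwa [map_sub, sub_nonneg] at h1

theorem Fx.w (h : Fx x y) : W o x (xt o y) := ⟨y, h, le_rfl⟩

theorem W.add (h : W o x t) (h' : W o x' t') : W o (x + x') (t + t') := by
  obtain ⟨y, h1, h2⟩ := h
  obtain ⟨y', h3, h4⟩ := h'
  exact ⟨y + y', h1.add h3, by rw [map_add]; exact add_le_add h2 h4⟩

theorem W.smul (h : W o x t) (hc : 0 ≤ c) : W o (c • x) (c * t) := by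
  obtain ⟨y, h1, h2⟩ := h
  exact ⟨c • y, h1.smul hc, by rw [map_smul]; exact mul_le_mul_of_nonneg_left h2 hc⟩

theorem W.mono (h : W o x t) (ht : t ≤ t') : W o x t' := h.imp fun _ h => ⟨h.1, h.2.trans ht⟩

theorem w_free (hx : FreeR x) : W o x 0 := ⟨0, fx_free hx, (map_zero _).le⟩

theorem W.add_free (h : W o x t) (hy : FreeR y) : W o (x + y) t := by
  simpa using h.add (w_free hy)

theorem W.nonneg (ho : Mo o) (h : W o x t) : 0 ≤ t := by
  obtain ⟨y, h1, h2⟩ := h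
  exact (ho.xt h1.1).trans h2

theorem fx_eff (ha : Eff a) : ∃ y, Fx (em a) y := by
  obtain ⟨s, hs, h0⟩ := ha
  exact ⟨_, fx_sec hs h0⟩

theorem fx_big (hh : Big h) (b : BD ℂ F) : ∃ N : ℝ, 0 < N ∧ ∃ y, Fx (em h - N⁻¹ • em b) y := by
  obtain ⟨m, hm, he⟩ := hh b
  obtain ⟨y, hy⟩ := fx_eff he
  have hm' : (0 : ℝ) < m := Nat.cast_pos.2 hm
  refine ⟨m, hm', (m : ℝ)⁻¹ • y, ?_⟩
  have h1 := hy.smul (inv_nonneg.2 hm'.le)
  rwa [map_sub, em_nsmul, smul_sub, smul_smul, inv_mul_cancel₀ hm'.ne', one_smul] at h1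

theorem exists_w_big (hh : Big h) (o : BD ℂ F →+ ℤ) (b : BD ℂ F) :
    ∃ N c : ℝ, 0 < N ∧ 0 < c ∧ W o (em h - N⁻¹ • em b) c := by
  obtain ⟨N, hN, y, hy⟩ := fx_big hh b
  exact ⟨N, max (xt o y) 1, hN, lt_max_of_lt_right one_pos, hy.w.mono (le_max_left _ _)⟩

/-- one big divisor and one sequence suffice -/
theorem z_of_seq {h₀ : BD ℂ F} (hb : Big h₀) (H : ∀ η : ℝ, 0 < η → ∀ ε₀ : ℝ, 0 < ε₀ →
    ∃ ε : ℝ, 0 < ε ∧ ε ≤ ε₀ ∧ W o (x + ε • em h₀) (t + η)) : Z o x t := fun h hh η hη => by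
  obtain ⟨N, c, hN, hc, h1⟩ := exists_w_big hh o h₀
  obtain ⟨_, c₀, -, hc₀, h2⟩ := exists_w_big hb o 0
  rw [map_zero, smul_zero, sub_zero] at h2
  have hk : 0 < c + N⁻¹ * c₀ := by positivity
  refine ⟨η / 2 / (c + N⁻¹ * c₀), by positivity, fun ε hε hε' => ?_⟩
  obtain ⟨e, he, he', h3⟩ := H (η / 2) (half_pos hη) (ε * N⁻¹) (by positivity)
  have h4 := (h3.add (h1.smul hε.le)).add (h2.smul (sub_nonneg.2 he'))
  rw [le_div_iff₀ hk] at hε'
  refine W.mono (by convert h4 using 1; module) (by nlinarith [mul_pos he hc₀])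

theorem W.z (h : W o x t) : Z o x t := fun b hb η hη => by
  obtain ⟨_, c, -, hc, h2⟩ := exists_w_big hb o 0
  rw [map_zero, smul_zero, sub_zero] at h2
  refine ⟨η / c, by positivity, fun ε hε hε' => (h.add (h2.smul hε.le)).mono ?_⟩
  rw [le_div_iff₀ hc] at hε'
  linarith

theorem Z.mono (h : Z o x t) (ht : t ≤ t') : Z o x t' := fun b hb η hη => by
  obtain ⟨e, he, h1⟩ := h b hb η hη
  exact ⟨e, he, fun ε hε hε' => (h1 ε hε hε').mono (by linarith)⟩

theorem Z.add (h : Z o x t) (h' : Z o x' t') : Z o (x + x') (t + t') := fun b hb η hη => by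
  obtain ⟨e, he, h1⟩ := h b hb _ (half_pos hη)
  obtain ⟨e', he', h2⟩ := h' b hb _ (half_pos hη)
  refine ⟨min e e', lt_min he he', fun ε hε hε' => ?_⟩
  have h3 := (h1 (ε / 2) (half_pos hε) (by linarith [min_le_left e e'])).add
    (h2 (ε / 2) (half_pos hε) (by linarith [min_le_right e e']))
  refine W.mono (by convert h3 using 1; module) (by linarith)

theorem z_free (hx : FreeR x) : Z o x 0 := (w_free hx).z

theorem z_zero : Z o (0 : RD F) 0 := z_free Cn.zero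

theorem z_pos (hy : PosR y) : Z o y (xt o y) := (fx_pos hy).w.z

theorem Z.smul (h : Z o x t) (hc : 0 ≤ c) : Z o (c • x) (c * t) := by
  rcases hc.eq_or_lt with rfl | hc
  · simpa using z_zero
  · intro b hb η hη
    obtain ⟨e, he, h1⟩ := h b hb _ (div_pos hη hc)
    refine ⟨c * e, mul_pos hc he, fun ε hε hε' => ?_⟩
    have h2 := (h1 (ε / c) (div_pos hε hc) (by rwa [div_le_iff₀' hc])).smul hc.le
    rwa [smul_add, smul_smul, mul_add, mul_div_cancel₀ _ hc.ne', mul_div_cancel₀ _ hc.ne'] at h2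

theorem z_sum {α : Type*} (s : Finset α) {x : α → RD F} {t : α → ℝ}
    (h : ∀ i ∈ s, Z o (x i) (t i)) : Z o (∑ i ∈ s, x i) (∑ i ∈ s, t i) := by
  classical
  induction s using Finset.induction_on with
  | empty => simpa using z_zero
  | insert i s hi ih =>
    rw [sum_insert hi, sum_insert hi]
    exact (h i (mem_insert_self _ _)).add (ih fun j hj => h j (mem_insert_of_mem hj))

theorem Z.add_free (h : Z o x t) (hy : FreeR y) : Z o (x + y) t := by
  simpa using h.add (z_free hy)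

theorem Z.ps (h : Z o x t) : Ps x := fun b hb η hη => by
  obtain ⟨e, he, h1⟩ := h b hb η hη
  refine ⟨e, he, fun ε hε hε' => ?_⟩
  obtain ⟨y, h2, -⟩ := h1 ε hε hε'
  exact ⟨y, h2, by rw [xt_zero]; linarith⟩

theorem Z.nonneg' (ho : Mo o) (hb : Big h) (H : Z o x t) : 0 ≤ t :=
  le_of_forall_pos_le_add fun η hη => by
    obtain ⟨e, he, h1⟩ := H h hb η hη
    exact (h1 e he le_rfl).nonneg ho

theorem z_of_lim' (hb : Big h) (H : ∀ η : ℝ, 0 < η → Z o x (t + η)) : Z o x t :=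
  z_of_seq hb fun η hη ε₀ hε₀ => by
    obtain ⟨e, he, h1⟩ := H _ (half_pos hη) h hb _ (half_pos hη)
    exact ⟨min e ε₀, lt_min he hε₀, min_le_right _ _,
      (h1 _ (lt_min he hε₀) (min_le_left _ _)).mono (by linarith)⟩

theorem z_of_lim (H : ∀ η : ℝ, 0 < η → Z o x (t + η)) : Z o x t := fun h hb =>
  z_of_lim' hb H h hb

theorem z_of_add' (hb : Big h) (H : ∀ ε₀ : ℝ, 0 < ε₀ → ∃ ε : ℝ, 0 < ε ∧ ε ≤ ε₀ ∧
    Z o (x + ε • em h) t) : Z o x t := z_of_seq hb fun η hη ε₀ hε₀ => by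
  obtain ⟨ε, hε, hε', h0⟩ := H _ (half_pos hε₀)
  obtain ⟨e, he, h1⟩ := h0 h hb η hη
  have h2 := h1 (min e ε) (lt_min he hε) (min_le_left _ _)
  rw [add_assoc, ← add_smul] at h2
  exact ⟨_, add_pos hε (lt_min he hε), by linarith [min_le_right e ε], h2⟩

theorem z_of_add (hb : Big h) (H : ∀ ε : ℝ, 0 < ε → Z o (x + ε • em h) t) : Z o x t :=
  z_of_add' hb fun ε hε => ⟨ε, hε, le_rfl, H ε hε⟩

theorem z_nef (ha : Nef a) : Z o (em a) 0 := fun h hb η hη => by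
  obtain ⟨f, hf, H⟩ := ha
  obtain ⟨N, c, hN, hc, h1⟩ := exists_w_big hb o f
  refine ⟨η / c, by positivity, fun ε hε hε' => ?_⟩
  obtain ⟨m, hm⟩ := exists_nat_gt (N / ε)
  have hm0 : (0 : ℝ) < m := (div_pos hN hε).trans hm
  obtain ⟨r, hr, h2⟩ := H m
  have hr0 : (0 : ℝ) < r := Nat.cast_pos.2 hr
  have h3 : (m : ℝ)⁻¹ ≤ ε * N⁻¹ := by
    rw [← div_eq_mul_inv, inv_le_comm₀ hm0 (div_pos hε hN), inv_div]
    exact hm.le
  have h4 := ((h1.smul hε.le).add_free ((Cn.of h2).smul (c := (r : ℝ)⁻¹ * (m : ℝ)⁻¹)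
    (by positivity))).add_free ((Cn.of hf).smul (sub_nonneg.2 h3))
  rw [em_nsmul, map_add, em_nsmul] at h4
  rw [le_div_iff₀ hc] at hε'
  refine W.mono ?_ (show ε * c ≤ 0 + η by linarith)
  convert h4 using 1
  match_scalars
  · field_simp
  · ring
  · field_simp
    ring

theorem Ps.add (h : Ps x) (h' : Ps x') : Ps (x + x') := (Z.add h h').ps

theorem Ps.smul (h : Ps x) (hc : 0 ≤ c) : Ps (c • x) := (Z.smul h hc).ps

theorem ps_pos (hy : PosR y) : Ps y := (z_pos (o := 0) hy).ps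

theorem ps_free (hy : FreeR y) : Ps y := z_free hy

theorem Fx.ps (h : Fx x y) : Ps x := (h.w (o := 0)).z.ps

theorem ps_eff (ha : Eff a) : Ps (em a) := (fx_eff ha).elim fun _ h => h.ps

theorem fx_lr {J : Type} [Fintype J] {a : J → BD ℂ F} (ha : ∀ j, Eff (a j)) {t : J → ℝ}
    (ht : ∀ j, 0 ≤ t j) : ∃ y, Fx (lr a t) y :=
  sum_induction _ (fun x => ∃ y, Fx x y) (fun _ _ ⟨_, h⟩ ⟨_, h'⟩ => ⟨_, h.add h'⟩)
    ⟨0, fx_free Cn.zero⟩ fun j _ => (fx_eff (ha j)).elim fun _ h => ⟨_, h.smul (ht j)⟩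

theorem Ps.fx (H : Ps x) (hb : Big h) (hε : 0 < ε) : ∃ y, Fx (x + ε • em h) y := by
  obtain ⟨e, he, h1⟩ := H h hb 1 one_pos
  obtain ⟨y, h2, -⟩ := h1 (min e ε) (lt_min he hε) (min_le_left _ _)
  obtain ⟨_, -, y', h3⟩ := fx_big hb 0
  rw [map_zero, smul_zero, sub_zero] at h3
  have h4 := h2.add (h3.smul (sub_nonneg.2 (min_le_right e ε)))
  rw [add_assoc, ← add_smul, add_sub_cancel] at h4
  exact ⟨_, h4⟩

theorem ps_of_add (hb : Big h) (H : ∀ ε : ℝ, 0 < ε → Ps (x + ε • em h)) : Ps x := z_of_add hb H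

theorem not_z (hb : Big h) (H : ¬ Z o x t) : ∃ ε₀ : ℝ, 0 < ε₀ ∧ ∀ ε : ℝ, 0 < ε → ε ≤ ε₀ →
    ∀ y, Fx (x + ε • em h) y → t < xt o y := by
  by_contra hc
  push Not at hc
  refine H (z_of_seq hb fun η hη ε₀ hε₀ => ?_)
  obtain ⟨ε, h1, h2, y, h3, h4⟩ := hc ε₀ hε₀
  exact ⟨ε, h1, h2, y, h3, by linarith⟩

theorem exists_sig' (hb : Big h) (ho : Mo o) (H : Z o x t) : ∃ ν, IsSig o x ν := by
  have hB : BddBelow {t | Z o x t} := ⟨0, fun _ h => h.nonneg' ho hb⟩
  refine ⟨sInf {t | Z o x t}, z_of_lim fun η hη => ?_, fun t ht => csInf_le hB ht⟩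
  obtain ⟨s, hs, h1⟩ := exists_lt_of_csInf_lt (s := {t | Z o x t}) ⟨t, H⟩ (lt_add_of_pos_right _ hη)
  exact Z.mono hs h1.le

theorem isClosed_ps {κ : Type} [Fintype κ] {D : κ → BD ℂ F} (hD : ∀ k, D k ∈ Br.On P) :
    IsClosed {x | Ps (lr D x)} := by
  obtain ⟨N, hN, h⟩ := exists_freeR hD
  refine isClosed_of_closure_subset fun x hx => ps_of_add (big_oP P) fun ε hε => ?_
  obtain ⟨x', h1, h2⟩ := Metric.mem_closure_iff.1 hx (ε / N) (div_pos hε hN)
  rw [dist_eq_norm, lt_div_iff₀' hN] at h2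
  have h3 := Ps.add h1 (ps_free (h ε _ h2.le))
  rwa [map_sub, add_comm (ε • _), ← add_assoc, add_sub_cancel] at h3

theorem OnR.exists_lr (hx : OnR P x) : ∃ (I : Type) (_ : Fintype I) (g : I → BD ℂ F) (r : I → ℝ),
    (∀ i, g i ∈ Br.On P) ∧ x = lr g r := by
  obtain ⟨I, _, g, r, h, rfl⟩ := hx
  exact ⟨I, inferInstance, g, r, fun i => (h i).2, rfl⟩

theorem onR_oP (c : ℝ) : OnR P (c • em (oP P)) := onR_smul (Cn.of Br.oP_mem) c

/-- exceptional divisors do not create sections -/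
theorem hart_fx {E : BD ℂ F} (hE : ∀ a ∈ Br.On P, ∀ m : ℕ, (a + m • E).Sec = a.Sec) (hx : OnR P x)
    (hc : 0 ≤ c) (h : Fx (x + c • em E) y) : ∃ y', Fx x y' := by
  obtain ⟨I, _, g, r, hg, rfl⟩ := hx.exists_lr
  have e : lr g r + c • em E = lr (fun i : Option I => i.elim E g) fun i => i.elim c r := by
    simp [lr_apply, add_comm]
  rw [e] at h
  obtain ⟨J, _, t, q, M, ht, h1, h2, h3, -⟩ := h.exists_int
  have h4 : lr g r = lr (fun j => ∑ i, q j (some i) • g i) t := by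
    simp only [lr_apply, map_sum, em_zsmul, smul_sum, smul_smul]
    rw [sum_comm]
    refine sum_congr rfl fun i _ => ?_
    rw [← sum_smul, h2 (some i), Option.elim]
  rw [h4]
  refine fx_lr (fun j => ?_) fun j => (ht j).le
  obtain ⟨m, hm⟩ := Int.eq_ofNat_of_zero_le (h1 j none hc)
  obtain ⟨s, hs, h0⟩ := (h3 j).1.eff.mono (h3 j).2
  simp only [Fintype.sum_option, Option.elim, hm, natCast_zsmul] at hs
  rw [add_comm, hE _ (sum_mem fun i _ => zsmul_mem (hg i) _)] at hs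
  exact ⟨s, hs, h0⟩

theorem hart {E : BD ℂ F} (hx : OnR P x) (hc : 0 ≤ c)
    (hE : ∀ a ∈ Br.On P, ∀ m : ℕ, (a + m • E).Sec = a.Sec) (h : Ps (x + c • em E)) : Ps x :=
  ps_of_add (big_oP P) fun ε hε => by
    obtain ⟨y, hy⟩ := h.fx (big_oP P) hε
    rw [add_right_comm] at hy
    exact (hart_fx hE (hx.add (onR_oP ε)) hc hy).elim fun _ h => h.ps

section Num

variable [Algebra.EssFiniteType ℂ F] {l : List (BD ℂ F)}

theorem exists_big (F : Type) [Field F] [Algebra ℂ F] [Algebra.EssFiniteType ℂ F] :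
    ∃ h : BD ℂ F, Big h := (exists_va ℂ F).imp fun _ h => h.1.big

theorem Z.nonneg (ho : Mo o) (H : Z o x t) : 0 ≤ t := (exists_big F).elim fun _ h => H.nonneg' ho h

theorem exists_sig (ho : Mo o) (H : Z o x t) : ∃ ν, IsSig o x ν :=
  (exists_big F).elim fun _ h => exists_sig' h ho H

theorem mo_bnumL (hl : ∀ a ∈ l, Nef a) : Mo (bnumL l) := fun _ h =>
  (eff_of_nonneg h).bnum_nonneg hl

theorem Fx.xt_le (h : Fx x y) (hl : ∀ a ∈ l, Nef a) : xt (bnumL l) y ≤ xt (bnumL l) x := by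
  have h1 := h.2.xt_nonneg (φ := bnumL l) fun _ h => h.eff.bnum_nonneg hl
  rwa [map_sub, sub_nonneg] at h1

theorem Ps.xt_nonneg (H : Ps x) (hl : ∀ a ∈ l, Nef a) : 0 ≤ xt (bnumL l) x := by
  obtain ⟨h, hb⟩ := exists_big F
  refine le_of_forall_pos_le_add fun η hη => ?_
  have hc : 0 < |xt (bnumL l) (em h)| + 1 := by positivity
  obtain ⟨y, hy⟩ := H.fx hb (div_pos hη hc)
  have h1 := ((mo_bnumL hl).xt hy.1).trans (hy.xt_le hl)
  rw [map_add, map_smul, smul_eq_mul] at h1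
  refine h1.trans (add_le_add_right ?_ _)
  rw [div_mul_eq_mul_div, div_le_iff₀ hc]
  gcongr
  linarith [le_abs_self (xt (bnumL l) (em h))]

end Num

end Sg

/-! ### primes of a model -/

namespace Pf

open Sg

variable {ι : Type} (X : Pf P ι) {x y : RD F} {t ε : ℝ} {a : BD ℂ F}

theorem mo (i : ι) : Mo (X.o i) := mo_ord _ _

theorem o_self (i : ι) : X.o i (X.Γ i) = 1 := X.self i

theorem o_ne {i j : ι} (h : i ≠ j) : X.o i (X.Γ j) = 0 := X.ne i j h

/-- a subfamily -/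
def sub' {ι' : Type} (f : ι' → ι) (hf : Function.Injective f) : Pf P ι' where
  v i := X.v (f i)
  hv i := X.hv (f i)
  Γ i := X.Γ (f i)
  mem i := X.mem (f i)
  nonneg i := X.nonneg (f i)
  self i := X.self (f i)
  ne _ _ h := X.ne _ _ (hf.ne h)
  le i := X.le (f i)

theorem sum_le (ha : a ∈ Br.On P) (h0 : 0 ≤ a) (s : Finset ι) : ∑ i ∈ s, X.o i a • X.Γ i ≤ a := by
  classical
  induction s using Finset.induction_on with
  | empty => simpa using h0
  | insert i s hi ih =>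
    have h1 := X.le i _ (sub_mem ha (sum_mem fun j (_ : j ∈ s) => zsmul_mem (X.mem j) (X.o j a)))
      (sub_nonneg.2 ih)
    have h2 : X.o i (∑ j ∈ s, X.o j a • X.Γ j) = 0 := by
      rw [map_sum]
      exact sum_eq_zero fun j hj => by
        rw [map_zsmul, X.o_ne (i := i) (j := j) fun h => hi (h ▸ hj), smul_zero]
    change X.o i _ • _ ≤ _ at h1
    rw [map_sub, h2, sub_zero] at h1
    rw [sum_insert hi]
    exact le_sub_iff_add_le.1 h1

theorem sum_le_sub (ha : a ∈ Br.On P) {M : BD ℂ F} (hM : Free M) (h : M ≤ a) (s : Finset ι) :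
    ∑ i ∈ s, X.o i (a - M) • X.Γ i ≤ a - M := by
  rw [le_sub_comm, hM.le_iff]
  intro f hf
  by_cases h0 : f = 0
  · rw [h0]
    exact zero_mem _
  have h1 := (pr_le_iff h0).2 hf
  rw [← pr_le_iff h0, le_sub_comm]
  refine le_trans (sum_le_sum fun i _ => ?_)
    (X.sum_le (sub_mem ha (Br.pr_mem f)) (sub_nonneg.2 (h1.trans h)) s)
  rw [← sub_nonneg, ← sub_smul]
  exact zsmul_nonneg (X.nonneg i) (sub_nonneg.2 ((X.mo i).le (sub_le_sub_left h1 a)))

section Fin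

variable [Fintype ι]

theorem xt_lr_Γ (ν : ι → ℝ) (i : ι) : xt (X.o i) (lr X.Γ ν) = ν i := by
  rw [xt_lr, sum_eq_single i (fun j _ h => by rw [X.o_ne h.symm]; simp) (by simp), X.o_self]
  simp

theorem posR_lr {ν : ι → ℝ} (h : ∀ i, 0 ≤ ν i) : PosR (lr X.Γ ν) := Cn.lr h X.nonneg

theorem posR_sub (hx : OnR P x) (h : Fx x y) : PosR (y - lr X.Γ fun i => xt (X.o i) y) := by
  obtain ⟨I, _, g, r, hg, rfl⟩ := hx.exists_lr
  obtain ⟨J, _, t, q, M, ht, -, -, h3, rfl⟩ := h.exists_int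
  set A : J → BD ℂ F := fun j => ∑ k, q j k • g k - M j with hA
  have e : lr A t - lr X.Γ (fun i => xt (X.o i) (lr A t)) =
      lr (fun j => A j - ∑ i, X.o i (A j) • X.Γ i) t := by
    simp only [xt_lr]
    simp only [lr_apply, map_sub, smul_sub, sum_sub_distrib, map_sum, em_zsmul, smul_sum,
      smul_smul, sum_smul]
    rw [sum_comm]
  rw [e]
  exact Cn.lr (fun j => (ht j).le) fun j => sub_nonneg.2
    (X.sum_le_sub (sum_mem fun k _ => zsmul_mem (hg k) _) (h3 j).1 (h3 j).2 _)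

theorem fx_sub (hx : OnR P x) (h : Fx x y) {ν : ι → ℝ} (hν : ∀ i, ν i ≤ xt (X.o i) y) :
    Fx (x - lr X.Γ ν) (y - lr X.Γ ν) := by
  refine ⟨?_, by simpa only [sub_sub_sub_cancel_right] using h.2⟩
  have h1 := (X.posR_sub hx h).add (X.posR_lr fun i => sub_nonneg.2 (hν i))
  rwa [show (fun i => xt (X.o i) y - ν i) = (fun i => xt (X.o i) y) - ν from rfl, map_sub,
    sub_add_sub_cancel] at h1

/-- **the negative part can be subtracted** -/
theorem sub {o : BD ℂ F →+ ℤ} {ν : ι → ℝ} (hx : OnR P x)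
    (low : ∀ i t, Z (X.o i) x t → ν i ≤ t) (H : Z o x t) :
    Z o (x - lr X.Γ ν) (t - xt o (lr X.Γ ν)) := z_of_seq (big_oP P) fun η hη ε₀ hε₀ => by
  obtain ⟨N, hN, h1⟩ := exists_freeR X.mem
  let c := |xt o (lr X.Γ 1)| + 1
  have hc : 0 < c := by positivity
  let δ := min (η / 2 / c) (ε₀ / 2 / N)
  have hδ : 0 < δ := lt_min (by positivity) (by positivity)
  choose e he h2 using fun i => not_z (big_oP P) (o := X.o i) (x := x) (t := ν i - δ)
    fun h => absurd (low i _ h) (by linarith)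
  obtain ⟨e', he', h3⟩ := H _ (big_oP P) _ (half_pos hη)
  obtain ⟨ε, hε, h4, h5, h6⟩ : ∃ ε : ℝ, 0 < ε ∧ ε ≤ ε₀ / 2 ∧ ε ≤ e' ∧ ∀ i, ε ≤ e i := by
    obtain ⟨m, hm, h⟩ : ∃ m : ℝ, 0 < m ∧ ∀ i, m ≤ e i := by
      rcases isEmpty_or_nonempty ι with h | h
      · exact ⟨1, one_pos, fun i => isEmptyElim i⟩
      · obtain ⟨i, hi⟩ := Finite.exists_min e
        exact ⟨e i, he i, hi⟩
    exact ⟨min (ε₀ / 2) (min e' m), by positivity, min_le_left _ _,
      (min_le_right _ _).trans (min_le_left _ _),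
      fun i => ((min_le_right _ _).trans (min_le_right _ _)).trans (h i)⟩
  obtain ⟨y, h7, h8⟩ := h3 ε hε h5
  have h9 := (X.fx_sub (hx.add (onR_oP ε)) h7 (ν := ν - δ • 1) fun i => by
    simpa using (h2 i ε hε (h6 i) y h7).le).add_free (h1 (ε₀ / 2) (-(δ • 1)) (by
      rw [norm_neg, ← le_div_iff₀' hN]
      exact (pi_norm_le_iff_of_nonneg (by positivity)).2 fun i => by
        rw [Pi.smul_apply, Pi.one_apply, smul_eq_mul, mul_one, Real.norm_eq_abs, abs_of_pos hδ]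
        exact min_le_right _ _))
  refine ⟨ε + ε₀ / 2, by positivity, by linarith, y - lr X.Γ (ν - δ • 1), ?_, ?_⟩
  · convert h9 using 1
    rw [map_sub, map_neg]
    module
  · have h10 : δ * c ≤ η / 2 := (le_div_iff₀ hc).1 (min_le_left _ _)
    have h11 : δ * xt o (lr X.Γ 1) ≤ δ * c := by
      gcongr
      linarith [le_abs_self (xt o (lr X.Γ 1))]
    simp only [map_sub, map_smul, smul_eq_mul]
    linarith

theorem sub_sig {ν : ι → ℝ} (hx : OnR P x) (h : ∀ i, IsSig (X.o i) x (ν i)) (i : ι) :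
    Z (X.o i) (x - lr X.Γ ν) 0 := by
  have h1 := X.sub hx (fun i => (h i).2) (h i).1
  rwa [X.xt_lr_Γ, sub_self] at h1

end Fin

theorem fx_sub_one (hx : OnR P x) (h : Fx x y) (i : ι) :
    PosR (y - xt (X.o i) y • em (X.Γ i)) := by
  have h1 := (X.sub' (fun _ : Unit => i) fun _ _ _ => rfl).posR_sub hx h
  rw [lr_apply, Fintype.sum_unique] at h1
  exact h1

/-- order zero is attained after adding an ample divisor -/
theorem upg {i : ι} (hx : OnR P x) (H : Z (X.o i) x 0) (hε : 0 < ε) :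
    W (X.o i) (x + ε • em (oP P)) 0 := by
  obtain ⟨N, hN, h1⟩ := OnR.exists_freeR (Cn.of (X.mem i))
  obtain ⟨e, he, h2⟩ := H _ (big_oP P) (ε / 2 / N) (by positivity)
  have h0 := min_le_right e (ε / 2)
  obtain ⟨y, h3, h4⟩ := h2 (min e (ε / 2)) (by positivity) (min_le_left _ _)
  refine ⟨_, ⟨X.fx_sub_one (hx.add (onR_oP _)) h3 i, ?_⟩, by simp [X.o_self]⟩
  have h5 := h3.2.add (h1 (ε - min e (ε / 2)) (xt (X.o i) y) (by
    rw [abs_of_nonneg ((X.mo i).xt h3.1)]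
    rw [zero_add, le_div_iff₀' hN] at h4
    linarith))
  convert h5 using 1
  module

/-- the asymptotic order is bounded by the degree -/
theorem bound [Algebra.EssFiniteType ℂ F] {i : ι} {l : List (BD ℂ F)} (hl : ∀ a ∈ l, Nef a)
    (hd : 0 < bnum (X.Γ i :: l)) (hx : OnR P x) (H : Ps x) :
    Z (X.o i) x (xt (bnumL l) x / bnum (X.Γ i :: l)) :=
  z_of_seq (big_oP P) fun η hη ε₀ hε₀ => by
    have hd' : (0 : ℝ) < bnum (X.Γ i :: l) := Int.cast_pos.2 hd
    have hc : 0 < |xt (bnumL l) (em (oP P))| + 1 := by positivity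
    let ε := min ε₀ (η * bnum (X.Γ i :: l) / (|xt (bnumL l) (em (oP P))| + 1))
    have hε : 0 < ε := lt_min hε₀ (by positivity)
    obtain ⟨y, hy⟩ := H.fx (big_oP P) hε
    refine ⟨ε, hε, min_le_left _ _, y, hy, ?_⟩
    have h1 := (mo_bnumL hl).xt (X.fx_sub_one (hx.add (onR_oP ε)) hy i)
    have h2 := hy.xt_le hl
    rw [map_sub, map_smul, xt_em, smul_eq_mul, sub_nonneg] at h1
    rw [map_add, map_smul, smul_eq_mul] at h2
    have h3 := (le_div_iff₀ hc).1 (min_le_right ε₀ _ : ε ≤ _)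
    have h4 := mul_le_mul_of_nonneg_left (le_abs_self (xt (bnumL l) (em (oP P)))) hε.le
    rw [div_add' _ _ _ hd'.ne', le_div_iff₀ hd']
    change _ * ((bnum (X.Γ i :: l) : ℤ) : ℝ) ≤ _ at h1
    nlinarith

end Pf

namespace Sg

variable {n : ℕ}

theorem cp_mem (B : Bd P n) (e : B.ι) : cp B e ∈ Br.On P := dvs_mem B _

theorem dvs_eq_cp (B : Bd P n) (c : B.ι → ℤ) : em (dvs B c) = lr (cp B) fun e => (c e : ℝ) := by
  rw [lr_zc, dvs_eq_sum]
  rfl

theorem od_cp_self (B : Bd P n) (e : B.ι) : od B e (cp B e) = 1 := by simp [cp]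

theorem od_cp_ne (B : Bd P n) {e e' : B.ι} (h : e ≠ e') : od B e (cp B e') = 0 := by
  simp [cp, h]

theorem cp_nonneg (B : Bd P n) (e : B.ι) : 0 ≤ cp B e := by
  classical
  exact dvs_nonneg fun e' => by
    rw [Pi.single_apply]
    split_ifs <;> norm_num

theorem cp_le (B : Bd P n) (e : B.ι) : ∀ (m : ℕ) (a : BD ℂ F), a ∈ Br.On P → 0 ≤ a →
    od B e a = m → m • cp B e ≤ a
  | 0, a, _, h, _ => by simpa using h
  | m + 1, a, ha, h, hm => by
    have h1 : 0 ≤ a - cp B e := nonneg_iff.2 (mem_Sec_sub_single ha (nonneg_iff.1 h) (by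
      rw [map_one, ← exp_od, hm, ← WithZero.exp_zero, WithZero.exp_lt_exp]
      omega))
    have h2 := cp_le B e m _ (sub_mem ha (cp_mem B e)) h1 (by rw [map_sub, od_cp_self, hm]; omega)
    rw [succ_nsmul]
    exact le_sub_iff_add_le.1 h2

/-- the components of a boundary as a family of primes -/
def pfB (B : Bd P n) : Pf P B.ι where
  v := B.v
  hv := triv B
  Γ := cp B
  mem := cp_mem B
  nonneg := cp_nonneg B
  self := od_cp_self B
  ne _ _ h := od_cp_ne B h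
  le e a ha h := by
    obtain ⟨m, hm⟩ := Int.eq_ofNat_of_zero_le (od_nonneg (B := B) (e := e) h)
    change od B e a • _ ≤ _
    rw [hm, natCast_zsmul]
    exact cp_le B e m a ha h hm

theorem pfB_o (B : Bd P n) (e : B.ι) : (pfB B).o e = od B e := rfl

theorem pfB_Γ (B : Bd P n) : (pfB B).Γ = cp B := rfl

/-- primes have positive degree -/
theorem _root_.Crest.Agent.X262.FG.Pf.deg_pos [Algebra.EssFiniteType ℂ F] (hp : PosStmt n)
    (b : Module.Basis (Fin (n + 1)) F (KaehlerDifferential ℂ F)) {ι : Type} (X : Pf P ι) (i : ι) :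
    0 < bnum (X.Γ i :: List.replicate n (oP P)) := by
  refine lt_of_le_of_ne ((eff_of_nonneg (X.nonneg i)).bnum_nonneg
    (all_rp Br.free_oP.nef n)) fun h => ?_
  have h1 := X.self i
  rw [hp F P b _ (X.mem i) (X.nonneg i) h.symm, map_zero] at h1
  exact zero_ne_one h1

theorem _root_.Crest.Agent.X262.FG.Pf.exists_sig [Algebra.EssFiniteType ℂ F] (hp : PosStmt n)
    (b : Module.Basis (Fin (n + 1)) F (KaehlerDifferential ℂ F)) {ι : Type} (X : Pf P ι)
    {x : RD F} (hx : OnR P x) (H : Ps x) (i : ι) : ∃ ν, IsSig (X.o i) x ν :=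
  Sg.exists_sig (X.mo i) (X.bound (all_rp Br.free_oP.nef n) (X.deg_pos hp b i) hx H)

end Sg

end Crest.Agent.X262.FG
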